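import Vale.Agent.P157.Plant.Main
import Vale.Agent.P157.Limit
import Mathlib.MeasureTheory.Measure.CharacteristicFunction.Basic

/-!
The sphere as a configuration space: the prior, and the reflections that move any point to the
vector of ones and preserve the Gaussian law and the prior.
-/

open MeasureTheory ProbabilityTheory Filter Topology Set
open scoped BigOperators

namespace Vale.Agent.P157.Sph

variable {N : ℕ}

/-- The inner product. -/
def dot (v w : Fin N → ℝ) : ℝ := ∑ i, v i * w i

lemma dot_self (v : Fin N → ℝ) : dot v v = sq2 v := Finset.sum_congr rfl fun i _ => (sq (v i)).symm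

lemma dot_comm (v w : Fin N → ℝ) : dot v w = dot w v := Finset.sum_congr rfl fun i _ => mul_comm _ _

lemma dot_sub_mul (v u w : Fin N → ℝ) (c : ℝ) :
    dot (fun i => v i - c * w i) u = dot v u - c * dot w u := by
  simp only [dot, Finset.mul_sum, ← Finset.sum_sub_distrib]
  exact Finset.sum_congr rfl fun i _ => by ring

lemma abs_dot_le (v w : Fin N → ℝ) : |dot v w| ≤ Real.sqrt (sq2 v) * Real.sqrt (sq2 w) := by
  rw [← Real.sqrt_mul (sq2_nonneg v)]
  exact Real.abs_le_sqrt (Finset.sum_mul_sq_le_sq_mul_sq _ _ _)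

/-- A configuration. -/
abbrev Cfg (N : ℕ) := {x : Fin N → ℝ // sq2 x = N}

/-- The coordinate. -/
def sp (b : Cfg N) (i : Fin N) : ℝ := b.1 i

/-- The vector of ones. -/
def ones (N : ℕ) : Cfg N := ⟨fun _ => 1, by simp [sq2]⟩

@[simp] lemma sp_ones (i : Fin N) : sp (ones N) i = 1 := rfl

lemma sum_sp_sq (b : Cfg N) : ∑ i, sp b i * sp b i = N := (dot_self b.1).trans b.2

lemma sum_sp_sq' (b : Cfg N) : ∑ i, sp b i ^ 2 = N := b.2

lemma abs_sp_le (b : Cfg N) (i : Fin N) : |sp b i| ≤ Real.sqrt N :=
  Real.abs_le_sqrt ((Finset.single_le_sum (f := fun j => sp b j ^ 2) (fun _ _ => sq_nonneg _)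
    (Finset.mem_univ i)).trans_eq b.2)

@[fun_prop]
lemma continuous_sp (i : Fin N) : Continuous fun b : Cfg N => sp b i := (continuous_apply i).comp continuous_subtype_val

@[fun_prop]
lemma measurable_sp (i : Fin N) : Measurable fun b : Cfg N => sp b i := (continuous_sp i).measurable

lemma isCompact_sphere : IsCompact {x : Fin N → ℝ | sq2 x = N} := by
  refine Metric.isCompact_of_isClosed_isBounded (isClosed_eq (by unfold sq2; fun_prop) continuous_const) ?_
  refine (Metric.isBounded_closedBall (x := (0 : Fin N → ℝ)) (r := Real.sqrt N)).subset fun x hx => ?_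
  rw [mem_closedBall_zero_iff]
  exact (pi_norm_le_iff_of_nonneg (Real.sqrt_nonneg _)).2 fun i => abs_sp_le ⟨x, hx⟩ i

instance : CompactSpace (Cfg N) := isCompact_iff_compactSpace.1 isCompact_sphere

/-- Bounded measurable functions of a configuration. -/
def Bd (h : Cfg N → ℝ) : Prop := Measurable h ∧ ∃ B, ∀ b, |h b| ≤ B

lemma Bd.of {h : Cfg N → ℝ} (hm : Measurable h) {B : ℝ} (hb : ∀ b, |h b| ≤ B) : Bd h := ⟨hm, B, hb⟩

lemma Bd.cont {h : Cfg N → ℝ} (hc : Continuous h) : Bd h := by
  obtain ⟨B, hB⟩ := isCompact_univ.exists_bound_of_continuousOn hc.continuousOn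
  exact ⟨hc.measurable, B, fun b => hB b (Set.mem_univ b)⟩

lemma Bd.const (x : ℝ) : Bd (fun _ : Cfg N => x) := Bd.cont continuous_const

lemma Bd.mul {h k : Cfg N → ℝ} (hh : Bd h) (hk : Bd k) : Bd (fun b => h b * k b) := by
  obtain ⟨hm, B, hB⟩ := hh
  obtain ⟨km, B', hB'⟩ := hk
  refine ⟨hm.mul km, B * B', fun b => ?_⟩
  rw [abs_mul]
  exact mul_le_mul (hB b) (hB' b) (abs_nonneg _) ((abs_nonneg _).trans (hB b))

lemma Bd.add {h k : Cfg N → ℝ} (hh : Bd h) (hk : Bd k) : Bd (fun b => h b + k b) := by
  obtain ⟨hm, B, hB⟩ := hh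
  obtain ⟨km, B', hB'⟩ := hk
  exact ⟨hm.add km, B + B', fun b => (abs_add_le _ _).trans (add_le_add (hB b) (hB' b))⟩

lemma Bd.sub {h k : Cfg N → ℝ} (hh : Bd h) (hk : Bd k) : Bd (fun b => h b - k b) := by
  obtain ⟨hm, B, hB⟩ := hh
  obtain ⟨km, B', hB'⟩ := hk
  exact ⟨hm.sub km, B + B', fun b => (abs_sub _ _).trans (add_le_add (hB b) (hB' b))⟩

lemma Bd.sum {ι : Type*} (s : Finset ι) {h : ι → Cfg N → ℝ} (hh : ∀ j ∈ s, Bd (h j)) :
    Bd (fun b => ∑ j ∈ s, h j b) := by
  induction s using Finset.cons_induction with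
  | empty => simpa using Bd.const (N := N) 0
  | cons j s hj ih =>
    simp only [Finset.sum_cons]
    exact (hh j (Finset.mem_cons_self j s)).add (ih fun k hk => hh k (Finset.mem_cons_of_mem hk))

lemma Bd.integrable {h : Cfg N → ℝ} (hh : Bd h) (μ : Measure (Cfg N)) [IsFiniteMeasure μ] :
    Integrable h μ := by
  obtain ⟨hm, B, hB⟩ := hh
  exact Integrable.of_bound hm.aestronglyMeasurable B (ae_of_all _ hB)

/-- The normal of the mirror sending `s` to the vector of ones. -/
def nrml (s : Cfg N) : Fin N → ℝ := fun i => sp s i - 1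

/-- The reflection sending `s` to the vector of ones. -/
noncomputable def refl (s : Cfg N) (v : Fin N → ℝ) : Fin N → ℝ :=
  fun i => v i - 2 * dot (nrml s) v / dot (nrml s) (nrml s) * nrml s i

@[fun_prop]
lemma continuous_refl (s : Cfg N) : Continuous (refl s) := by unfold refl dot; fun_prop

@[fun_prop]
lemma measurable_refl (s : Cfg N) : Measurable (refl s) := (continuous_refl s).measurable

lemma dot_refl (s : Cfg N) (v u : Fin N → ℝ) : dot (refl s v) u = dot v (refl s u) := by
  unfold refl
  rw [dot_sub_mul, dot_comm v (fun i => u i - _ * nrml s i), dot_sub_mul, dot_comm u v]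
  ring

lemma refl_refl (s : Cfg N) (v : Fin N → ℝ) : refl s (refl s v) = v := by
  funext i
  have e : dot (nrml s) (refl s v)
      = dot (nrml s) v - 2 * dot (nrml s) v / dot (nrml s) (nrml s) * dot (nrml s) (nrml s) := by
    unfold refl; rw [dot_comm, dot_sub_mul, dot_comm v]
  rcases eq_or_ne (dot (nrml s) (nrml s)) 0 with h | h
  · simp [refl, h]
  · rw [div_mul_cancel₀ _ h] at e
    change refl s v i - 2 * dot (nrml s) (refl s v) / dot (nrml s) (nrml s) * nrml s i = v i
    rw [e]
    simp only [refl]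
    ring

lemma dot_refl_refl (s : Cfg N) (v u : Fin N → ℝ) : dot (refl s v) (refl s u) = dot v u := by
  rw [dot_refl, refl_refl]

lemma sq2_refl (s : Cfg N) (v : Fin N → ℝ) : sq2 (refl s v) = sq2 v := by
  rw [← dot_self, dot_refl_refl, dot_self]

lemma refl_smul (s : Cfg N) (c : ℝ) (v : Fin N → ℝ) :
    refl s (fun i => c * v i) = fun i => c * refl s v i := by
  funext i
  have e : dot (nrml s) (fun i => c * v i) = c * dot (nrml s) v := by
    simp only [dot, Finset.mul_sum]; exact Finset.sum_congr rfl fun i _ => by ring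
  simp only [refl, e]
  ring

lemma refl_self (s : Cfg N) : refl s s.1 = (ones N).1 := by
  funext i
  set S := ∑ j, sp s j with hS
  have h1 : dot (nrml s) s.1 = N - S := by
    have : dot (nrml s) s.1 = ∑ j, (sp s j * sp s j - sp s j) :=
      Finset.sum_congr rfl fun j _ => by simp only [nrml, sp]; ring
    rw [this, Finset.sum_sub_distrib, sum_sp_sq]
  have h2 : dot (nrml s) (nrml s) = 2 * (N - S) := by
    have : dot (nrml s) (nrml s) = ∑ j, (sp s j * sp s j - (2 * sp s j - 1)) :=
      Finset.sum_congr rfl fun j _ => by simp only [nrml]; ring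
    rw [this, Finset.sum_sub_distrib, sum_sp_sq, Finset.sum_sub_distrib, ← Finset.mul_sum, ← hS]
    simp only [Finset.sum_const, Finset.card_univ, Fintype.card_fin, nsmul_eq_mul, mul_one]
    ring
  rcases eq_or_ne ((N : ℝ) - S) 0 with h | h
  · have hz : dot (nrml s) (nrml s) = 0 := by rw [h2, h, mul_zero]
    have : sp s i - 1 = 0 := by
      rw [dot_self] at hz
      simpa [nrml] using (Finset.sum_eq_zero_iff_of_nonneg fun j _ => sq_nonneg _).1 hz i (Finset.mem_univ i)
    change refl s s.1 i = 1
    simp only [refl, h1, h, mul_zero, zero_div, zero_mul, sub_zero]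
    exact sub_eq_zero.1 this
  · change refl s s.1 i = 1
    simp only [refl, h1, h2]
    rw [div_self (mul_ne_zero two_ne_zero h), one_mul]
    simp [nrml, sp]

/-- The action of a reflection on configurations. -/
noncomputable def xr (b s : Cfg N) : Cfg N := ⟨refl s b.1, (sq2_refl s b.1).trans b.2⟩

@[fun_prop]
lemma continuous_xr (s : Cfg N) : Continuous fun b : Cfg N => xr b s := by unfold xr; fun_prop

@[fun_prop]
lemma measurable_xr (s : Cfg N) : Measurable fun b : Cfg N => xr b s := (continuous_xr s).measurable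

lemma xr_self (b : Cfg N) : xr b b = ones N := Subtype.ext (refl_self b)

lemma xr_xr (b s : Cfg N) : xr (xr b s) s = b := Subtype.ext (refl_refl s b.1)

lemma charFunDual_gauss (L : StrongDual ℝ (Fin N → ℝ)) :
    charFunDual (gaussVec (Fin N)) L = (Real.exp (-(∑ i, L (Pi.single i 1) ^ 2) / 2) : ℂ) := by
  classical
  rw [charFunDual_apply, ← gauss_cexp fun i => L (Pi.single i 1)]
  refine integral_congr_ae (ae_of_all _ fun g => ?_)
  dsimp only
  congr 2
  rw [show (∑ i, g i * L (Pi.single i 1)) = L g from ?_]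
  conv_rhs => rw [← Finset.univ_sum_single g]
  rw [map_sum]
  refine Finset.sum_congr rfl fun i _ => ?_
  rw [show (Pi.single i (g i) : Fin N → ℝ) = g i • Pi.single i 1 by
    rw [← Pi.single_smul, smul_eq_mul, mul_one], map_smul, smul_eq_mul]

lemma dual_eq_dot (L : StrongDual ℝ (Fin N → ℝ)) (g : Fin N → ℝ) :
    L g = dot g (fun i => L (Pi.single i 1)) := by
  classical
  conv_lhs => rw [← Finset.univ_sum_single g]
  rw [map_sum]
  refine Finset.sum_congr rfl fun i _ => ?_
  rw [show (Pi.single i (g i) : Fin N → ℝ) = g i • Pi.single i 1 by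
    rw [← Pi.single_smul, smul_eq_mul, mul_one], map_smul, smul_eq_mul]

lemma map_refl (s : Cfg N) : (gaussVec (Fin N)).map (refl s) = gaussVec (Fin N) := by
  have : IsProbabilityMeasure ((gaussVec (Fin N)).map (refl s)) :=
    Measure.isProbabilityMeasure_map (measurable_refl s).aemeasurable
  refine Measure.ext_of_charFunDual (funext fun L => ?_)
  set c : Fin N → ℝ := fun i => L (Pi.single i 1)
  rw [charFunDual_apply, integral_map (measurable_refl s).aemeasurable (Continuous.aestronglyMeasurable (by fun_prop)),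
    charFunDual_gauss, show (∑ i, L (Pi.single i 1) ^ 2) = ∑ i, refl s c i ^ 2 from (sq2_refl s c).symm,
    ← gauss_cexp (refl s c)]
  refine integral_congr_ae (ae_of_all _ fun g => ?_)
  dsimp only
  rw [dual_eq_dot, dot_refl]
  rfl

/-- Radial projection to the sphere, extended at the origin. -/
noncomputable def toCfg (z : Fin N → ℝ) : Cfg N :=
  ⟨if sq2 z = 0 then (ones N).1 else proj z, by
    split_ifs with h
    · exact (ones N).2
    · have hz : 0 < sq2 z := lt_of_le_of_ne (sq2_nonneg z) (Ne.symm h)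
      simp only [sq2, proj, div_pow, mul_pow, Real.sq_sqrt (Nat.cast_nonneg _), Fintype.card_fin]
      rw [← Finset.sum_div, ← Finset.mul_sum, Real.sq_sqrt (Finset.sum_nonneg fun i _ => sq_nonneg _)]
      exact mul_div_cancel_right₀ _ h⟩

@[fun_prop]
lemma measurable_toCfg : Measurable (toCfg : (Fin N → ℝ) → Cfg N) :=
  (Measurable.ite (measurableSet_eq_fun measurable_sq2 measurable_const) measurable_const measurable_proj).subtype_mk

/-- The uniform law on the sphere. -/
noncomputable def prior (N : ℕ) : Measure (Cfg N) := (gaussVec (Fin N)).map toCfg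

instance : IsProbabilityMeasure (prior N) :=
  Measure.isProbabilityMeasure_map measurable_toCfg.aemeasurable

lemma ae_sq2_ne (hN : 0 < N) : ∀ᵐ z ∂gaussVec (Fin N), sq2 z ≠ 0 := by
  have hsub : {z : Fin N → ℝ | ¬ sq2 z ≠ 0} ⊆ {(0 : Fin N → ℝ)} := fun z hz => by
    funext i
    simpa using (Finset.sum_eq_zero_iff_of_nonneg fun j _ => sq_nonneg _).1 (not_not.1 hz) i (Finset.mem_univ i)
  refine ae_iff.2 (measure_mono_null hsub ?_)
  rw [gaussVec, Measure.pi_singleton]
  have : NullSingletonClass (gaussianReal 0 1) := nullSingletonClass_gaussianReal one_ne_zero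
  exact Finset.prod_eq_zero (Finset.mem_univ (⟨0, hN⟩ : Fin N)) (measure_singleton _)

lemma prior_val (hN : 0 < N) : (prior N).map Subtype.val = sphereMeasure N := by
  rw [sphereMeasure_eq hN, prior, Measure.map_map (by fun_prop) measurable_toCfg, sphereOn]
  refine Measure.map_congr ?_
  filter_upwards [ae_sq2_ne hN] with z hz
  simp [toCfg, hz]

lemma map_prior_xr (s : Cfg N) : (prior N).map (fun b => xr b s) = prior N := by
  rcases Nat.eq_zero_or_pos N with rfl | hN
  · have : (fun b : Cfg 0 => xr b s) = id := funext fun b => Subtype.ext (funext fun i => i.elim0)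
    rw [this, Measure.map_id]
  conv_rhs => rw [prior, ← map_refl s, Measure.map_map measurable_toCfg (measurable_refl s)]
  rw [prior, Measure.map_map (measurable_xr s) measurable_toCfg]
  refine Measure.map_congr ?_
  filter_upwards [ae_sq2_ne hN] with z hz
  refine Subtype.ext ?_
  simp only [Function.comp_apply, xr, toCfg, sq2_refl, if_neg hz]
  rw [show proj z = fun i => Real.sqrt N / Real.sqrt (sq2 z) * z i from funext fun i => by
    simp only [proj, Fintype.card_fin]; ring, refl_smul]
  funext i
  simp only [proj, sq2_refl, Fintype.card_fin]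
  ring

lemma integral_xr (s : Cfg N) {h : Cfg N → ℝ} (hh : Measurable h) :
    ∫ b, h (xr b s) ∂prior N = ∫ b, h b ∂prior N := by
  conv_rhs => rw [← map_prior_xr s]
  rw [integral_map (measurable_xr s).aemeasurable hh.aestronglyMeasurable]

end Vale.Agent.P157.Sph
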