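import Vale.Agent.P157.SpherePlant.Model

/-!
The Gaussian side channel on the sphere: integration by parts, the derivative of the entropy in
the signal strength, and the monotonicity of the mean overlap.
-/

open MeasureTheory ProbabilityTheory Filter Topology Set
open Vale.Agent.P157.Plant (Wgt ent)
open scoped BigOperators

namespace Vale.Agent.P157.Sph

variable {a N : ℕ} {U : ℝ → ℝ} {C : ℝ}

/-- The shift of the side observation. -/
noncomputable def shv (r : ℝ) (ξ : Fin N → ℝ) : Fin N → ℝ := fun i => Real.sqrt r + ξ i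

/-- Data in planted coordinates. -/
noncomputable def sh (r : ℝ) (d : Dat a N) : Dat a N := (d.1, shv r d.2)

@[fun_prop]
lemma measurable_shv (r : ℝ) : Measurable (shv r : (Fin N → ℝ) → Fin N → ℝ) := by unfold shv; fun_prop

@[fun_prop]
lemma measurable_sh (r : ℝ) : Measurable (sh r : Dat a N → Dat a N) := by unfold sh shv; fun_prop

lemma lin_ones (z : Fin N → ℝ) : lin z (ones N) = ∑ i, z i := by simp [lin]

lemma sum_sp_eq (hN : 0 < N) (b : Cfg N) : ∑ i, sp b i = N * ovl (ones N) b := by
  rw [ovl, mul_div_cancel₀ _ (by exact_mod_cast hN.ne')]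
  simp

lemma lin_shv (r : ℝ) (ξ : Fin N → ℝ) (b : Cfg N) :
    lin (shv r ξ) b = Real.sqrt r * (N * ovl (ones N) b) + lin ξ b := by
  rcases Nat.eq_zero_or_pos N with rfl | hN
  · simp [lin]
  · rw [← sum_sp_eq hN, Finset.mul_sum, lin, lin, ← Finset.sum_add_distrib]
    exact Finset.sum_congr rfl fun i _ => by simp [shv]; ring

lemma abs_ovl_mul_le (b : Cfg N) : |(N : ℝ) * ovl (ones N) b| ≤ N := by
  rw [abs_mul, Nat.abs_cast]
  exact mul_le_of_le_one_right (Nat.cast_nonneg N) (abs_ovl_le _ _)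

lemma zlen_comb (A B : ℝ) (z η : Fin N → ℝ) :
    zlen (fun i => A * z i + B * η i) ≤ |A| * zlen z + |B| * zlen η := by
  have hs : ∀ (c : ℝ) (v : Fin N → ℝ), Real.sqrt (sq2 fun i => c * v i) = |c| * Real.sqrt (sq2 v) := fun c v => by
    rw [show sq2 (fun i => c * v i) = c ^ 2 * sq2 v by simp [sq2, mul_pow, Finset.mul_sum],
      Real.sqrt_mul (sq_nonneg c), Real.sqrt_sq_eq_abs]
  have h := mul_le_mul_of_nonneg_left (sq2_add_sqrt (fun i => A * z i) (fun i => B * η i)) (Real.sqrt_nonneg (N : ℝ))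
  rw [hs, hs] at h
  refine h.trans (le_of_eq ?_)
  unfold zlen
  ring

lemma zlen_shv_le (r : ℝ) (ξ : Fin N → ℝ) : zlen (shv r ξ) ≤ N * Real.sqrt r + zlen ξ := by
  have h := zlen_comb (Real.sqrt r) 1 (fun _ => (1 : ℝ)) ξ
  rw [abs_of_nonneg (Real.sqrt_nonneg r), abs_one, one_mul] at h
  have e1 : zlen (fun _ : Fin N => (1 : ℝ)) = N := by
    simp [zlen, sq2, Real.mul_self_sqrt]
  simp only [e1, mul_one, one_mul] at h
  unfold shv
  linarith

lemma Gd.comp_sh {F : Dat a N → ℝ} (hF : Gd F) (r : ℝ) : Gd fun d => F (sh r d) := by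
  obtain ⟨hm, K, c, hK, hc, hb⟩ := hF
  refine ⟨hm.comp (measurable_sh r), K * Real.exp (c * (N * Real.sqrt r)), c, by positivity, hc, fun d => ?_⟩
  refine (hb _).trans ?_
  rw [mul_assoc, ← Real.exp_add, ← mul_add]
  exact mul_le_mul_of_nonneg_left (Real.exp_le_exp.2 (mul_le_mul_of_nonneg_left (zlen_shv_le _ _) hc)) hK

lemma Gd2.av_sh {H : Dat a N → Cfg N → ℝ} (hH : Gd2 H) (W : Wgt U C) (r : ℝ) :
    Gd fun d : Dat a N => Sph.av U r (sh r d) (H d) := by
  obtain ⟨hm, K, c, hK, hc, hb⟩ := hH
  exact ⟨measurable_av W r (measurable_sh r) hm, K, c, hK, hc, fun d => abs_av_le W r _ (hb d)⟩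

lemma gd_av_sh_const (W : Wgt U C) (r : ℝ) {k : Cfg N → ℝ} (hk : Bd k) :
    Gd fun d : Dat a N => Sph.av U r (sh r d) k := (gd_av_const W r hk).comp_sh r

lemma gd2_lin_mul {k : Cfg N → ℝ} (hk : Bd k) :
    Gd2 fun (d : Dat a N) b => lin d.2 b * k b := by
  obtain ⟨hm, B, hB⟩ := hk
  refine Gd2.of_dom ((measurable_lin (measurable_snd.comp measurable_fst) measurable_snd).mul (hm.comp measurable_snd))
    (Gd.zlen_snd.mul (Gd.const |B|)) fun d b => ?_
  rw [abs_mul]
  exact mul_le_mul (abs_lin_le _ _) ((hB b).trans (le_abs_self _)) (abs_nonneg _) (zlen_nonneg _)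

lemma gd_patW (W : Wgt U C) : Gd (fun d : Dat a N => patW U d.1 (ones N)) :=
  Gd.of_bdd (measurable_patW W measurable_fst measurable_const) fun d => by
    rw [abs_of_pos (patW_pos W _ _)]; exact patW_le W _ _

lemma gauss_shift {r : ℝ} (hr : 0 ≤ r) :
    (gaussVec (Fin N)).withDensity (fun z => ENNReal.ofReal (Real.exp (Real.sqrt r * lin z (ones N) - r * N / 2)))
      = (gaussVec (Fin N)).map (shv r) := by
  have e : (fun z : Fin N → ℝ => ENNReal.ofReal (Real.exp (Real.sqrt r * lin z (ones N) - r * N / 2)))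
      = fun z => ENNReal.ofReal (∏ i, Real.exp (Real.sqrt r * z i - Real.sqrt r ^ 2 / 2)) := by
    funext z
    rw [← Real.exp_sum, Finset.sum_sub_distrib, ← Finset.mul_sum, lin_ones, Finset.sum_const,
      Finset.card_univ, Fintype.card_fin, nsmul_eq_mul, Real.sq_sqrt hr]
    ring_nf
  rw [e, gaussVec, Plant.pi_withDensity' (gaussianReal 0 1) (ρ := fun _ x => Real.exp (Real.sqrt r * x - Real.sqrt r ^ 2 / 2))
    (fun _ _ => (Real.exp_pos _).le) (fun _ => by fun_prop) fun _ => ?_]
  · simp only [Plant.gaussianReal_tilt]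
    have h := Measure.pi_map_pi (μ := fun _ : Fin N => gaussianReal 0 1)
      (f := fun _ (x : ℝ) => Real.sqrt r + x) (fun _ => by fun_prop)
    simp only [gaussianReal_map_const_add, zero_add] at h
    exact h.symm
  · simp only [sub_eq_add_neg, Real.exp_add]
    exact (integrable_exp_mul_gaussianReal (Real.sqrt r)).mul_const _

lemma planted_shift (W : Wgt U C) {r : ℝ} (hr : 0 ≤ r) {F : Dat a N → ℝ} (hF : Gd F) :
    ∫ d, wt U r d (ones N) * F d ∂nullM a N = ∫ d, patW U d.1 (ones N) * F (sh r d) ∂nullM a N := by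
  have hi : Integrable (fun d => patW U d.1 (ones N) * F (sh r d)) (nullM a N) :=
    ((gd_patW W).mul (hF.comp_sh r)).integrable
  have hi' : Integrable (fun d => wt U r d (ones N) * F d) (nullM a N) := ((gd_wt W r _).mul hF).integrable
  unfold nullM at hi hi' ⊢
  rw [integral_prod _ hi', integral_prod _ hi]
  refine integral_congr_ae (ae_of_all _ fun g => ?_)
  simp only [wt, sh]
  rw [integral_const_mul]
  simp_rw [mul_assoc]
  rw [integral_const_mul]
  congr 1
  have hFm : Measurable fun z => F (g, z) := hF.1.comp (by fun_prop)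
  rw [← integral_map (φ := shv r) (f := fun z => F (g, z)) (measurable_shv r).aemeasurable hFm.aestronglyMeasurable,
    ← gauss_shift hr, integral_withDensity_eq_integral_toReal_smul (by fun_prop)
      (ae_of_all _ fun _ => ENNReal.ofReal_lt_top)]
  exact integral_congr_ae (ae_of_all _ fun z => by simp [ENNReal.toReal_ofReal (Real.exp_pos _).le])

lemma cfg_unit (hN : 0 < N) (b : Cfg N) : ∑ i, (sp b i / Real.sqrt N) ^ 2 = 1 := by
  simp only [div_pow, ← Finset.sum_div, sum_sp_sq', Real.sq_sqrt (Nat.cast_nonneg N)]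
  exact div_self (by exact_mod_cast hN.ne')

lemma integral_fld (W : Wgt U C) (hN : 0 < N) (b : Cfg N) : ∫ g, U (fld g b) ∂gaussVec (Fin N) = 1 := by
  unfold fld
  rw [Plant.unit_form (u := fun i => sp b i / Real.sqrt N) (cfg_unit hN b) W.meas, W.mean]

lemma integral_patW (W : Wgt U C) (b : Cfg N) (hN : 0 < N) :
    ∫ g, patW U g b ∂Measure.pi (fun _ : Fin a => gaussVec (Fin N)) = 1 := by
  unfold patW
  rw [integral_fintype_prod_eq_prod (f := fun _ (g : Fin N → ℝ) => U (fld g b))]
  exact Finset.prod_eq_one fun c _ => integral_fld W hN b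

lemma integral_patW' (W : Wgt U C) (hN : 0 < N) : ∫ d : Dat a N, patW U d.1 (ones N) ∂nullM a N = 1 := by
  rw [nullM, integral_fun_fst (fun g => patW U g (ones N)), integral_patW W _ hN]
  simp

lemma integral_wt (W : Wgt U C) {r : ℝ} (hr : 0 ≤ r) (hN : 0 < N) :
    ∫ d, wt U r d (ones N) ∂nullM a N = 1 := by
  have h := planted_shift W hr (Gd.const (a := a) (N := N) 1)
  simp only [mul_one] at h
  rw [h, integral_patW' W hN]

/-- Differentiation under the prior. -/
lemma hasDeriv_prior {F F' : ℝ → Cfg N → ℝ} {x K : ℝ} {s : Set ℝ} (hs : s ∈ 𝓝 x)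
    (hm : ∀ t, Measurable (F t)) (hx : Bd (F x)) (hm' : Measurable (F' x))
    (hb : ∀ t ∈ s, ∀ b, |F' t b| ≤ K) (hd : ∀ t ∈ s, ∀ b, HasDerivAt (fun u => F u b) (F' t b) t) :
    HasDerivAt (fun t => ∫ b, F t b ∂prior N) (∫ b, F' x b ∂prior N) x :=
  (hasDerivAt_integral_of_dominated_loc_of_deriv_le (μ := prior N) (F := F) (F' := F') (bound := fun _ => K)
    hs (Eventually.of_forall fun t => (hm t).aestronglyMeasurable) (hx.integrable _) hm'.aestronglyMeasurable
    (ae_of_all _ fun b t ht => (Real.norm_eq_abs _).trans_le (hb t ht b)) (integrable_const K)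
    (ae_of_all _ fun b t ht => hd t ht b)).2

lemma hasDeriv_tilt {w ℓ : Cfg N → ℝ} (hw : Bd w) (hl : Bd ℓ) (t : ℝ) :
    HasDerivAt (fun t => ∫ b, w b * Real.exp (t * ℓ b) ∂prior N)
      (∫ b, w b * Real.exp (t * ℓ b) * ℓ b ∂prior N) t := by
  obtain ⟨hwm, B, hB⟩ := hw
  obtain ⟨hlm, L, hL⟩ := hl
  have hB0 : 0 ≤ B := (abs_nonneg _).trans (hB (ones N))
  have hL0 : 0 ≤ L := (abs_nonneg _).trans (hL (ones N))
  refine hasDeriv_prior (F' := fun u b => w b * Real.exp (u * ℓ b) * ℓ b)
    (K := B * Real.exp ((|t| + 1) * L) * L) (Metric.ball_mem_nhds t one_pos)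
    (fun u => hwm.mul (hlm.const_mul u).exp)
    (Bd.of (hwm.mul (hlm.const_mul t).exp) (B := B * Real.exp (|t| * L)) fun b => ?_)
    ((hwm.mul (hlm.const_mul t).exp).mul hlm) (fun u hu b => ?_) fun u _ b => ?_
  · rw [abs_mul, Real.abs_exp]
    refine mul_le_mul (hB b) (Real.exp_le_exp.2 ?_) (Real.exp_pos _).le hB0
    exact (le_abs_self _).trans ((abs_mul _ _).trans_le (mul_le_mul_of_nonneg_left (hL b) (abs_nonneg t)))
  · have hu' : |u| ≤ |t| + 1 := by
      rw [Metric.mem_ball, Real.dist_eq] at hu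
      linarith [abs_sub_abs_le_abs_sub u t]
    rw [abs_mul, abs_mul, Real.abs_exp]
    refine mul_le_mul (mul_le_mul (hB b) (Real.exp_le_exp.2 ?_) (Real.exp_pos _).le hB0) (hL b) (abs_nonneg _)
      (by positivity)
    exact (le_abs_self _).trans ((abs_mul _ _).trans_le (mul_le_mul hu' (hL b) (abs_nonneg _) (by positivity)))
  · exact ((((hasDerivAt_id' u).mul_const (ℓ b)).exp).const_mul (w b)).congr_deriv (by ring)

lemma hasDeriv_av_update (W : Wgt U C) (r : ℝ) (g : Fin a → Fin N → ℝ) (i : Fin N) {k : Cfg N → ℝ}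
    (hk : Bd k) (ξ : Fin N → ℝ) (t : ℝ) :
    HasDerivAt (fun t => av U r (g, shv r (Function.update ξ i t)) k)
      (Real.sqrt r * (av U r (g, shv r (Function.update ξ i t)) (fun b => sp b i * k b)
        - av U r (g, shv r (Function.update ξ i t)) (fun b => sp b i)
          * av U r (g, shv r (Function.update ξ i t)) k)) t := by
  set w0 : Cfg N → ℝ := wt U r (g, shv r (Function.update ξ i 0)) with hw0
  have e : ∀ t b, wt U r (g, shv r (Function.update ξ i t)) b = w0 b * Real.exp (t * (Real.sqrt r * sp b i)) := by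
    intro t b
    have hl : lin (shv r (Function.update ξ i t)) b = lin (shv r (Function.update ξ i 0)) b + t * sp b i := by
      simp only [lin, shv]
      rw [← Finset.sum_erase_add _ _ (Finset.mem_univ i), ← Finset.sum_erase_add (a := i) _ _ (Finset.mem_univ i)]
      simp only [Function.update_self]
      have : ∀ j ∈ Finset.univ.erase i, (Real.sqrt r + Function.update ξ i t j) * sp b j
          = (Real.sqrt r + Function.update ξ i 0 j) * sp b j := fun j hj => by
        rw [Function.update_of_ne (Finset.ne_of_mem_erase hj), Function.update_of_ne (Finset.ne_of_mem_erase hj)]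
      rw [Finset.sum_congr rfl this]
      ring
    simp only [hw0, wt, hl]
    rw [mul_assoc, ← Real.exp_add]
    congr 2
    ring
  have hℓ : Bd fun b : Cfg N => Real.sqrt r * sp b i := Bd.cont (by fun_prop)
  have hn := hasDeriv_tilt (w := fun b => w0 b * k b) ((bd_wt W r _).mul hk) hℓ t
  have hL := hasDeriv_tilt (w := w0) (bd_wt W r _) hℓ t
  have en : ∀ (h : Cfg N → ℝ) t, ∫ b, wt U r (g, shv r (Function.update ξ i t)) b * h b ∂prior N
      = ∫ b, w0 b * h b * Real.exp (t * (Real.sqrt r * sp b i)) ∂prior N := fun h t =>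
    integral_congr_ae (ae_of_all _ fun b => by simp only [e]; ring)
  have hfun : (fun t => av U r (g, shv r (Function.update ξ i t)) k)
      = fun t => (∫ b, w0 b * k b * Real.exp (t * (Real.sqrt r * sp b i)) ∂prior N)
        / ∫ b, w0 b * Real.exp (t * (Real.sqrt r * sp b i)) ∂prior N := by
    funext t
    unfold av lik
    rw [en]
    congr 1
    exact integral_congr_ae (ae_of_all _ fun b => e t b)
  have hLne : lik U r (g, shv r (Function.update ξ i t)) ≠ 0 := (lik_pos W r _).ne'
  have eL : lik U r (g, shv r (Function.update ξ i t))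
      = ∫ b, w0 b * Real.exp (t * (Real.sqrt r * sp b i)) ∂prior N :=
    integral_congr_ae (ae_of_all _ fun b => e t b)
  rw [hfun]
  refine (hn.fun_div hL (eL ▸ hLne)).congr_deriv ?_
  have i1 : ∫ b, w0 b * k b * Real.exp (t * (Real.sqrt r * sp b i)) * (Real.sqrt r * sp b i) ∂prior N
      = Real.sqrt r * ∫ b, wt U r (g, shv r (Function.update ξ i t)) b * (sp b i * k b) ∂prior N := by
    rw [← integral_const_mul]
    exact integral_congr_ae (ae_of_all _ fun b => by simp only [e]; ring)
  have i2 : ∫ b, w0 b * Real.exp (t * (Real.sqrt r * sp b i)) * (Real.sqrt r * sp b i) ∂prior N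
      = Real.sqrt r * ∫ b, wt U r (g, shv r (Function.update ξ i t)) b * sp b i ∂prior N := by
    rw [← integral_const_mul]
    exact integral_congr_ae (ae_of_all _ fun b => by simp only [e]; ring)
  rw [i1, i2, ← en, ← eL]
  simp only [av]
  field_simp

/-- Gaussian integration by parts for a Gibbs average in planted coordinates. -/
lemma ibp_coord (W : Wgt U C) {r : ℝ} (hr : 0 ≤ r) (g : Fin a → Fin N → ℝ) (i : Fin N) {k : Cfg N → ℝ}
    (hk : Bd k) :
    ∫ ξ, ξ i * av U r (g, shv r ξ) k ∂gaussVec (Fin N)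
      = Real.sqrt r * ∫ ξ, (av U r (g, shv r ξ) (fun b => sp b i * k b)
          - av U r (g, shv r ξ) (fun b => sp b i) * av U r (g, shv r ξ) k) ∂gaussVec (Fin N) := by
  obtain ⟨B, hB⟩ := hk.2
  have hB0 : 0 ≤ B := (abs_nonneg _).trans (hB (ones N))
  have hsk : Measurable fun b : Cfg N => sp b i * k b := (measurable_sp i).mul hk.1
  have hmm : ∀ {h : Cfg N → ℝ}, Measurable h → Measurable fun ξ : Fin N → ℝ => av U r (g, shv r ξ) h :=
    fun hh => (measurable_av_const W r hh).comp (measurable_const.prodMk (measurable_shv r))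
  have hmG := hmm hk.1
  have hmD : Measurable fun ξ : Fin N → ℝ => av U r (g, shv r ξ) (fun b => sp b i * k b)
      - av U r (g, shv r ξ) (fun b => sp b i) * av U r (g, shv r ξ) k :=
    (hmm hsk).sub ((hmm (measurable_sp i)).mul hmG)
  set S := Real.sqrt (N : ℝ)
  have hS : 0 ≤ S := Real.sqrt_nonneg _
  have bD : ∀ ξ : Fin N → ℝ, |av U r (g, shv r ξ) (fun b => sp b i * k b)
      - av U r (g, shv r ξ) (fun b => sp b i) * av U r (g, shv r ξ) k| ≤ S * B + S * B := fun ξ =>
    (abs_sub _ _).trans (add_le_add (abs_av_le W r _ fun b => by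
        rw [abs_mul]; exact mul_le_mul (abs_sp_le b i) (hB b) (abs_nonneg _) hS)
      ((abs_mul _ _).trans_le (mul_le_mul (abs_av_le W r _ fun b => abs_sp_le b i) (abs_av_le W r _ hB)
        (abs_nonneg _) hS)))
  have hder := hasDeriv_av_update W r g i hk
  have key : ∀ ξ : Fin N → ℝ, ∫ t, t * av U r (g, shv r (Function.update ξ i t)) k ∂gaussianReal 0 1
      = ∫ t, Real.sqrt r * (av U r (g, shv r (Function.update ξ i t)) (fun b => sp b i * k b)
          - av U r (g, shv r (Function.update ξ i t)) (fun b => sp b i)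
            * av U r (g, shv r (Function.update ξ i t)) k) ∂gaussianReal 0 1 := fun ξ =>
    Rsb.stein (hder ξ) (C := B + Real.sqrt r * (S * B + S * B))
      (fun t => (abs_av_le W r _ hB).trans (le_add_of_nonneg_right (by positivity)))
      fun t => by
        rw [abs_mul, abs_of_nonneg (Real.sqrt_nonneg r)]
        exact (mul_le_mul_of_nonneg_left (bD _) (Real.sqrt_nonneg r)).trans (le_add_of_nonneg_left hB0)
  have iξ : Integrable (fun ξ : Fin N → ℝ => ξ i * av U r (g, shv r ξ) k) (gaussVec (Fin N)) :=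
    (Plant.integrable_eval_gauss i).mul_bdd hmG.aestronglyMeasurable (ae_of_all _ fun ξ => abs_av_le W r _ hB)
  have iD : Integrable (fun ξ : Fin N → ℝ => av U r (g, shv r ξ) (fun b => sp b i * k b)
      - av U r (g, shv r ξ) (fun b => sp b i) * av U r (g, shv r ξ) k) (gaussVec (Fin N)) :=
    Integrable.of_bound hmD.aestronglyMeasurable (S * B + S * B) (ae_of_all _ bD)
  have e1 := Plant.integral_update i iξ
  have e2 := Plant.integral_update i iD
  simp only [Function.update_self] at e1
  rw [e1, e2, ← integral_const_mul]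
  exact integral_congr_ae (ae_of_all _ fun ξ => (key ξ).trans (integral_const_mul _ _))

/-- The self-overlap averaged against a function of the first replica. -/
lemma sum_av_sp (W : Wgt U C) (r : ℝ) (d : Dat a N) (hN : 0 < N) {h : Cfg N → ℝ} (hh : Bd h) :
    ∑ i, av U r d (fun b => sp b i) * av U r d (fun b => sp b i * h b)
      = N * av U r d (fun b => h b * av U r d (fun b' => ovl b b')) := by
  have hN' : (N : ℝ) ≠ 0 := by exact_mod_cast hN.ne'
  have e : ∀ b, h b * av U r d (fun b' => ovl b b')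
      = ((N : ℝ))⁻¹ * ∑ i, av U r d (fun b' => sp b' i) * (sp b i * h b) := fun b => by
    have : (fun b' => ovl b b') = fun b' => ((N : ℝ))⁻¹ * ∑ i, sp b i * sp b' i := by
      funext b'; rw [ovl]; ring
    rw [this, av_mul, av_finsum W _ r d fun i _ => Bd.cont (by fun_prop), Finset.mul_sum, Finset.mul_sum,
      Finset.mul_sum]
    exact Finset.sum_congr rfl fun i _ => by rw [av_mul]; ring
  simp_rw [e]
  rw [av_mul, av_finsum W _ r d fun i _ => (Bd.const _).mul ((Bd.cont (by fun_prop)).mul hh), ← mul_assoc,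
    mul_inv_cancel₀ hN', one_mul]
  exact Finset.sum_congr rfl fun i _ => by rw [← av_mul]

/-- Integration by parts against the field of the side channel. -/
lemma ibp (W : Wgt U C) {r : ℝ} (hr : 0 ≤ r) (hN : 0 < N) {h : Cfg N → ℝ} (hh : Bd h) :
    ∫ d, patW U d.1 (ones N) * av U r (sh r d) (fun b => lin d.2 b * h b) ∂nullM a N
      = Real.sqrt r * N * (∫ d, wt U r d (ones N) * av U r d h ∂nullM a N
          - ∫ d, wt U r d (ones N) * av U r d (fun b => h b * av U r d (fun b' => ovl b b')) ∂nullM a N) := by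
  obtain ⟨B, hB⟩ := hh.2
  have gA : Gd2 fun (d : Dat a N) b => h b * av U r d (fun b' => ovl b b') :=
    (Gd2.of_bdd (hh.1.comp measurable_snd) fun _ b => hB b).mul (gd2_ovl W r continuous_id)
  have gh := gd_av_const (a := a) W r hh
  rw [planted_shift W hr gh, planted_shift W hr (gA.av W r)]
  have gP := gd_patW (a := a) (N := N) W
  rw [← integral_sub (gP.mul (gh.comp_sh r)).integrable (gP.mul ((gA.av W r).comp_sh r)).integrable]
  have hk : ∀ i, Bd fun b : Cfg N => sp b i * h b := fun i => (Bd.cont (by fun_prop)).mul hh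
  have hkk : ∀ i, Bd fun b : Cfg N => sp b i * (sp b i * h b) := fun i => (Bd.cont (by fun_prop)).mul (hk i)
  have e : ∀ d : Dat a N, patW U d.1 (ones N) * av U r (sh r d) (fun b => lin d.2 b * h b)
      = ∑ i, patW U d.1 (ones N) * (d.2 i * av U r (sh r d) (fun b => sp b i * h b)) := fun d => by
    rw [← Finset.mul_sum]
    congr 1
    have : (fun b => lin d.2 b * h b) = fun b => ∑ i, d.2 i * (sp b i * h b) := by
      funext b; rw [lin, Finset.sum_mul]; exact Finset.sum_congr rfl fun i _ => mul_assoc _ _ _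
    rw [this, av_finsum W _ r _ fun i _ => (Bd.const _).mul (hk i)]
    exact Finset.sum_congr rfl fun i _ => av_mul _ _ _ _
  simp_rw [e]
  have ii : ∀ i, Integrable (fun d : Dat a N =>
      patW U d.1 (ones N) * (d.2 i * av U r (sh r d) (fun b => sp b i * h b))) (nullM a N) := fun i => by
    have hz : Gd (fun d : Dat a N => d.2 i) := by
      refine ⟨by fun_prop, 1, 1, zero_le_one, zero_le_one, fun d => ?_⟩
      rw [one_mul, one_mul]
      exact (abs_le_zlen d.2 i).trans ((le_add_of_nonneg_right zero_le_one).trans (Real.add_one_le_exp _))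
    exact (gP.mul (hz.mul (gd_av_sh_const W r (hk i)))).integrable
  have gK : ∀ i, Gd fun d : Dat a N => av U r (sh r d) (fun b => sp b i * (sp b i * h b))
      - av U r (sh r d) (fun b => sp b i) * av U r (sh r d) (fun b => sp b i * h b) := fun i =>
    (gd_av_sh_const W r (hkk i)).sub
      ((gd_av_sh_const W r (Bd.cont (by fun_prop))).mul (gd_av_sh_const W r (hk i)))
  rw [integral_finsetSum _ fun i _ => ii i]
  have step : ∀ i, ∫ d, patW U d.1 (ones N) * (d.2 i * av U r (sh r d) (fun b => sp b i * h b)) ∂nullM a N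
      = Real.sqrt r * ∫ d, patW U d.1 (ones N) * (av U r (sh r d) (fun b => sp b i * (sp b i * h b))
        - av U r (sh r d) (fun b => sp b i) * av U r (sh r d) (fun b => sp b i * h b)) ∂nullM a N := fun i => by
    rw [← integral_const_mul]
    have hi := ii i
    have hi2 := ((gP.mul (gK i)).integrable).const_mul (Real.sqrt r)
    simp only [nullM] at hi hi2 ⊢
    rw [integral_prod _ hi, integral_prod _ hi2]
    refine integral_congr_ae (ae_of_all _ fun g => ?_)
    simp only [sh]
    rw [integral_const_mul, integral_const_mul, integral_const_mul, ibp_coord W hr g i (hk i)]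
    ring
  simp_rw [step]
  rw [← Finset.mul_sum, ← integral_finsetSum _ fun i _ => (gP.mul (gK i)).integrable, mul_assoc (Real.sqrt r),
    ← integral_const_mul (N : ℝ)]
  congr 1
  refine integral_congr_ae (ae_of_all _ fun d => ?_)
  simp only
  rw [← Finset.mul_sum, Finset.sum_sub_distrib, ← av_finsum W _ r _ fun i _ => hkk i,
    sum_av_sp W r (sh r d) hN hh]
  have : (fun b : Cfg N => ∑ i, sp b i * (sp b i * h b)) = fun b => (N : ℝ) * h b := by
    funext b; simp only [← mul_assoc]; rw [← Finset.sum_mul, sum_sp_sq]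
  rw [this, av_mul]
  ring

lemma av_act_ovl (W : Wgt U C) (r : ℝ) (s : Cfg N) (d : Dat a N) {k : ℝ → ℝ} (hk : Continuous k) :
    av U r (act s d) (fun b => av U r (act s d) (fun b' => k (ovl b b')))
      = av U r d (fun b => av U r d (fun b' => k (ovl b b'))) := by
  rw [← av_act W r s d (bd_av_ovl W r d hk)]
  congr 1
  funext b
  rw [← av_act W r s d (h := fun b' => k (ovl (xr b s) b')) (Bd.cont (by fun_prop))]
  congr 1
  funext b'
  rw [ovl_xr]

lemma planted_qv (W : Wgt U C) (r : ℝ) :
    ∫ d, wt U r d (ones N) * av U r d (fun b => ovl (ones N) b) ∂nullM a N = qv U a N r :=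
  pair_planted W r continuous_id

lemma planted_qv' (W : Wgt U C) (r : ℝ) :
    ∫ d, wt U r d (ones N) * av U r d (fun b => av U r d (fun b' => ovl b b')) ∂nullM a N = qv U a N r :=
  planted_eq' W r ((gd2_ovl W r continuous_id).av W r) fun s d => av_act_ovl W r s d continuous_id

lemma planted_vr (W : Wgt U C) (r : ℝ) :
    ∫ d, wt U r d (ones N) * av U r d (fun b => (ovl (ones N) b - qv U a N r) ^ 2) ∂nullM a N = vr U a N r :=
  pair_planted W r (k := fun x => (x - qv U a N r) ^ 2) (by fun_prop)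

/-- The statistic whose Gibbs average is the derivative of the free energy. -/
noncomputable def dstat (r : ℝ) (d : Dat a N) (b : Cfg N) : ℝ :=
  N * ovl (ones N) b + lin d.2 b / (2 * Real.sqrt r) - N / 2

lemma abs_dstat_le {lo s : ℝ} (hlo : 0 < lo) (hs : lo ≤ s) (d : Dat a N) (b : Cfg N) :
    |dstat s d b| ≤ 2 * N + zlen d.2 * (1 / (2 * Real.sqrt lo)) := by
  have h2 := abs_ovl_mul_le b
  have h3 : |lin d.2 b / (2 * Real.sqrt s)| ≤ zlen d.2 * (1 / (2 * Real.sqrt lo)) := by
    rw [abs_div, abs_of_nonneg (by positivity : (0:ℝ) ≤ 2 * Real.sqrt s), mul_one_div]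
    exact div_le_div₀ (zlen_nonneg _) (abs_lin_le _ _) (by positivity)
      (mul_le_mul_of_nonneg_left (Real.sqrt_le_sqrt hs) (by norm_num))
  have h4 := abs_sub ((N : ℝ) * ovl (ones N) b + lin d.2 b / (2 * Real.sqrt s)) (N / 2)
  have h5 := abs_add_le ((N : ℝ) * ovl (ones N) b) (lin d.2 b / (2 * Real.sqrt s))
  rw [abs_of_nonneg (by positivity : (0 : ℝ) ≤ N / 2)] at h4
  simp only [dstat]
  linarith

lemma wt_sh_le (W : Wgt U C) {s R : ℝ} (hs0 : 0 ≤ s) (hs : s ≤ R) (d : Dat a N) (b : Cfg N) :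
    wt U s (sh s d) b ≤ C ^ a * Real.exp (Real.sqrt R * (N * Real.sqrt R + zlen d.2)) := by
  refine (wt_le W s (sh s d) b).trans ?_
  refine mul_le_mul_of_nonneg_left (Real.exp_le_exp.2 ?_) (pow_nonneg W.C_pos.le _)
  have h2 := mul_le_mul (Real.sqrt_le_sqrt hs) ((zlen_shv_le s d.2).trans (add_le_add
    (mul_le_mul_of_nonneg_left (Real.sqrt_le_sqrt hs) (Nat.cast_nonneg N)) le_rfl))
    (zlen_nonneg _) (Real.sqrt_nonneg _)
  have : 0 ≤ s * N / 2 := by positivity
  simp only [sh]
  linarith

lemma hasDeriv_log_lik (W : Wgt U C) {r : ℝ} (hr : 0 < r) (d : Dat a N) :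
    HasDerivAt (fun s => Real.log (lik U s (sh s d))) (av U r (sh r d) (dstat r d)) r := by
  have hw : ∀ s b, 0 < s → HasDerivAt (fun u => wt U u (sh u d) b) (wt U s (sh s d) b * dstat s d b) s :=
    fun s b hs0 => by
    have hs := Real.hasDerivAt_sqrt hs0.ne'
    have h1 := (hs.fun_mul ((hs.mul_const (N * ovl (ones N) b)).add_const (lin d.2 b))).fun_sub
      (((hasDerivAt_id' s).mul_const (N : ℝ)).div_const 2)
    have h2 := h1.exp.const_mul (patW U d.1 b)
    simp only [wt, sh, lin_shv]
    refine h2.congr_deriv ?_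
    simp only [dstat]
    have hq := Real.mul_self_sqrt hs0.le
    have hne : Real.sqrt s ≠ 0 := (Real.sqrt_pos.2 hs0).ne'
    field_simp
    ring
  have hmw : ∀ s, Measurable fun b => wt U s (sh s d) b := fun s => (bd_wt W s _).1
  have hL := hasDeriv_prior (F := fun s b => wt U s (sh s d) b) (F' := fun s b => wt U s (sh s d) b * dstat s d b)
    (Ioo_mem_nhds (show r / 2 < r by linarith) (show r < r + 1 by linarith)) hmw (bd_wt W r _)
    ((hmw r).mul (by unfold dstat; fun_prop))
    (K := C ^ a * Real.exp (Real.sqrt (r + 1) * (N * Real.sqrt (r + 1) + zlen d.2))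
      * (2 * N + zlen d.2 * (1 / (2 * Real.sqrt (r / 2)))))
    (fun s hs b => by
      rw [abs_mul, abs_of_pos (wt_pos W _ _ _)]
      exact mul_le_mul (wt_sh_le W (by linarith [hs.1]) hs.2.le d b) (abs_dstat_le (by linarith) hs.1.le d b)
        (abs_nonneg _) (by have := W.C_pos; positivity))
    fun s hs b => hw s b (by linarith [hs.1])
  exact hL.log (lik_pos W r (sh r d)).ne'

lemma Jt_shift (W : Wgt U C) {r : ℝ} (hr : 0 ≤ r) :
    Jt U a N r = ∫ d, patW U d.1 (ones N) * Real.log (lik U r (sh r d)) ∂nullM a N := by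
  rw [Jt_eq_planted W r, planted_shift W hr (gd_log_lik W r)]

lemma gd2_dstat (r : ℝ) : Gd2 fun (d : Dat a N) b => dstat r d b := by
  refine Gd2.of_dom (by unfold dstat; fun_prop) ((Gd.const (2 * N : ℝ)).add
    (Gd.zlen_snd.mul (Gd.const |1 / (2 * Real.sqrt r)|))) fun d b => ?_
  have h2 := abs_ovl_mul_le b
  have h3 := mul_le_mul_of_nonneg_right (abs_lin_le d.2 b) (abs_nonneg (1 / (2 * Real.sqrt r)))
  rw [← abs_mul, mul_one_div] at h3
  have h4 := abs_sub ((N : ℝ) * ovl (ones N) b + lin d.2 b / (2 * Real.sqrt r)) (N / 2)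
  have h5 := abs_add_le ((N : ℝ) * ovl (ones N) b) (lin d.2 b / (2 * Real.sqrt r))
  rw [abs_of_nonneg (by positivity : (0 : ℝ) ≤ N / 2)] at h4
  simp only [dstat]
  linarith

lemma hasDeriv_Jt (W : Wgt U C) {r : ℝ} (hr : 0 < r) (hN : 0 < N) :
    HasDerivAt (Jt U a N) (N * qv U a N r / 2) r := by
  set lo := r / 2 with hlo
  have hlo0 : 0 < lo := by positivity
  have hgd : ∀ s, Gd fun d : Dat a N => Real.log (lik U s (sh s d)) := fun s => (gd_log_lik W s).comp_sh s
  have gP := gd_patW (a := a) (N := N) W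
  have hbound : Gd fun d : Dat a N => patW U d.1 (ones N) * (2 * N + zlen d.2 * (1 / (2 * Real.sqrt lo))) :=
    gP.mul ((Gd.const _).add (Gd.zlen_snd.mul (Gd.const _)))
  have key := (hasDerivAt_integral_of_dominated_loc_of_deriv_le (μ := nullM a N)
    (F := fun s d => patW U d.1 (ones N) * Real.log (lik U s (sh s d)))
    (F' := fun s d => patW U d.1 (ones N) * av U s (sh s d) (dstat s d))
    (bound := fun d => patW U d.1 (ones N) * (2 * N + zlen d.2 * (1 / (2 * Real.sqrt lo))))
    (Ioi_mem_nhds (show lo < r by simp only [hlo]; linarith))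
    (Eventually.of_forall fun s => (gP.mul (hgd s)).1.aestronglyMeasurable)
    (gP.mul (hgd r)).integrable (gP.mul ((gd2_dstat r).av_sh W r)).1.aestronglyMeasurable
    (ae_of_all _ fun d s hs => ?_) hbound.integrable
    (ae_of_all _ fun d s hs => (hasDeriv_log_lik W (hlo0.trans hs) d).const_mul _)).2
  swap
  · rw [Real.norm_eq_abs, abs_mul, abs_of_pos (patW_pos W _ _)]
    exact mul_le_mul_of_nonneg_left (abs_av_le W s _ fun b => abs_dstat_le hlo0 (le_of_lt hs) d b)
      (patW_pos W _ _).le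
  have hE : ∀ᶠ s in 𝓝 r, Jt U a N s = ∫ d, patW U d.1 (ones N) * Real.log (lik U s (sh s d)) ∂nullM a N :=
    (eventually_gt_nhds hr).mono fun s hs => Jt_shift W hs.le
  refine (key.congr_of_eventuallyEq hE).congr_deriv ?_
  have hs0 : Real.sqrt r ≠ 0 := (Real.sqrt_pos.2 hr).ne'
  have bO : Bd fun b : Cfg N => ovl (ones N) b := Bd.cont (by fun_prop)
  have bl : ∀ d : Dat a N, Bd fun b : Cfg N => lin d.2 b * (1 : ℝ) := fun d => Bd.cont (by fun_prop)
  have e : ∀ d : Dat a N, patW U d.1 (ones N) * av U r (sh r d) (dstat r d)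
      = N * (patW U d.1 (ones N) * av U r (sh r d) (fun b => ovl (ones N) b))
        + 1 / (2 * Real.sqrt r) * (patW U d.1 (ones N) * av U r (sh r d) (fun b => lin d.2 b * 1))
        - N / 2 * patW U d.1 (ones N) := fun d => by
    have : dstat r d = fun b => (N * ovl (ones N) b + 1 / (2 * Real.sqrt r) * (lin d.2 b * 1)) - N / 2 := by
      funext b; simp only [dstat]; ring
    rw [this, av_sub W r _ (((Bd.const _).mul bO).add ((Bd.const _).mul (bl d))) (Bd.const _),
      av_add W r _ ((Bd.const _).mul bO) ((Bd.const _).mul (bl d)), av_mul, av_mul, av_const W]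
    ring
  simp_rw [e]
  have i1 := (gP.mul (gd_av_sh_const (a := a) W r bO)).integrable
  have i2 := (gP.mul ((gd2_lin_mul (a := a) (N := N) (Bd.const 1)).av_sh W r)).integrable
  rw [integral_sub ?_ (gP.integrable.const_mul _), integral_add (i1.const_mul _) (i2.const_mul _),
    integral_const_mul, integral_const_mul, integral_const_mul,
    ibp W hr.le hN (Bd.const 1), ← planted_shift W hr.le (gd_av_const W r bO), planted_qv W]
  · simp only [one_mul, planted_qv' W, av_const W, mul_one, integral_wt W hr.le hN, integral_patW' W hN]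
    field_simp
    ring
  · exact (i1.const_mul (N : ℝ)).add (i2.const_mul (1 / (2 * Real.sqrt r)))

lemma gauss_exp_lin (κ : ℝ) (b : Cfg N) :
    ∫ η, Real.exp (κ * lin η b) ∂gaussVec (Fin N) = Real.exp (κ ^ 2 * N / 2) := by
  have e : ∀ η : Fin N → ℝ, Real.exp (κ * lin η b) = ∏ i, Real.exp (κ * sp b i * η i) := fun η => by
    rw [← Real.exp_sum, lin, Finset.mul_sum]
    congr 1
    exact Finset.sum_congr rfl fun i _ => by ring
  simp_rw [e, gaussVec]
  rw [integral_fintype_prod_eq_prod (f := fun i (x : ℝ) => Real.exp (κ * sp b i * x))]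
  have hm : ∀ t : ℝ, ∫ x, Real.exp (t * x) ∂gaussianReal 0 1 = Real.exp (t ^ 2 / 2) := fun t => by
    simpa [mgf] using congrFun (mgf_id_gaussianReal (μ := 0) (v := 1)) t
  simp_rw [hm]
  rw [← Real.exp_sum, ← Finset.sum_div]
  congr 2
  simp only [mul_pow]
  rw [← Finset.mul_sum, sum_sp_sq']

/-- The bridge between two signal strengths. -/
noncomputable def mixz (r r' : ℝ) (z η : Fin N → ℝ) : Fin N → ℝ :=
  fun i => Real.sqrt (r / r') * z i + Real.sqrt (1 - r / r') * η i

lemma wt_bridge (W : Wgt U C) (g : Fin a → Fin N → ℝ) {r r' : ℝ} (hr : 0 ≤ r) (hrr : r ≤ r') (hr' : 0 < r')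
    (z : Fin N → ℝ) {k : Cfg N → ℝ} (hk : Bd k) :
    ∫ η, ∫ b, wt U r' (g, mixz r r' z η) b * k b ∂prior N ∂gaussVec (Fin N)
        = ∫ b, wt U r (g, z) b * k b ∂prior N ∧
      Integrable (fun η => ∫ b, wt U r' (g, mixz r r' z η) b * k b ∂prior N) (gaussVec (Fin N)) := by
  obtain ⟨hkm, B, hB⟩ := hk
  set κ := Real.sqrt r' * Real.sqrt (1 - r / r')
  have hsr : Real.sqrt r' * Real.sqrt (r / r') = Real.sqrt r := by
    rw [← Real.sqrt_mul hr'.le, mul_div_cancel₀ _ hr'.ne']
  have hκ : κ ^ 2 = r' - r := by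
    rw [mul_pow, Real.sq_sqrt hr'.le, Real.sq_sqrt (by rw [sub_nonneg, div_le_one hr']; exact hrr), mul_sub,
      mul_one, mul_div_cancel₀ _ hr'.ne']
  have e : ∀ (η : Fin N → ℝ) b, wt U r' (g, mixz r r' z η) b
      = patW U g b * Real.exp (Real.sqrt r * lin z b - r' * N / 2) * Real.exp (κ * lin η b) := fun η b => by
    simp only [wt]
    rw [mul_assoc, ← Real.exp_add]
    congr 2
    have : lin (mixz r r' z η) b = Real.sqrt (r / r') * lin z b + Real.sqrt (1 - r / r') * lin η b := by
      simp only [mixz, lin, Finset.mul_sum, ← Finset.sum_add_distrib]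
      exact Finset.sum_congr rfl fun i _ => by ring
    rw [this, mul_add, ← mul_assoc, hsr]
    simp only [κ]; ring
  have hm : Measurable fun p : (Fin N → ℝ) × Cfg N => wt U r' (g, mixz r r' z p.1) p.2 * k p.2 :=
    (measurable_wt W r' (by unfold mixz; fun_prop) measurable_snd).mul (hkm.comp measurable_snd)
  have hi : Integrable (fun p : (Fin N → ℝ) × Cfg N => wt U r' (g, mixz r r' z p.1) p.2 * k p.2)
      ((gaussVec (Fin N)).prod (prior N)) := by
    refine Integrable.mono' (g := fun p : (Fin N → ℝ) × Cfg N =>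
      C ^ a * Real.exp (Real.sqrt r * zlen z - r' * N / 2) * |B| * Real.exp (|κ| * zlen p.1))
      (((integrable_exp_zlen |κ|).comp_fst (prior N)).const_mul _) hm.aestronglyMeasurable (ae_of_all _ fun p => ?_)
    rw [Real.norm_eq_abs, abs_mul, abs_of_pos (wt_pos W _ _ _), e]
    have h1 : κ * lin p.1 p.2 ≤ |κ| * zlen p.1 :=
      (le_abs_self _).trans ((abs_mul _ _).trans_le (mul_le_mul_of_nonneg_left (abs_lin_le _ _) (abs_nonneg κ)))
    have h2 := mul_le_mul_of_nonneg_left ((le_abs_self _).trans (abs_lin_le z p.2)) (Real.sqrt_nonneg r)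
    calc patW U g p.2 * Real.exp (Real.sqrt r * lin z p.2 - r' * N / 2) * Real.exp (κ * lin p.1 p.2) * |k p.2|
        ≤ C ^ a * Real.exp (Real.sqrt r * zlen z - r' * N / 2) * Real.exp (|κ| * zlen p.1) * |B| := by
          have := W.C_pos
          refine mul_le_mul (mul_le_mul (mul_le_mul (patW_le W _ _) (Real.exp_le_exp.2 (by linarith))
            (Real.exp_pos _).le (by positivity)) (Real.exp_le_exp.2 h1) (Real.exp_pos _).le (by positivity))
            ((hB _).trans (le_abs_self _)) (abs_nonneg _) (by positivity)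
      _ = _ := by ring
  refine ⟨?_, hi.integral_prod_left⟩
  rw [integral_integral_swap hi]
  refine integral_congr_ae (ae_of_all _ fun b => ?_)
  simp only [e, integral_mul_const, integral_const_mul, gauss_exp_lin, hκ]
  simp only [wt]
  rw [mul_assoc (patW U g b), ← Real.exp_add]
  ring_nf

lemma qv_eq_coord (W : Wgt U C) (hN : 0 < N) (r : ℝ) :
    N * qv U a N r = ∑ i, ∫ d, lik U r d * av U r d (fun b => sp b i) ^ 2 ∂nullM a N := by
  rw [qv, ← integral_const_mul, ← integral_finsetSum]
  · refine integral_congr_ae (ae_of_all _ fun d => ?_)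
    have h := sum_av_sp W r d hN (Bd.const (1 : ℝ))
    simp only [mul_one, one_mul] at h
    simp only
    rw [← Finset.mul_sum]
    simp only [sq, h]
    ring
  · intro i _
    have := gd_av_const (a := a) W r (k := fun b : Cfg N => sp b i) (Bd.cont (by fun_prop))
    simpa [sq] using ((gd_lik W r).mul (this.mul this)).integrable

lemma qv_nonneg (W : Wgt U C) (hN : 0 < N) (r : ℝ) : 0 ≤ qv U a N r := by
  have h : 0 ≤ (N : ℝ) * qv U a N r := by
    rw [qv_eq_coord W hN]
    exact Finset.sum_nonneg fun i _ => integral_nonneg fun d => mul_nonneg (lik_pos W r d).le (sq_nonneg _)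
  exact nonneg_of_mul_nonneg_right h (by exact_mod_cast hN)

lemma qv_le_one (W : Wgt U C) (hN : 0 < N) {r : ℝ} (hr : 0 ≤ r) : qv U a N r ≤ 1 := by
  rw [← planted_qv W, ← integral_wt (a := a) W hr hN]
  exact integral_mono ((gd_wt W r _).mul (gd_av_const W r (Bd.cont (by fun_prop)))).integrable
    (gd_wt W r _).integrable fun d => mul_le_of_le_one_right (wt_pos W r d _).le
      ((le_abs_self _).trans (abs_av_le W r d fun b => abs_ovl_le (ones N) b))

lemma qv_mono (W : Wgt U C) (hN : 0 < N) {r r' : ℝ} (hr : 0 ≤ r) (hrr : r ≤ r') :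
    qv U a N r ≤ qv U a N r' := by
  rcases eq_or_lt_of_le hrr with rfl | hlt
  · exact le_rfl
  have hr' : 0 < r' := hr.trans_lt hlt
  refine le_of_mul_le_mul_left ?_ (show (0 : ℝ) < N by exact_mod_cast hN)
  rw [qv_eq_coord W hN, qv_eq_coord W hN]
  refine Finset.sum_le_sum fun i _ => ?_
  have bsp : Bd fun b : Cfg N => sp b i := Bd.cont (by fun_prop)
  have hsq : ∀ s, Gd fun d : Dat a N => lik U s d * av U s d (fun b => sp b i) ^ 2 := fun s => by
    simpa [sq] using (gd_lik W s).mul ((gd_av_const (a := a) W s bsp).mul (gd_av_const W s bsp))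
  have h1 := (hsq r).integrable
  have h2 := (hsq r').integrable
  simp only [nullM] at h1 h2 ⊢
  rw [integral_prod _ h1, integral_prod _ h2]
  refine integral_mono h1.integral_prod_left h2.integral_prod_left fun g => ?_
  set F : (Fin N → ℝ) → ℝ := fun z => lik U r' (g, z) * av U r' (g, z) (fun b => sp b i) ^ 2 with hFdef
  have hmi : ∀ s, Integrable (fun z : Fin N → ℝ => lik U s (g, z) * av U s (g, z) (fun b => sp b i) ^ 2)
      (gaussVec (Fin N)) := fun s => (hsq s).slice g
  rw [Plant.integral_bridge hr hrr hr' (hmi r')]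
  have hT : Integrable (fun z => ∫ η, F (mixz r r' z η) ∂gaussVec (Fin N)) (gaussVec (Fin N))
      ∧ ∀ᵐ z ∂gaussVec (Fin N), Integrable (fun η => F (mixz r r' z η)) (gaussVec (Fin N)) := by
    have h := gaussVec_rotate (ι := Fin N) (s := r / r') (t := 1 - r / r') (by positivity)
      (by rw [sub_nonneg, div_le_one hr']; exact hrr)
    simp only [add_sub_cancel, Real.sqrt_one, one_mul, Measure.map_id'] at h
    have hF' : Integrable F (gaussVec (Fin N)) := hmi r'
    rw [← h] at hF'
    have hp := (integrable_map_measure hF'.aestronglyMeasurable (Measurable.aemeasurable (by fun_prop))).1 hF'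
    exact ⟨hp.integral_prod_left, hp.prod_right_ae⟩
  refine integral_mono_ae (hmi r) hT.1 (hT.2.mono fun z hz => ?_)
  dsimp only
  set lam := av U r (g, z) (fun b => sp b i)
  have key := lik_mul_av W r (g, z) (fun b => sp b i)
  have iA := wt_bridge W g hr hrr hr' z bsp
  have iL := wt_bridge W g hr hrr hr' z (Bd.const (1 : ℝ))
  simp only [mul_one] at iL
  have := integral_mono ((iA.2.const_mul (2 * lam)).sub' (iL.2.const_mul (lam ^ 2))) hz fun η => by
    simp only [hFdef]
    rw [← lik_mul_av W r' (g, mixz r r' z η)]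
    change 2 * lam * (lik U r' (g, mixz r r' z η) * av U r' (g, mixz r r' z η) (fun b => sp b i))
      - lam ^ 2 * lik U r' (g, mixz r r' z η) ≤ _
    have := mul_nonneg (lik_pos W r' (g, mixz r r' z η)).le
      (sq_nonneg (av U r' (g, mixz r r' z η) (fun b => sp b i) - lam))
    linarith
  refine le_trans (le_of_eq ?_) this
  rw [integral_sub (iA.2.const_mul _) (iL.2.const_mul _), integral_const_mul, integral_const_mul, iA.1, iL.1,
    ← key]
  change _ = 2 * lam * (lik U r (g, z) * lam) - lam ^ 2 * lik U r (g, z)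
  ring

lemma continuousOn_Jt (W : Wgt U C) {R : ℝ} : ContinuousOn (Jt U a N) (Icc 0 R) := by
  have h : ContinuousOn (fun s => ∫ d, patW U d.1 (ones N) * Real.log (lik U s (sh s d)) ∂nullM a N) (Icc 0 R) := by
    refine continuousOn_of_dominated (bound := fun d : Dat a N => patW U d.1 (ones N) * ((a * Real.log C + R * N / 2
      + Real.sqrt R * (N * Real.sqrt R)) + Real.sqrt R * zlen d.2))
      (fun s _ => ((gd_patW W).mul ((gd_log_lik W s).comp_sh s)).1.aestronglyMeasurable)
      (fun s hs => ae_of_all _ fun d => ?_)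
      ((gd_patW W).mul ((Gd.const _).add ((Gd.const _).mul Gd.zlen_snd))).integrable (ae_of_all _ fun d => ?_)
    · rw [Real.norm_eq_abs, abs_mul, abs_of_pos (patW_pos W _ _)]
      refine mul_le_mul_of_nonneg_left ((abs_log_lik_le W s _).trans ?_) (patW_pos W _ _).le
      rw [abs_of_nonneg hs.1]
      have h1 := mul_le_mul (Real.sqrt_le_sqrt hs.2) ((zlen_shv_le s d.2).trans (add_le_add
        (mul_le_mul_of_nonneg_left (Real.sqrt_le_sqrt hs.2) (Nat.cast_nonneg N)) le_rfl))
        (zlen_nonneg _) (Real.sqrt_nonneg _)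
      simp only [sh] at h1 ⊢
      have h2 := mul_le_mul_of_nonneg_right hs.2 (Nat.cast_nonneg (α := ℝ) N)
      linarith [mul_add (Real.sqrt R) ((N : ℝ) * Real.sqrt R) (zlen d.2)]
    · refine continuousOn_const.mul (ContinuousOn.log ?_ fun s _ => (lik_pos W s _).ne')
      refine continuousOn_of_dominated (bound := fun _ => C ^ a * Real.exp (Real.sqrt R * (N * Real.sqrt R + zlen d.2)))
        (fun s _ => (bd_wt W s _).1.aestronglyMeasurable) (fun s hs => ae_of_all _ fun b => ?_)
        (integrable_const _) (ae_of_all _ fun b => ?_)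
      · rw [Real.norm_eq_abs, abs_of_pos (wt_pos W _ _ _)]
        exact wt_sh_le W hs.1 hs.2 d b
      · simp only [wt, sh, lin_shv]
        fun_prop
  exact h.congr fun s hs => Jt_shift W hs.1

/-- The slopes of the entropy lie between the overlaps at the two ends. -/
lemma Jt_slope (W : Wgt U C) (hN : 0 < N) {r r' : ℝ} (hr : 0 ≤ r) (hrr : r ≤ r') :
    N * qv U a N r / 2 * (r' - r) ≤ Jt U a N r' - Jt U a N r ∧
      Jt U a N r' - Jt U a N r ≤ N * qv U a N r' / 2 * (r' - r) := by
  rcases eq_or_lt_of_le hrr with rfl | hlt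
  · simp
  obtain ⟨c, hc, he⟩ := exists_hasDerivAt_eq_slope (Jt U a N) (fun s => N * qv U a N s / 2) hlt
    ((continuousOn_Jt W (R := r')).mono (Icc_subset_Icc hr le_rfl))
    fun x hx => hasDeriv_Jt W (hr.trans_lt hx.1) hN
  rw [eq_div_iff (sub_pos.2 hlt).ne'] at he
  have hn : (0 : ℝ) ≤ N := Nat.cast_nonneg N
  rw [← he]
  constructor <;> refine mul_le_mul_of_nonneg_right ?_ (sub_pos.2 hlt).le
  · have := mul_le_mul_of_nonneg_left (qv_mono (a := a) W hN hr hc.1.le) hn; linarith
  · have := mul_le_mul_of_nonneg_left (qv_mono (a := a) W hN (hr.trans hc.1.le) hc.2.le) hn; linarith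

end Vale.Agent.P157.Sph
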