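import Vale.Agent.P157.SpherePlant.Base

/-!
A convex function of a Gaussian vector deviates from its mean by a multiple of the size of its
subgradients.
-/

open MeasureTheory ProbabilityTheory Filter Topology Set
open scoped BigOperators

namespace Vale.Agent.P157.Sph

variable {N : ℕ}

/-- The rotation of a pair of vectors. -/
noncomputable def rot (θ : ℝ) (p : (Fin N → ℝ) × (Fin N → ℝ)) : (Fin N → ℝ) × (Fin N → ℝ) :=
  (fun i => Real.cos θ * p.1 i + Real.sin θ * p.2 i, fun i => -Real.sin θ * p.1 i + Real.cos θ * p.2 i)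

@[fun_prop]
lemma continuous_rot (θ : ℝ) : Continuous (rot θ : (Fin N → ℝ) × (Fin N → ℝ) → _) := by unfold rot; fun_prop

lemma map_rot (θ : ℝ) :
    ((gaussVec (Fin N)).prod (gaussVec (Fin N))).map (rot θ) = (gaussVec (Fin N)).prod (gaussVec (Fin N)) := by
  set P := (gaussVec (Fin N)).prod (gaussVec (Fin N))
  have hm : Measurable (rot θ : (Fin N → ℝ) × (Fin N → ℝ) → _) := (continuous_rot θ).measurable
  have : IsProbabilityMeasure (P.map (rot θ)) := Measure.isProbabilityMeasure_map hm.aemeasurable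
  refine Measure.ext_of_charFunDual (funext fun L => ?_)
  set A : Fin N → ℝ := fun i => L (Pi.single i 1, 0)
  set B : Fin N → ℝ := fun i => L (0, Pi.single i 1)
  have hL : ∀ u v : Fin N → ℝ, L (u, v) = dot u A + dot v B := fun u v => by
    have h1 := dual_eq_dot (L.comp (ContinuousLinearMap.inl ℝ (Fin N → ℝ) (Fin N → ℝ))) u
    have h2 := dual_eq_dot (L.comp (ContinuousLinearMap.inr ℝ (Fin N → ℝ) (Fin N → ℝ))) v
    simp only [ContinuousLinearMap.comp_apply, ContinuousLinearMap.inl_apply, ContinuousLinearMap.inr_apply] at h1 h2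
    simp only [A, B]
    rw [← h1, ← h2, ← map_add]
    simp
  have key : ∀ u v : Fin N → ℝ,
      ∫ p, Complex.exp ((dot p.1 u + dot p.2 v : ℝ) * Complex.I) ∂P
        = (Real.exp (-(sq2 u + sq2 v) / 2) : ℂ) := fun u v => by
    have e : ∀ p : (Fin N → ℝ) × (Fin N → ℝ), Complex.exp ((dot p.1 u + dot p.2 v : ℝ) * Complex.I)
        = Complex.exp ((dot p.1 u : ℝ) * Complex.I) * Complex.exp ((dot p.2 v : ℝ) * Complex.I) := fun p => by
      rw [← Complex.exp_add]; push_cast; ring_nf
    simp only [e, P]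
    rw [integral_prod_mul (fun x => Complex.exp ((dot x u : ℝ) * Complex.I))
      (fun y => Complex.exp ((dot y v : ℝ) * Complex.I))]
    simp only [dot, gauss_cexp]
    rw [← Complex.ofReal_mul, ← Real.exp_add]
    congr 2
    simp only [sq2]
    ring
  rw [charFunDual_apply, charFunDual_apply,
    integral_map hm.aemeasurable (Continuous.aestronglyMeasurable (by fun_prop))]
  set c := Real.cos θ
  set s := Real.sin θ
  have e1 : ∀ p : (Fin N → ℝ) × (Fin N → ℝ), L (rot θ p)
      = dot p.1 (fun i => c * A i - s * B i) + dot p.2 (fun i => s * A i + c * B i) := fun p => by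
    rw [show rot θ p = (_, _) from rfl, hL]
    simp only [dot, ← Finset.sum_add_distrib, c, s]
    exact Finset.sum_congr rfl fun i _ => by ring
  simp only [e1, key, show ∀ p : (Fin N → ℝ) × (Fin N → ℝ), L p = dot p.1 A + dot p.2 B from fun p => hL p.1 p.2]
  congr 4
  simp only [sq2, ← Finset.sum_add_distrib]
  refine Finset.sum_congr rfl fun i _ => ?_
  have := Real.sin_sq_add_cos_sq θ
  simp only [c, s]
  linear_combination (A i ^ 2 + B i ^ 2) * this

lemma integral_abs_dot_le (u : Fin N → ℝ) : ∫ g, |dot u g| ∂gaussVec (Fin N) ≤ Real.sqrt (sq2 u) := by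
  simp only [dot_comm u]
  rw [show (fun g : Fin N → ℝ => |dot g u|) = fun g => (fun y : ℝ => |y|) (∑ j, g j * u j) from rfl,
    integral_linear u (F := fun y => |y|) (by fun_prop)]
  simp only [abs_mul, abs_of_nonneg (Real.sqrt_nonneg _)]
  rw [integral_const_mul]
  refine mul_le_of_le_one_right (Real.sqrt_nonneg _) ?_
  have h : Integrable (fun z : ℝ => |z|) (gaussianReal 0 1) := by simpa using integrable_abs_pow_gauss 1
  refine (integral_mono h ((integrable_const (1 / 2)).add ((integrable_pow_gauss 2).const_mul (1 / 2))) fun z => ?_).trans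
    (le_of_eq ?_)
  · simp only [Pi.add_apply]
    nlinarith [sq_nonneg (|z| - 1), sq_abs z]
  · simp only [Pi.add_apply]
    rw [integral_add (integrable_const _) ((integrable_pow_gauss 2).const_mul _), integral_const_mul, gauss_sq]
    simp; norm_num

lemma integral_sqrt_sq2_le : Integrable (fun g : Fin N → ℝ => Real.sqrt (sq2 g)) (gaussVec (Fin N)) ∧
    ∫ g, Real.sqrt (sq2 g) ∂gaussVec (Fin N) ≤ Real.sqrt N := by
  rcases Nat.eq_zero_or_pos N with rfl | hN
  · simp [sq2]
  have hn : (0 : ℝ) < Real.sqrt N := Real.sqrt_pos.2 (by exact_mod_cast hN)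
  have hi : ∀ i, Integrable (fun g : Fin N → ℝ => g i ^ 2) (gaussVec (Fin N)) := fun i =>
    (measurePreserving_eval (fun _ : Fin N => gaussianReal 0 1) i).integrable_comp_of_integrable
      (g := fun x : ℝ => x ^ 2) (integrable_pow_gauss 2)
  have hs : Integrable (fun g : Fin N → ℝ => sq2 g) (gaussVec (Fin N)) := integrable_finsetSum _ fun i _ => hi i
  have hsv : ∫ g, sq2 g ∂gaussVec (Fin N) = N := by
    simp only [sq2]
    rw [integral_finsetSum _ fun i _ => hi i]
    have : ∀ i : Fin N, ∫ g, g i ^ 2 ∂gaussVec (Fin N) = 1 := fun i => by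
      rw [gaussVec, integral_comp_eval (μ := fun _ : Fin N => gaussianReal 0 1) (i := i) (f := fun x : ℝ => x ^ 2)
        (by fun_prop), gauss_sq]
    simp [this]
  have hb : ∀ g : Fin N → ℝ, Real.sqrt (sq2 g) ≤ (Real.sqrt N)⁻¹ * (sq2 g / 2) + Real.sqrt N / 2 := fun g => by
    rw [inv_mul_eq_div, div_div, div_add_div _ _ (by positivity) two_ne_zero, le_div_iff₀ (by positivity)]
    nlinarith [sq_nonneg (Real.sqrt (sq2 g) - Real.sqrt N), Real.mul_self_sqrt (sq2_nonneg g)]
  have hd : Integrable (fun g : Fin N → ℝ => (Real.sqrt N)⁻¹ * (sq2 g / 2) + Real.sqrt N / 2) (gaussVec (Fin N)) :=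
    ((hs.div_const 2).const_mul _).add (integrable_const _)
  have hint : Integrable (fun g : Fin N → ℝ => Real.sqrt (sq2 g)) (gaussVec (Fin N)) :=
    hd.mono' (Measurable.aestronglyMeasurable (by fun_prop)) (ae_of_all _ fun g => by
      rw [Real.norm_eq_abs, abs_of_nonneg (Real.sqrt_nonneg _)]; exact hb g)
  refine ⟨hint, (integral_mono hint hd hb).trans (le_of_eq ?_)⟩
  rw [integral_add ((hs.div_const 2).const_mul _) (integrable_const _), integral_const_mul, integral_div, hsv]
  simp only [integral_const, probReal_univ, one_smul]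
  field_simp
  rw [Real.sq_sqrt (Nat.cast_nonneg N)]
  ring

lemma convex_dev {Φ : (Fin N → ℝ) → ℝ} {m : (Fin N → ℝ) → Fin N → ℝ} {L : ℝ} (hm : Measurable Φ)
    (hmm : Measurable m) (hi : Integrable Φ (gaussVec (Fin N)))
    (hsub : ∀ x y, Φ x - Φ y ≤ dot (m x) (fun i => x i - y i)) (hL : ∀ x, sq2 (m x) ≤ L) :
    ∫ x, |Φ x - ∫ x', Φ x' ∂gaussVec (Fin N)| ∂gaussVec (Fin N) ≤ 6 * Real.sqrt L := by
  set γ := gaussVec (Fin N)
  set P := γ.prod γ
  set K : ℕ := N + 1
  have hK : (0 : ℝ) < K := by positivity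
  set θ := Real.pi / (2 * K)
  have hθ0 : 0 < θ := by positivity
  set R : ℕ → (Fin N → ℝ) × (Fin N → ℝ) → (Fin N → ℝ) × (Fin N → ℝ) := fun k => rot ((k : ℝ) * θ)
  have hcos : 0 ≤ 1 - Real.cos θ := sub_nonneg.2 (Real.cos_le_one θ)
  have hθ2 : θ ≤ Real.pi := by
    rw [div_le_iff₀ (by positivity)]
    exact le_mul_of_one_le_right Real.pi_pos.le (by linarith [show (1 : ℝ) ≤ K by simp [K]])
  have hsin : 0 ≤ Real.sin θ := Real.sin_nonneg_of_nonneg_of_le_pi hθ0.le hθ2
  set term : (Fin N → ℝ) × (Fin N → ℝ) → ℝ := fun p =>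
    (1 - Real.cos θ) * (Real.sqrt L * Real.sqrt (sq2 p.1)) + Real.sin θ * |dot (m p.1) p.2|
  have hterm0 : ∀ p, 0 ≤ term p := fun p => by simp only [term]; positivity
  have hstep : ∀ p k, Φ (R k p).1 - Φ (R (k + 1) p).1 ≤ term (R k p) := fun p k => by
    refine (hsub _ _).trans ?_
    have e : (fun i => (R k p).1 i - (R (k + 1) p).1 i)
        = fun i => (1 - Real.cos θ) * (R k p).1 i + (-Real.sin θ) * (R k p).2 i := by
      funext i
      simp only [R, rot]
      rw [show ((k + 1 : ℕ) : ℝ) * θ = (k : ℝ) * θ + θ by push_cast; ring, Real.cos_add, Real.sin_add]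
      ring
    rw [e]
    have e2 : dot (m (R k p).1) (fun i => (1 - Real.cos θ) * (R k p).1 i + (-Real.sin θ) * (R k p).2 i)
        = (1 - Real.cos θ) * dot (m (R k p).1) (R k p).1 + (-Real.sin θ) * dot (m (R k p).1) (R k p).2 := by
      simp only [dot, Finset.mul_sum, ← Finset.sum_add_distrib]
      exact Finset.sum_congr rfl fun i _ => by ring
    rw [e2]
    refine add_le_add (mul_le_mul_of_nonneg_left ((le_abs_self _).trans ((abs_dot_le _ _).trans
      (mul_le_mul_of_nonneg_right (Real.sqrt_le_sqrt (hL _)) (Real.sqrt_nonneg _)))) hcos) ?_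
    rw [neg_mul, ← mul_neg]
    exact mul_le_mul_of_nonneg_left (neg_le_abs _) hsin
  have hsum : ∀ p, max (Φ p.1 - Φ p.2) 0 ≤ ∑ k ∈ Finset.range K, term (R k p) := fun p => by
    refine max_le ?_ (Finset.sum_nonneg fun k _ => hterm0 _)
    have e0 : (R 0 p).1 = p.1 := by funext i; simp [R, rot]
    have eK : (R K p).1 = p.2 := by
      funext i
      have : (K : ℝ) * θ = Real.pi / 2 := by simp only [θ]; field_simp
      simp only [R, rot, this, Real.cos_pi_div_two, Real.sin_pi_div_two]
      ring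
    rw [← e0, ← eK, ← Finset.sum_range_sub' (fun k => Φ (R k p).1) K]
    exact Finset.sum_le_sum fun k _ => hstep p k
  have hmd : Measurable fun p : (Fin N → ℝ) × (Fin N → ℝ) => dot (m p.1) p.2 := by unfold dot; fun_prop
  have iD : Integrable (fun p : (Fin N → ℝ) × (Fin N → ℝ) => |dot (m p.1) p.2|) P := by
    refine Integrable.mono' (g := fun p : (Fin N → ℝ) × (Fin N → ℝ) => Real.sqrt L * Real.sqrt (sq2 p.2))
      ((integral_sqrt_sq2_le.1.comp_snd γ).const_mul _) hmd.abs.aestronglyMeasurable (ae_of_all _ fun p => ?_)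
    rw [Real.norm_eq_abs, abs_abs]
    exact (abs_dot_le _ _).trans (mul_le_mul_of_nonneg_right (Real.sqrt_le_sqrt (hL _)) (Real.sqrt_nonneg _))
  have iS : Integrable (fun p : (Fin N → ℝ) × (Fin N → ℝ) => Real.sqrt (sq2 p.1)) P :=
    integral_sqrt_sq2_le.1.comp_fst γ
  have iT : Integrable term P := ((iS.const_mul _).const_mul _).add (iD.const_mul _)
  have hR : ∀ k, MeasurePreserving (R k) P P := fun k => ⟨(continuous_rot _).measurable, map_rot _⟩
  have iTk : ∀ k, Integrable (fun p => term (R k p)) P := fun k => (hR k).integrable_comp_of_integrable iT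
  have hTk : ∀ k, ∫ p, term (R k p) ∂P = ∫ p, term p ∂P := fun k => by
    conv_rhs => rw [← (hR k).map_eq]
    rw [integral_map (hR k).measurable.aemeasurable ((hR k).map_eq.symm ▸ iT.aestronglyMeasurable)]
  have hT : ∫ p, term p ∂P ≤ (1 - Real.cos θ) * (Real.sqrt L * Real.sqrt N) + Real.sin θ * Real.sqrt L := by
    simp only [term]
    rw [integral_add ((iS.const_mul _).const_mul _) (iD.const_mul _), integral_const_mul, integral_const_mul,
      integral_const_mul]
    refine add_le_add (mul_le_mul_of_nonneg_left (mul_le_mul_of_nonneg_left ?_ (Real.sqrt_nonneg _)) hcos)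
      (mul_le_mul_of_nonneg_left ?_ hsin)
    · refine le_trans (le_of_eq ?_) integral_sqrt_sq2_le.2
      simp only [P]
      rw [integral_fun_fst (fun g : Fin N → ℝ => Real.sqrt (sq2 g))]
      simp [γ]
    · rw [integral_prod _ iD]
      refine (integral_mono iD.integral_prod_left (integrable_const (Real.sqrt L)) fun x => ?_).trans (by simp)
      exact (integral_abs_dot_le (m x)).trans (Real.sqrt_le_sqrt (hL x))
  have iF : Integrable (fun p : (Fin N → ℝ) × (Fin N → ℝ) => Φ p.1 - Φ p.2) P :=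
    (hi.comp_fst γ).sub (hi.comp_snd γ)
  have iM : Integrable (fun p : (Fin N → ℝ) × (Fin N → ℝ) => max (Φ p.1 - Φ p.2) 0) P :=
    iF.sup (integrable_zero _ _ _)
  have hpos : ∫ p, max (Φ p.1 - Φ p.2) 0 ∂P ≤ 3 * Real.sqrt L := by
    refine (integral_mono iM (integrable_finsetSum _ fun k _ => iTk k) hsum).trans ?_
    rw [integral_finsetSum _ fun k _ => iTk k]
    simp only [hTk, Finset.sum_const, Finset.card_range, nsmul_eq_mul]
    refine (mul_le_mul_of_nonneg_left hT hK.le).trans ?_
    have hc : 1 - Real.cos θ ≤ θ ^ 2 / 2 := by linarith [Real.one_sub_sq_div_two_le_cos (x := θ)]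
    have hs : Real.sin θ ≤ θ := Real.sin_le hθ0.le
    have hsL := Real.sqrt_nonneg L
    have hsN : Real.sqrt N ≤ K / 2 := by
      simp only [K]
      push_cast
      nlinarith [sq_nonneg (Real.sqrt N - 1), Real.mul_self_sqrt (Nat.cast_nonneg (α := ℝ) N)]
    have hKθ : (K : ℝ) * θ ≤ 2 := by
      have : (K : ℝ) * θ = Real.pi / 2 := by simp only [θ]; field_simp
      linarith [Real.pi_le_four]
    calc (K : ℝ) * ((1 - Real.cos θ) * (Real.sqrt L * Real.sqrt N) + Real.sin θ * Real.sqrt L)
        ≤ K * (θ ^ 2 / 2 * (Real.sqrt L * (K / 2)) + θ * Real.sqrt L) := by gcongr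
      _ = (K * θ) ^ 2 * Real.sqrt L / 4 + K * θ * Real.sqrt L := by ring
      _ ≤ 2 ^ 2 * Real.sqrt L / 4 + 2 * Real.sqrt L := by gcongr
      _ = _ := by ring
  have hneg : ∫ p, max (Φ p.2 - Φ p.1) 0 ∂P ≤ 3 * Real.sqrt L := by
    refine le_trans (le_of_eq ?_) hpos
    have hsw : Measure.map Prod.swap P = P := Measure.prod_swap
    conv_rhs => rw [← hsw]
    rw [integral_map measurable_swap.aemeasurable (Measurable.aestronglyMeasurable (by fun_prop))]
    rfl
  have iMn : Integrable (fun p : (Fin N → ℝ) × (Fin N → ℝ) => max (Φ p.2 - Φ p.1) 0) P :=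
    ((hi.comp_snd γ).sub (hi.comp_fst γ)).sup (integrable_zero _ _ _)
  have hmean : ∀ x, |Φ x - ∫ x', Φ x' ∂γ| ≤ ∫ y, |Φ x - Φ y| ∂γ := fun x => by
    have : Φ x - ∫ x', Φ x' ∂γ = ∫ y, (Φ x - Φ y) ∂γ := by
      rw [integral_sub (integrable_const _) hi]; simp
    rw [this]
    exact abs_integral_le_integral_abs
  have iA : Integrable (fun p : (Fin N → ℝ) × (Fin N → ℝ) => |Φ p.1 - Φ p.2|) P := iF.abs
  refine (integral_mono (hi.sub (integrable_const _)).abs iA.integral_prod_left hmean).trans ?_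
  rw [← integral_prod _ iA]
  refine (integral_mono iA (iM.add iMn) fun p => ?_).trans ?_
  · simp only [Pi.add_apply]
    rcases le_total 0 (Φ p.1 - Φ p.2) with h | h
    · rw [abs_of_nonneg h]; linarith [le_max_left (Φ p.1 - Φ p.2) 0, le_max_right (Φ p.2 - Φ p.1) 0]
    · rw [abs_of_nonpos h]; linarith [le_max_left (Φ p.2 - Φ p.1) 0, le_max_right (Φ p.1 - Φ p.2) 0]
  · simp only [Pi.add_apply]
    rw [integral_add iM iMn]
    linarith

end Vale.Agent.P157.Sph
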