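import Vale.Agent.P157.SpherePlant.Inc
import Vale.Agent.P157.SpherePlant.Dev

/-!
The overlap on the sphere concentrates on average over the signal strength.
-/

open MeasureTheory ProbabilityTheory Filter Topology Set
open Vale.Agent.P157.Plant (Wgt ent)
open scoped BigOperators

namespace Vale.Agent.P157.Sph

variable {a N : ℕ} {U : ℝ → ℝ} {C : ℝ}

/-- The free energy in planted coordinates. -/
noncomputable def fe (U : ℝ → ℝ) (r : ℝ) (d : Dat a N) : ℝ := Real.log (lik U r (sh r d))

lemma gd_fe (W : Wgt U C) (r : ℝ) : Gd fun d : Dat a N => fe U r d := (gd_log_lik W r).comp_sh r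

lemma av_sq_le (W : Wgt U C) (r : ℝ) (d : Dat a N) {h : Cfg N → ℝ} (hh : Bd h) :
    av U r d h ^ 2 ≤ av U r d (fun b => h b * h b) := by
  set m := av U r d h
  have := av_mono W r d (h := fun b => h b * (2 * m) - m ^ 2) ((hh.mul (Bd.const _)).sub (Bd.const _))
    (hh.mul hh) fun b => by nlinarith [sq_nonneg (h b - m)]
  rw [av_sub W r d (hh.mul (Bd.const _)) (Bd.const _), av_mul_right, av_const W] at this
  change m * (2 * m) - m ^ 2 ≤ _ at this
  linarith

/-- The free energy is convex in the side observation, with bounded subgradients. -/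
lemma fe_subgrad (W : Wgt U C) {r : ℝ} (hr : 0 ≤ r) (g : Fin a → Fin N → ℝ) (x y : Fin N → ℝ) :
    fe U r (g, x) - fe U r (g, y)
      ≤ dot (fun i => Real.sqrt r * av U r (g, shv r x) fun b => sp b i) (fun i => x i - y i) := by
  set u : Cfg N → ℝ := fun b => -(Real.sqrt r * lin (fun i => x i - y i) b)
  have bu : Bd u := Bd.cont (by simp only [u]; fun_prop)
  have be : Bd fun b => Real.exp (u b) := Bd.cont (by simp only [u]; fun_prop)
  set M := av U r (g, shv r x) u
  have h1 : Real.exp M ≤ av U r (g, shv r x) (fun b => Real.exp (u b)) := by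
    have := av_mono W r (g, shv r x) (h := fun b => Real.exp M * ((1 - M) + u b))
      ((Bd.const _).mul ((Bd.const _).add bu)) be fun b => by
        have h := mul_le_mul_of_nonneg_left (Real.add_one_le_exp (u b - M)) (Real.exp_pos M).le
        rw [← Real.exp_add, add_sub_cancel] at h
        linarith
    rw [av_mul, av_add W _ _ (Bd.const _) bu, av_const W] at this
    change Real.exp M * ((1 - M) + M) ≤ _ at this
    simpa using this
  have h2 : av U r (g, shv r x) (fun b => Real.exp (u b)) = lik U r (g, shv r y) / lik U r (g, shv r x) := by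
    unfold av
    congr 1
    refine integral_congr_ae (ae_of_all _ fun b => ?_)
    simp only [wt, u]
    rw [mul_assoc, ← Real.exp_add]
    congr 2
    have : lin (fun i => x i - y i) b = lin (shv r x) b - lin (shv r y) b := by
      simp only [lin, shv, ← Finset.sum_sub_distrib]
      exact Finset.sum_congr rfl fun i _ => by ring
    rw [this]
    ring
  rw [h2] at h1
  have h3 := Real.log_le_log (Real.exp_pos M) h1
  rw [Real.log_exp, Real.log_div (lik_pos W r _).ne' (lik_pos W r _).ne'] at h3
  have h4 : M = -(dot (fun i => Real.sqrt r * av U r (g, shv r x) fun b => sp b i) (fun i => x i - y i)) := by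
    have e : u = fun b => ∑ i, -(Real.sqrt r * (x i - y i)) * sp b i := by
      funext b
      simp only [u, lin, Finset.mul_sum, ← Finset.sum_neg_distrib]
      exact Finset.sum_congr rfl fun i _ => by ring
    simp only [M, e]
    rw [av_finsum W _ r _ fun i _ => (Bd.const _).mul (Bd.cont (by fun_prop)), dot, ← Finset.sum_neg_distrib]
    exact Finset.sum_congr rfl fun i _ => by rw [av_mul]; ring
  simp only [fe, sh] at *
  linarith

lemma sq2_grad_le (W : Wgt U C) {r : ℝ} (hr : 0 ≤ r) (d : Dat a N) :
    sq2 (fun i => Real.sqrt r * av U r d fun b => sp b i) ≤ N * r := by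
  simp only [sq2, mul_pow, Real.sq_sqrt hr, ← Finset.mul_sum]
  rw [mul_comm (N : ℝ)]
  refine mul_le_mul_of_nonneg_left ?_ hr
  refine (Finset.sum_le_sum fun i _ => av_sq_le W r d (Bd.cont (continuous_sp i))).trans (le_of_eq ?_)
  rw [← av_finsum W _ r d fun i _ => Bd.cont (by fun_prop)]
  simp only [sum_sp_sq, av_const W]

/-- The mean absolute fluctuation of the free energy. -/
lemma fe_dev (W : Wgt U C) {r : ℝ} (hr : 0 ≤ r) (hN : 0 < N) :
    ∫ d, patW U d.1 (ones N) * |fe U r d - Jt U a N r| ∂nullM a N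
      ≤ 6 * Real.sqrt (N * r) + 2 * Real.sqrt (a * Real.log C ^ 2) := by
  set γN := gaussVec (Fin N)
  set ρ : (Fin N → ℝ) → ℝ := fun g => U (fld g (ones N))
  have hρi : Integrable ρ γN := W.int (by fun_prop)
  have hρ1 : ∫ g, ρ g ∂γN = 1 := integral_fld W hN _
  set ν := γN.withDensity fun g => ENNReal.ofReal (ρ g)
  have : IsProbabilityMeasure ν := ⟨by
    rw [withDensity_apply _ MeasurableSet.univ, setLIntegral_univ,
      ← ofReal_integral_eq_lintegral_ofReal hρi (ae_of_all _ fun g => (W.pos _).le), hρ1, ENNReal.ofReal_one]⟩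
  have hpi : (Measure.pi fun _ : Fin a => γN).withDensity (fun g => ENNReal.ofReal (patW U g (ones N)))
      = Measure.pi fun _ : Fin a => ν :=
    Plant.pi_withDensity' γN (ρ := fun _ g => U (fld g (ones N))) (fun _ g => (W.pos _).le)
      (fun _ => W.meas.comp (by fun_prop)) fun _ => hρi
  have hint : ∀ {Φ : (Fin a → Fin N → ℝ) → ℝ},
      ∫ g, patW U g (ones N) * Φ g ∂(Measure.pi fun _ : Fin a => γN) = ∫ g, Φ g ∂Measure.pi fun _ : Fin a => ν := by
    intro Φ
    rw [← hpi, integral_withDensity_eq_integral_toReal_smul ?_ (ae_of_all _ fun _ => ENNReal.ofReal_lt_top)]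
    · exact integral_congr_ae (ae_of_all _ fun g => by simp [ENNReal.toReal_ofReal (patW_pos W g _).le])
    · exact (measurable_patW W measurable_id measurable_const).ennreal_ofReal
  have hfm : Measurable fun d : Dat a N => fe U r d := (gd_fe W r).1
  have hlipg : ∀ (ξ : Fin N → ℝ) (g : Fin a → Fin N → ℝ) c y,
      |fe U r (g, ξ) - fe U r (Function.update g c y, ξ)| ≤ Real.log C + Real.log C := by
    intro ξ g c y
    have hb : ∀ g₁ g₂ : Fin a → Fin N → ℝ, (∀ e, e ≠ c → g₁ e = g₂ e) →
        fe U r (g₁, ξ) - fe U r (g₂, ξ) ≤ Real.log C + Real.log C := by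
      intro g₁ g₂ h
      have hle : lik U r (sh r (g₁, ξ)) ≤ (C * C) * lik U r (sh r (g₂, ξ)) := by
        unfold lik
        rw [← integral_const_mul]
        refine integral_mono ((bd_wt W r _).integrable _) (((bd_wt W r _).integrable _).const_mul _) fun b => ?_
        simp only [wt, sh]
        rw [← mul_assoc]
        refine mul_le_mul_of_nonneg_right ?_ (Real.exp_pos _).le
        simp only [patW]
        rw [Finset.prod_eq_prod_sdiff_singleton_mul (Finset.mem_univ c),
          Finset.prod_eq_prod_sdiff_singleton_mul (Finset.mem_univ c) (fun e => U (fld (g₂ e) b))]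
        rw [Finset.prod_congr rfl fun e he => by rw [h e (by simpa using he)], mul_left_comm]
        refine mul_le_mul_of_nonneg_left ?_ (Finset.prod_nonneg fun e _ => (W.pos _).le)
        calc U (fld (g₁ c) b) ≤ C := W.hi _
          _ = C * C * C⁻¹ := by field_simp [W.C_pos.ne']
          _ ≤ C * C * U (fld (g₂ c) b) := mul_le_mul_of_nonneg_left (W.lo _) (mul_self_nonneg C)
      have := Real.log_le_log (lik_pos W r _) hle
      rw [Real.log_mul (mul_pos W.C_pos W.C_pos).ne' (lik_pos W r _).ne', Real.log_mul W.C_pos.ne' W.C_pos.ne'] at this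
      simp only [fe]
      linarith
    rw [abs_le]
    constructor
    · linarith [hb (Function.update g c y) g fun e he => Function.update_of_ne he _ _]
    · linarith [hb g (Function.update g c y) fun e he => (Function.update_of_ne he _ _).symm]
  set G : (Fin a → Fin N → ℝ) → ℝ := fun g => ∫ ξ, fe U r (g, ξ) ∂γN with hG
  have hGm : Measurable G :=
    (StronglyMeasurable.integral_prod_right (f := fun g ξ => fe U r (g, ξ)) hfm.stronglyMeasurable).measurable
  have hfi : ∀ g : Fin a → Fin N → ℝ, Integrable (fun ξ => fe U r (g, ξ)) γN := fun g => (gd_fe W r).slice g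
  have hin : ∀ g : Fin a → Fin N → ℝ, ∫ ξ, |fe U r (g, ξ) - G g| ∂γN ≤ 6 * Real.sqrt (N * r) := fun g =>
    convex_dev (hfm.comp measurable_prodMk_left)
      (measurable_pi_lambda _ fun i => ((measurable_av_const W r (measurable_sp i)).comp
        (measurable_const.prodMk (measurable_shv r))).const_mul _)
      (hfi g) (fe_subgrad W hr g) fun x => sq2_grad_le W hr _
  have hdiff : ∀ (g : Fin a → Fin N → ℝ) c y, |G g - G (Function.update g c y)| ≤ Real.log C + Real.log C := fun g c y => by
    simp only [hG]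
    rw [← integral_sub (hfi _) (hfi _)]
    simpa using norm_integral_le_of_norm_le_const (μ := γN)
      (f := fun ξ => fe U r (g, ξ) - fe U r (Function.update g c y, ξ)) (ae_of_all _ fun ξ => hlipg ξ g c y)
  have hout : ∫ g, |G g - ∫ g', G g' ∂Measure.pi fun _ : Fin a => ν| ∂Measure.pi (fun _ : Fin a => ν)
      ≤ 2 * Real.sqrt (a * Real.log C ^ 2) :=
    (Plant.abs_dev_le ν (d := fun _ => Real.log C) (fun _ => Real.log_nonneg W.one_le) measurable_const
      (integrable_const _) (integrable_const _) hGm hdiff).trans (le_of_eq (by simp))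
  have iJ : Integrable (fun d : Dat a N => patW U d.1 (ones N) * fe U r d) (nullM a N) :=
    ((gd_patW W).mul (gd_fe W r)).integrable
  have hJ : Jt U a N r = ∫ g, G g ∂Measure.pi fun _ : Fin a => ν := by
    rw [Jt_shift W hr, ← hint]
    have := iJ
    simp only [nullM] at this ⊢
    rw [show (∫ d, patW U d.1 (ones N) * Real.log (lik U r (sh r d)) ∂(Measure.pi fun _ : Fin a => γN).prod γN)
      = ∫ d, patW U d.1 (ones N) * fe U r d ∂(Measure.pi fun _ : Fin a => γN).prod γN from rfl, integral_prod _ this]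
    exact integral_congr_ae (ae_of_all _ fun g => by simp only [hG]; exact (integral_const_mul _ _).symm.symm)
  have i1 : Integrable (fun d : Dat a N => patW U d.1 (ones N) * |fe U r d - Jt U a N r|) (nullM a N) :=
    ((gd_patW W).mul ((gd_fe W r).sub (Gd.const _)).abs).integrable
  simp only [nullM] at i1 ⊢
  rw [integral_prod _ i1]
  simp only [integral_const_mul]
  rw [hint]
  obtain ⟨hG1, -, -⟩ := Plant.pi_dev ν (d := fun _ => Real.log C) (fun _ => Real.log_nonneg W.one_le) measurable_const
    (integrable_const _) (integrable_const _) a G hGm hdiff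
  have ib : Integrable (fun g => 6 * Real.sqrt (N * r) + |G g - Jt U a N r|) (Measure.pi fun _ : Fin a => ν) :=
    (integrable_const _).add (hG1.sub (integrable_const _)).abs
  refine (integral_mono_of_nonneg (ae_of_all _ fun g => integral_nonneg fun ξ => abs_nonneg _) ib
    (ae_of_all _ fun g => ?_)).trans ?_
  · dsimp only
    have j1 : Integrable (fun ξ => |fe U r (g, ξ) - G g|) γN := ((hfi g).sub (integrable_const _)).abs
    have j2 : Integrable (fun ξ => |fe U r (g, ξ) - Jt U a N r|) γN := ((hfi g).sub (integrable_const _)).abs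
    refine (integral_mono j2 (j1.add (integrable_const |G g - Jt U a N r|)) fun ξ => abs_sub_le _ (G g) _).trans ?_
    simp only [Pi.add_apply]
    rw [integral_add j1 (integrable_const _)]
    simp only [integral_const, probReal_univ, one_smul]
    linarith [hin g]
  · have j3 : Integrable (fun g => |G g - Jt U a N r|) (Measure.pi fun _ : Fin a => ν) :=
      (hG1.sub (integrable_const _)).abs
    rw [integral_add (integrable_const _) j3, integral_const, probReal_univ, one_smul, hJ]
    linarith

lemma bd_max {k : Cfg N → ℝ} (hk : Bd k) : Bd fun b => max (k b) 0 := by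
  obtain ⟨hm, B, hB⟩ := hk
  refine Bd.of (hm.max measurable_const) (B := B) fun b => ?_
  rw [abs_of_nonneg (le_max_right _ _)]
  exact max_le ((le_abs_self _).trans (hB b)) ((abs_nonneg _).trans (hB b))

lemma bd_exp {k : Cfg N → ℝ} (hk : Bd k) : Bd fun b => Real.exp (k b) := by
  obtain ⟨hm, B, hB⟩ := hk
  exact Bd.of hm.exp (B := Real.exp B) fun b => by
    rw [Real.abs_exp, Real.exp_le_exp]; exact (le_abs_self _).trans (hB b)

lemma bd_abs {k : Cfg N → ℝ} (hk : Bd k) : Bd fun b => |k b| := by
  obtain ⟨hm, B, hB⟩ := hk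
  exact Bd.of hm.abs (B := B) fun b => by rw [abs_abs]; exact hB b

lemma av_softplus_le (W : Wgt U C) (r : ℝ) (d : Dat a N) {k : Cfg N → ℝ} (hk : Bd k) :
    av U r d (fun b => max (k b) 0) ≤ Real.log (1 + av U r d (fun b => Real.exp (k b))) := by
  set X := 1 + av U r d (fun b => Real.exp (k b))
  have hX : 0 < X := by
    have := av_nonneg W r d (h := fun b => Real.exp (k b)) fun b => (Real.exp_pos _).le
    simp only [X]; linarith
  have b1 : Bd fun b => 1 + Real.exp (k b) := (Bd.const 1).add (bd_exp hk)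
  refine (av_mono W r d (k := fun b => (Real.log X - 1) + X⁻¹ * (1 + Real.exp (k b))) (bd_max hk)
    ((Bd.const _).add ((Bd.const _).mul b1)) fun b => ?_).trans (le_of_eq ?_)
  · refine (Plant.max_zero_le_log _).trans ?_
    have h := Real.log_le_sub_one_of_pos (div_pos (show 0 < 1 + Real.exp (k b) by positivity) hX)
    rw [Real.log_div (by positivity) hX.ne', div_eq_inv_mul] at h
    linarith
  · rw [av_add W r d (Bd.const _) ((Bd.const _).mul b1), av_const W, av_mul,
      av_add W r d (Bd.const 1) (bd_exp hk), av_const W]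
    rw [show X⁻¹ * (1 + av U r d fun b => Real.exp (k b)) = X⁻¹ * X from rfl, inv_mul_cancel₀ hX.ne']
    ring

/-- The finite-difference statistic. -/
noncomputable def fdStat (c : ℝ) (ξ : Fin N → ℝ) (b : Cfg N) : ℝ :=
  N * ovl (ones N) b + c * lin ξ b - N / 2

lemma bd_fd (c : ℝ) (ξ : Fin N → ℝ) : Bd fun b : Cfg N => fdStat c ξ b :=
  Bd.cont (by unfold fdStat; fun_prop)

lemma wt_sh_add (W : Wgt U C) {r r' : ℝ} (hr : 0 ≤ r) (hr' : 0 ≤ r') (hpos : 0 < Real.sqrt r' + Real.sqrt r)
    (d : Dat a N) :
    av U r (sh r d) (fun b => Real.exp ((r' - r) * fdStat (1 / (Real.sqrt r' + Real.sqrt r)) d.2 b))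
      = Real.exp (fe U r' d - fe U r d) := by
  have e : ∀ b, wt U r (sh r d) b * Real.exp ((r' - r) * fdStat (1 / (Real.sqrt r' + Real.sqrt r)) d.2 b)
      = wt U r' (sh r' d) b := fun b => by
    simp only [wt, sh]
    rw [mul_assoc, ← Real.exp_add]
    congr 2
    rw [lin_shv, lin_shv]
    simp only [fdStat]
    have h1 : (r' - r) * (1 / (Real.sqrt r' + Real.sqrt r)) = Real.sqrt r' - Real.sqrt r := by
      rw [mul_one_div, div_eq_iff hpos.ne']
      nlinarith [Real.mul_self_sqrt hr, Real.mul_self_sqrt hr']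
    nlinarith [Real.mul_self_sqrt hr, Real.mul_self_sqrt hr', congrArg (fun x => x * lin d.2 b) h1,
      congrArg (fun x => x * ((N : ℝ) * ovl (ones N) b)) (Real.mul_self_sqrt hr),
      congrArg (fun x => x * ((N : ℝ) * ovl (ones N) b)) (Real.mul_self_sqrt hr')]
  unfold av
  simp_rw [e]
  simp only [fe]
  rw [Real.exp_sub, Real.exp_log (lik_pos W r' _), Real.exp_log (lik_pos W r _)]
  rfl

/-- The Gibbs spread of the finite-difference statistic. -/
lemma spread_le (W : Wgt U C) {r δ : ℝ} (hδ : 0 < δ) (hδr : δ < r) (d : Dat a N) (Dp Dm : ℝ) :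
    δ * av U r (sh r d) (fun b => |fdStat (1 / (Real.sqrt (r + δ) + Real.sqrt r)) d.2 b - Dp / δ|)
      ≤ 2 * Real.log 2 + |fe U (r + δ) d - fe U r d - Dp| + |fe U (r - δ) d - fe U r d - Dm| + max (Dp + Dm) 0
        + δ * (|1 / (Real.sqrt (r + δ) + Real.sqrt r) - 1 / (Real.sqrt (r - δ) + Real.sqrt r)| * zlen d.2) := by
  have hr : 0 < r := hδ.trans hδr
  have hs : 0 < Real.sqrt r := Real.sqrt_pos.2 hr
  set c := 1 / (Real.sqrt (r + δ) + Real.sqrt r)
  set c' := 1 / (Real.sqrt (r - δ) + Real.sqrt r)
  set μ := Dp / δ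
  have bp : Bd fun b : Cfg N => δ * (fdStat c d.2 b - μ) := (Bd.const δ).mul ((bd_fd _ _).sub (Bd.const μ))
  have bm : Bd fun b : Cfg N => δ * (μ - fdStat c' d.2 b) := (Bd.const δ).mul ((Bd.const μ).sub (bd_fd _ _))
  have hp : av U r (sh r d) (fun b => max (δ * (fdStat c d.2 b - μ)) 0)
      ≤ Real.log 2 + |fe U (r + δ) d - fe U r d - Dp| := by
    refine (av_softplus_le W r _ bp).trans ?_
    have e : (fun b => Real.exp (δ * (fdStat c d.2 b - μ)))
        = fun b => Real.exp (-(δ * μ)) * Real.exp ((r + δ - r) * fdStat c d.2 b) := by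
      funext b; rw [← Real.exp_add]; congr 1; ring
    rw [e, av_mul, wt_sh_add W hr.le (by linarith) (by positivity), ← Real.exp_add]
    refine Plant.log_two_add.trans (add_le_add le_rfl ?_)
    rw [show δ * μ = Dp by simp only [μ]; field_simp]
    refine max_le (le_trans (le_of_eq ?_) (le_abs_self _)) (abs_nonneg _)
    ring
  have hm : av U r (sh r d) (fun b => max (δ * (μ - fdStat c' d.2 b)) 0)
      ≤ Real.log 2 + (|fe U (r - δ) d - fe U r d - Dm| + max (Dp + Dm) 0) := by
    refine (av_softplus_le W r _ bm).trans ?_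
    have e : (fun b => Real.exp (δ * (μ - fdStat c' d.2 b)))
        = fun b => Real.exp (δ * μ) * Real.exp ((r - δ - r) * fdStat c' d.2 b) := by
      funext b; rw [← Real.exp_add]; congr 1; ring
    rw [e, av_mul, wt_sh_add W hr.le (by linarith) (by positivity), ← Real.exp_add]
    refine Plant.log_two_add.trans (add_le_add le_rfl ?_)
    rw [show δ * μ = Dp by simp only [μ]; field_simp]
    refine max_le ?_ (by positivity)
    have h1 := le_abs_self (fe U (r - δ) d - fe U r d - Dm)
    have h2 := le_max_left (Dp + Dm) 0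
    linarith
  rw [← av_mul]
  have b1 := bd_max bp
  have b2 := bd_max bm
  refine (av_mono W r _ (k := fun b => max (δ * (fdStat c d.2 b - μ)) 0 + max (δ * (μ - fdStat c' d.2 b)) 0
    + δ * (|c - c'| * zlen d.2)) ((Bd.const δ).mul (bd_abs ((bd_fd _ _).sub (Bd.const μ))))
    ((b1.add b2).add (Bd.const _)) fun b => ?_).trans ?_
  · have h3 : |fdStat c' d.2 b - fdStat c d.2 b| ≤ |c - c'| * zlen d.2 := by
      simp only [fdStat]
      rw [show (N : ℝ) * ovl (ones N) b + c' * lin d.2 b - N / 2 - (N * ovl (ones N) b + c * lin d.2 b - N / 2)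
        = (c' - c) * lin d.2 b by ring, abs_mul, abs_sub_comm]
      exact mul_le_mul_of_nonneg_left (abs_lin_le _ _) (abs_nonneg _)
    have h4 := mul_le_mul_of_nonneg_left h3 hδ.le
    have h5 := mul_nonneg hδ.le (abs_nonneg (fdStat c' d.2 b - fdStat c d.2 b))
    have h6 := mul_le_mul_of_nonneg_left (le_abs_self (fdStat c' d.2 b - fdStat c d.2 b)) hδ.le
    rcases le_total (fdStat c d.2 b) μ with h | h
    · rw [abs_of_nonpos (sub_nonpos.2 h)]
      have := le_max_left (δ * (μ - fdStat c' d.2 b)) 0
      have := le_max_right (δ * (fdStat c d.2 b - μ)) 0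
      linarith
    · rw [abs_of_nonneg (sub_nonneg.2 h)]
      have := le_max_left (δ * (fdStat c d.2 b - μ)) 0
      have := le_max_right (δ * (μ - fdStat c' d.2 b)) 0
      linarith
  · rw [av_add W r _ (b1.add b2) (Bd.const _), av_add W r _ b1 b2, av_const W]
    linarith

lemma integral_zlen_le : ∫ ξ, zlen ξ ∂gaussVec (Fin N) ≤ N := by
  simp only [zlen]
  rw [integral_const_mul]
  exact (mul_le_mul_of_nonneg_left integral_sqrt_sq2_le.2 (Real.sqrt_nonneg _)).trans
    (le_of_eq (Real.mul_self_sqrt (Nat.cast_nonneg N)))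

/-- The covariance step. -/
lemma vr_le_spread (W : Wgt U C) {r : ℝ} (hr : 0 ≤ r) (hN : 0 < N) {c : ℝ} (hc : 0 ≤ c)
    (hcr : c * Real.sqrt r ≤ 1 / 2) (μ : ℝ) :
    N * vr U a N r / 2 ≤ 2 * ∫ d, patW U d.1 (ones N)
      * av U r (sh r d) (fun b => |fdStat c d.2 b - μ|) ∂nullM a N := by
  set q := qv U a N r with hqdef
  have hq : q ∈ Icc (0 : ℝ) 1 := ⟨qv_nonneg W hN r, qv_le_one W hN hr⟩
  set R : Cfg N → ℝ := fun b => ovl (ones N) b
  have bR : Bd R := Bd.cont (by simp only [R]; fun_prop)
  have bR2 : Bd fun b => R b * R b := bR.mul bR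
  have hRb : ∀ b, |R b| ≤ 1 := fun b => abs_ovl_le _ b
  have hRq : ∀ b, |R b - q| ≤ 2 := fun b => by
    refine (abs_sub _ _).trans ?_; rw [abs_of_nonneg hq.1]; linarith [hRb b, hq.2]
  set A : Dat a N → Cfg N → ℝ := fun d b => av U r d (fun b' => ovl b b')
  have g2A : Gd2 A := gd2_ovl W r continuous_id
  have g2R : Gd2 fun (_ : Dat a N) b => R b := Gd2.of_bdd (bR.1.comp measurable_snd) fun _ b => hRb b
  -- three planted averages
  have ip : ∀ {F : Dat a N → ℝ}, Gd F → Integrable (fun d => wt U r d (ones N) * F d) (nullM a N) :=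
    fun hF => ((gd_wt W r _).mul hF).integrable
  set X := ∫ d, wt U r d (ones N) * av U r d (fun b => R b * A d b) ∂nullM a N
  set m₂ := ∫ d, wt U r d (ones N) * av U r d (fun b => R b * R b) ∂nullM a N
  have gR : Gd fun d : Dat a N => av U r d R := gd_av_const W r bR
  have gR2 : Gd fun d : Dat a N => av U r d (fun b => R b * R b) := gd_av_const W r bR2
  have gX : Gd fun d : Dat a N => av U r d (fun b => R b * A d b) := (g2R.mul g2A).av W r
  have gA : Gd fun d : Dat a N => av U r d (A d) := g2A.av W r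
  have hR1 : ∫ d, wt U r d (ones N) * av U r d R ∂nullM a N = q := planted_qv W r
  have hA1 : ∫ d, wt U r d (ones N) * av U r d (A d) ∂nullM a N = q := planted_qv' W r
  have h1 : ∫ d, wt U r d (ones N) ∂nullM a N = 1 := integral_wt W hr hN
  have hvr : vr U a N r = m₂ - q ^ 2 := by
    rw [← planted_vr W]
    have e : ∀ d : Dat a N, wt U r d (ones N) * av U r d (fun b => (ovl (ones N) b - qv U a N r) ^ 2)
        = wt U r d (ones N) * av U r d (fun b => R b * R b) - 2 * q * (wt U r d (ones N) * av U r d R)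
          + q ^ 2 * wt U r d (ones N) := fun d => by
      have : (fun b => (ovl (ones N) b - qv U a N r) ^ 2) = fun b => (R b * R b - 2 * q * R b) + q ^ 2 := by
        funext b; simp only [R, ← hqdef]; ring
      rw [this, av_add W r d (bR2.sub ((Bd.const _).mul bR)) (Bd.const _),
        av_sub W r d bR2 ((Bd.const _).mul bR), av_mul, av_const W]
      ring
    simp_rw [e]
    rw [integral_add ?_ ((gd_wt W r _).integrable.const_mul _), integral_sub (ip gR2) ((ip gR).const_mul _),
      integral_const_mul, integral_const_mul, hR1, h1]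
    · ring
    · exact (ip gR2).sub ((ip gR).const_mul _)
  -- the cross term
  have hX : X - q ^ 2 ≤ vr U a N r := by
    set Q2 : Dat a N → ℝ := fun d => av U r d (fun b => av U r d (fun b' => (ovl b b' - q) ^ 2))
    have gQ2 : Gd Q2 := (gd2_ovl W r (k := fun x => (x - q) ^ 2) (by fun_prop)).av W r
    have hQ2 : ∫ d, wt U r d (ones N) * Q2 d ∂nullM a N = vr U a N r :=
      planted_eq' W r gQ2 fun s d => av_act_ovl W r s d (k := fun x => (x - q) ^ 2) (by fun_prop)
    have bV : Bd fun b => (R b - q) ^ 2 := Bd.cont (by simp only [R]; fun_prop)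
    have gV : Gd fun d : Dat a N => av U r d (fun b => (R b - q) ^ 2) := gd_av_const W r bV
    have hpt : ∀ d : Dat a N, av U r d (fun b => R b * A d b) - q * av U r d R - q * av U r d (A d) + q ^ 2
        ≤ (av U r d (fun b => (R b - q) ^ 2) + Q2 d) / 2 := fun d => by
      have bA : Bd (A d) := g2A.slice d
      have bQ : Bd fun b => av U r d (fun b' => (ovl b b' - q) ^ 2) :=
        bd_av_ovl W r d (k := fun x => (x - q) ^ 2) (by fun_prop)
      have e : av U r d (fun b => R b * A d b) - q * av U r d R - q * av U r d (A d) + q ^ 2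
          = av U r d (fun b => ((R b * A d b - q * R b) - q * A d b) + q ^ 2) := by
        rw [av_add W r d (((bR.mul bA).sub ((Bd.const _).mul bR)).sub ((Bd.const _).mul bA)) (Bd.const _),
          av_sub W r d ((bR.mul bA).sub ((Bd.const _).mul bR)) ((Bd.const _).mul bA),
          av_sub W r d (bR.mul bA) ((Bd.const _).mul bR), av_mul, av_mul, av_const W]
      rw [e, ← av_add W r d bV bQ, show ∀ x : ℝ, x / 2 = 1 / 2 * x from fun x => by ring, ← av_mul]
      refine av_mono W r d ((((bR.mul bA).sub ((Bd.const _).mul bR)).sub ((Bd.const _).mul bA)).add (Bd.const _))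
        ((Bd.const _).mul (bV.add bQ)) fun b => ?_
      have hj : (A d b - q) ^ 2 ≤ av U r d (fun b' => (ovl b b' - q) ^ 2) := by
        have bo : Bd fun b' => ovl b b' := Bd.cont (by fun_prop)
        have h := av_sq_le W r d (h := fun b' => ovl b b' - q) (bo.sub (Bd.const _))
        rw [av_sub W r d bo (Bd.const _), av_const W] at h
        simpa [sq] using h
      nlinarith [sq_nonneg ((R b - q) - (A d b - q))]
    have iL : Integrable (fun d => wt U r d (ones N) * av U r d (fun b => R b * A d b)
        - q * (wt U r d (ones N) * av U r d R) - q * (wt U r d (ones N) * av U r d (A d))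
        + q ^ 2 * wt U r d (ones N)) (nullM a N) :=
      (((ip gX).sub ((ip gR).const_mul _)).sub ((ip gA).const_mul _)).add ((gd_wt W r _).integrable.const_mul _)
    have := integral_mono iL (((ip gV).add (ip gQ2)).div_const 2) fun d => by
      have := mul_le_mul_of_nonneg_left (hpt d) (wt_pos W r d (ones N)).le
      simp only [Pi.add_apply]
      linarith
    have j1 : Integrable (fun d => wt U r d (ones N) * av U r d (fun b => R b * A d b)
        - q * (wt U r d (ones N) * av U r d R)) (nullM a N) := (ip gX).sub ((ip gR).const_mul _)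
    have j2 : Integrable (fun d => wt U r d (ones N) * av U r d (fun b => R b * A d b)
        - q * (wt U r d (ones N) * av U r d R) - q * (wt U r d (ones N) * av U r d (A d))) (nullM a N) :=
      j1.sub ((ip gA).const_mul _)
    simp only [Pi.add_apply] at this
    rw [integral_add j2 ((gd_wt W r _).integrable.const_mul _), integral_sub j1 ((ip gA).const_mul _),
      integral_sub (ip gX) ((ip gR).const_mul _), integral_const_mul, integral_const_mul, integral_const_mul,
      hR1, hA1, h1, integral_div, integral_add (ip gV) (ip gQ2), hQ2] at this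
    have hV : ∫ d, wt U r d (ones N) * av U r d (fun b => (R b - q) ^ 2) ∂nullM a N = vr U a N r :=
      planted_vr W r
    rw [hV] at this
    linarith
  -- planted coordinates
  have gsh : ∀ {k : Cfg N → ℝ}, Bd k → Gd fun d : Dat a N => av U r (sh r d) k :=
    fun hk => gd_av_sh_const W r hk
  have gl : ∀ {k : Cfg N → ℝ}, Bd k → Gd fun d : Dat a N => av U r (sh r d) (fun b => lin d.2 b * k b) :=
    fun hk => (gd2_lin_mul hk).av_sh W r
  have hP1 := integral_patW' (a := a) W hN
  have hsR := planted_shift W hr gR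
  have hsR2 := planted_shift W hr gR2
  rw [hR1] at hsR
  have iR := ((gd_patW W).mul (gsh bR)).integrable
  have iR2 := ((gd_patW W).mul (gsh bR2)).integrable
  have il1 := ((gd_patW W).mul (gl (Bd.const 1))).integrable
  have ilR := ((gd_patW W).mul (gl bR)).integrable
  have iP := (gd_patW (a := a) (N := N) W).integrable
  have hcov : ∫ d, patW U d.1 (ones N) * av U r (sh r d) (fun b => (fdStat c d.2 b - μ) * (R b - q)) ∂nullM a N
      = N * vr U a N r - c * Real.sqrt r * N * (X - q ^ 2) := by
    have e : ∀ d : Dat a N, patW U d.1 (ones N) * av U r (sh r d) (fun b => (fdStat c d.2 b - μ) * (R b - q))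
        = N * (patW U d.1 (ones N) * av U r (sh r d) (fun b => R b * R b))
          + (-(N * q) - (N / 2 + μ)) * (patW U d.1 (ones N) * av U r (sh r d) R)
          + c * (patW U d.1 (ones N) * av U r (sh r d) (fun b => lin d.2 b * R b))
          + -(c * q) * (patW U d.1 (ones N) * av U r (sh r d) (fun b => lin d.2 b * 1))
          + (N / 2 + μ) * q * patW U d.1 (ones N) := fun d => by
      have : (fun b => (fdStat c d.2 b - μ) * (R b - q)) = fun b => ((((N : ℝ) * (R b * R b)
          + (-(N * q) - (N / 2 + μ)) * R b) + c * (lin d.2 b * R b)) + -(c * q) * (lin d.2 b * 1))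
          + (N / 2 + μ) * q := by
        funext b; simp only [fdStat, R]; ring
      have c1 : Bd fun b => (N : ℝ) * (R b * R b) := (Bd.const _).mul bR2
      have c2 : Bd fun b => (-(N * q) - (N / 2 + μ)) * R b := (Bd.const _).mul bR
      have c3 : Bd fun b => c * (lin d.2 b * R b) := Bd.cont (by simp only [R]; fun_prop)
      have c4 : Bd fun b : Cfg N => -(c * q) * (lin d.2 b * (1 : ℝ)) := Bd.cont (by fun_prop)
      rw [this, av_add W r _ (((c1.add c2).add c3).add c4) (Bd.const _), av_add W r _ ((c1.add c2).add c3) c4,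
        av_add W r _ (c1.add c2) c3, av_add W r _ c1 c2, av_mul, av_mul, av_mul, av_mul, av_const W]
      ring
    simp_rw [e]
    rw [integral_add, integral_add, integral_add, integral_add (iR2.const_mul _) (iR.const_mul _),
      integral_const_mul, integral_const_mul, integral_const_mul, integral_const_mul, integral_const_mul,
      ibp W hr hN bR, ibp W hr hN (Bd.const 1), ← hsR2, ← hsR, hR1, hP1, hvr]
    · simp only [one_mul, av_const W, mul_one, h1]
      rw [show (∫ d, wt U r d (ones N) * av U r d (fun b => av U r d fun b' => ovl b b') ∂nullM a N) = q from hA1]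
      ring
    · exact (iR2.const_mul _).add (iR.const_mul _)
    · exact ilR.const_mul _
    · exact ((iR2.const_mul _).add (iR.const_mul _)).add (ilR.const_mul _)
    · exact il1.const_mul _
    · exact (((iR2.const_mul _).add (iR.const_mul _)).add (ilR.const_mul _)).add (il1.const_mul _)
    · exact iP.const_mul _
  have hvr0 : 0 ≤ vr U a N r := integral_nonneg fun d => mul_nonneg (lik_pos W r d).le
    (av_nonneg W r d fun b => av_nonneg W r d fun b' => sq_nonneg _)
  have hlow : (N : ℝ) * vr U a N r / 2 ≤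
      ∫ d, patW U d.1 (ones N) * av U r (sh r d) (fun b => (fdStat c d.2 b - μ) * (R b - q)) ∂nullM a N := by
    rw [hcov]
    have h4 := mul_le_mul_of_nonneg_left hX (show 0 ≤ c * Real.sqrt r * N by positivity)
    have h5 := mul_le_mul_of_nonneg_right (mul_le_mul_of_nonneg_right hcr (Nat.cast_nonneg (α := ℝ) N)) hvr0
    linarith
  refine hlow.trans ?_
  have g2fd : Gd2 fun (d : Dat a N) b => fdStat c d.2 b - μ := by
    refine Gd2.of_dom (by unfold fdStat; fun_prop) ((Gd.const (a := a) (N := N) (2 * N + |μ|)).add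
      ((Gd.const c).mul Gd.zlen_snd)) fun d b => ?_
    have h2 := abs_ovl_mul_le b
    have h3 := mul_le_mul_of_nonneg_left (abs_lin_le d.2 b) hc
    rw [← abs_of_nonneg hc, ← abs_mul, abs_of_nonneg hc] at h3
    have h4 := abs_sub ((N : ℝ) * ovl (ones N) b + c * lin d.2 b - N / 2) μ
    have h5 := abs_sub ((N : ℝ) * ovl (ones N) b + c * lin d.2 b) (N / 2)
    have h6 := abs_add_le ((N : ℝ) * ovl (ones N) b) (c * lin d.2 b)
    rw [abs_of_nonneg (by positivity : (0 : ℝ) ≤ N / 2)] at h5
    simp only [fdStat]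
    linarith
  have g2abs : Gd2 fun (d : Dat a N) b => |fdStat c d.2 b - μ| := by
    obtain ⟨hm, K, c₀, hK, hc₀, hb⟩ := g2fd
    exact ⟨hm.abs, K, c₀, hK, hc₀, fun d b => by rw [abs_abs]; exact hb d b⟩
  have g2Rq : Gd2 fun (_ : Dat a N) b => R b - q :=
    Gd2.of_bdd ((bR.1.sub_const q).comp measurable_snd) fun _ b => hRq b
  rw [← integral_const_mul]
  refine integral_mono ((gd_patW W).mul ((g2fd.mul g2Rq).av_sh W r)).integrable
    (((gd_patW W).mul (g2abs.av_sh W r)).integrable.const_mul _) fun d => ?_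
  dsimp only
  rw [mul_left_comm (2 : ℝ), ← av_mul r (sh r d) (2 : ℝ)]
  refine mul_le_mul_of_nonneg_left (av_mono W r _ (((bd_fd _ _).sub (Bd.const μ)).mul (bR.sub (Bd.const q)))
    ((Bd.const 2).mul (bd_abs ((bd_fd _ _).sub (Bd.const μ)))) fun b => (le_abs_self _).trans ?_) (patW_pos W _ _).le
  rw [abs_mul, mul_comm (2 : ℝ)]
  exact mul_le_mul_of_nonneg_left (hRq b) (abs_nonneg _)

/-- The averaged concentration bound. -/
theorem vr_bound (W : Wgt U C) {r δ : ℝ} (hδ : 0 < δ) (hδr : δ < r) (hN : 0 < N) :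
    N * δ * vr U a N r ≤ 8 * Real.log 2
      + 4 * (24 * Real.sqrt (N * (r + δ)) + 8 * Real.sqrt (a * Real.log C ^ 2))
      + 2 * N * δ * (qv U a N (r + δ) - qv U a N (r - δ))
      + 4 * δ * N * |1 / (Real.sqrt (r + δ) + Real.sqrt r) - 1 / (Real.sqrt (r - δ) + Real.sqrt r)| := by
  have hr : 0 < r := hδ.trans hδr
  set c := 1 / (Real.sqrt (r + δ) + Real.sqrt r)
  set Dp := Jt U a N (r + δ) - Jt U a N r
  set Dm := Jt U a N (r - δ) - Jt U a N r
  set κ := |c - 1 / (Real.sqrt (r - δ) + Real.sqrt r)|
  have hc : 0 ≤ c := by positivity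
  have hcr : c * Real.sqrt r ≤ 1 / 2 := by
    have h1 : Real.sqrt r ≤ Real.sqrt (r + δ) := Real.sqrt_le_sqrt (by linarith)
    have h2 : 0 < Real.sqrt r := Real.sqrt_pos.2 hr
    simp only [c]
    rw [div_mul_eq_mul_div, one_mul, div_le_iff₀ (by positivity)]
    linarith
  have h := mul_le_mul_of_nonneg_left (vr_le_spread (a := a) W hr.le hN hc hcr (Dp / δ)) hδ.le
  have hD : max (Dp + Dm) 0 ≤ N * δ / 2 * (qv U a N (r + δ) - qv U a N (r - δ)) := by
    have h1 := (Jt_slope (a := a) W hN hr.le (show r ≤ r + δ by linarith)).2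
    have h2 := (Jt_slope (a := a) W hN (show 0 ≤ r - δ by linarith) (show r - δ ≤ r by linarith)).1
    have h3 := qv_mono (a := a) W hN (show 0 ≤ r - δ by linarith) (show r - δ ≤ r + δ by linarith)
    refine max_le ?_ (mul_nonneg (by positivity) (sub_nonneg.2 h3))
    simp only [Dp, Dm]
    linarith
  have gdev : ∀ s, Gd fun d : Dat a N => |fe U s d - Jt U a N s| := fun s =>
    ((gd_fe (a := a) (N := N) W s).sub (Gd.const (Jt U a N s))).abs
  set B0 := 2 * Real.log 2 + max (Dp + Dm) 0
  have hkey : δ * ∫ d, patW U d.1 (ones N) * av U r (sh r d) (fun b => |fdStat c d.2 b - Dp / δ|) ∂nullM a N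
      ≤ ∫ d, (B0 * patW U d.1 (ones N) + patW U d.1 (ones N) * |fe U (r + δ) d - Jt U a N (r + δ)|
          + patW U d.1 (ones N) * |fe U (r - δ) d - Jt U a N (r - δ)|
          + 2 * (patW U d.1 (ones N) * |fe U r d - Jt U a N r|)
          + δ * κ * (patW U d.1 (ones N) * zlen d.2)) ∂nullM a N := by
    rw [← integral_const_mul]
    refine integral_mono_of_nonneg (ae_of_all _ fun d => ?_) ?_ (ae_of_all _ fun d => ?_)
    · exact mul_nonneg hδ.le (mul_nonneg (patW_pos W _ _).le (av_nonneg W r _ fun b => abs_nonneg _))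
    · exact (((((gd_patW W).integrable.const_mul _).fun_add ((gd_patW W).mul (gdev _)).integrable).fun_add
        ((gd_patW W).mul (gdev _)).integrable).fun_add (((gd_patW W).mul (gdev _)).integrable.const_mul _)).fun_add
        (((gd_patW W).mul Gd.zlen_snd).integrable.const_mul _)
    · dsimp only
      have hs := spread_le W hδ hδr d Dp Dm
      have t1 : |fe U (r + δ) d - fe U r d - Dp| ≤ |fe U (r + δ) d - Jt U a N (r + δ)| + |fe U r d - Jt U a N r| := by
        rw [show fe U (r + δ) d - fe U r d - Dp = (fe U (r + δ) d - Jt U a N (r + δ)) - (fe U r d - Jt U a N r) by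
          simp only [Dp]; ring]
        exact abs_sub _ _
      have t2 : |fe U (r - δ) d - fe U r d - Dm| ≤ |fe U (r - δ) d - Jt U a N (r - δ)| + |fe U r d - Jt U a N r| := by
        rw [show fe U (r - δ) d - fe U r d - Dm = (fe U (r - δ) d - Jt U a N (r - δ)) - (fe U r d - Jt U a N r) by
          simp only [Dm]; ring]
        exact abs_sub _ _
      rw [mul_left_comm]
      have t3 := hs.trans (show _ ≤ B0 + |fe U (r + δ) d - Jt U a N (r + δ)| + |fe U (r - δ) d - Jt U a N (r - δ)|
            + 2 * |fe U r d - Jt U a N r| + δ * (κ * zlen d.2) by simp only [B0, κ, c]; linarith)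
      refine (mul_le_mul_of_nonneg_left t3 (patW_pos W d.1 (ones N)).le).trans (le_of_eq ?_)
      ring
  have i0 := (gd_patW (a := a) (N := N) W).integrable.const_mul B0
  have i1 := ((gd_patW W).mul (gdev (r + δ))).integrable
  have i2 := ((gd_patW W).mul (gdev (r - δ))).integrable
  have i3 := (((gd_patW W).mul (gdev r)).integrable).const_mul 2
  have i4 := (((gd_patW (a := a) (N := N) W).mul Gd.zlen_snd).integrable).const_mul (δ * κ)
  rw [integral_add (((i0.fun_add i1).fun_add i2).fun_add i3) i4, integral_add ((i0.fun_add i1).fun_add i2) i3,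
    integral_add (i0.fun_add i1) i2, integral_add i0 i1, integral_const_mul, integral_const_mul, integral_const_mul]
    at hkey
  have hP1 := integral_patW' (a := a) W hN
  have hS : ∫ d : Dat a N, patW U d.1 (ones N) * zlen d.2 ∂nullM a N ≤ N := by
    rw [nullM, integral_prod_mul (fun g => patW U g (ones N)) zlen, integral_patW W _ hN, one_mul]
    exact integral_zlen_le
  have hmono : ∀ {s}, s ≤ r + δ → 6 * Real.sqrt (N * s) ≤ 6 * Real.sqrt (N * (r + δ)) := fun hs =>
    mul_le_mul_of_nonneg_left (Real.sqrt_le_sqrt (mul_le_mul_of_nonneg_left hs (Nat.cast_nonneg N))) (by norm_num)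
  have f1 := fe_dev (a := a) W (show 0 ≤ r + δ by linarith) hN
  have f2 := (fe_dev (a := a) W (show 0 ≤ r - δ by linarith) hN).trans (add_le_add (hmono (show r - δ ≤ r + δ by linarith)) le_rfl)
  have f3 := (fe_dev (a := a) W hr.le hN).trans (add_le_add (hmono (show r ≤ r + δ by linarith)) le_rfl)
  rw [hP1, mul_one] at hkey
  have h6 := mul_le_mul_of_nonneg_left hS (show 0 ≤ δ * κ from mul_nonneg hδ.le (abs_nonneg _))
  simp only [B0] at hkey
  linarith

end Vale.Agent.P157.Sph
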