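import Vale.Agent.P157.SpherePlant.Transfer
import Mathlib.Analysis.SpecialFunctions.Gaussian.GaussianIntegral

/-!
The sphere without patterns: the entropy of the vector channel is that of the Gaussian channel to
first order.
-/

open MeasureTheory ProbabilityTheory Filter Topology Set
open Vale.Agent.P157.Plant (Wgt ent)
open scoped BigOperators

namespace Vale.Agent.P157.Sph

variable {N : ℕ} {U : ℝ → ℝ} {C : ℝ}

/-- The entropy of the Gaussian channel, per coordinate. -/
noncomputable def sphInfo (r : ℝ) : ℝ := (r - Real.log (1 + r)) / 2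

/-- The likelihood ratio of the Gaussian channel. -/
noncomputable def gaussLik (s : ℝ) (z : Fin N → ℝ) : ℝ :=
  Real.exp (s / (2 * (1 + s)) * sq2 z - N / 2 * Real.log (1 + s))

lemma gauss_exp_quad {A : ℝ} (hA : 0 < A) (B : ℝ) :
    ∫ x, Real.exp ((1 - A) / 2 * x ^ 2 + B * x) ∂gaussianReal 0 1
      = Real.exp (B ^ 2 / (2 * A)) / Real.sqrt A := by
  rw [integral_gaussianReal_eq_integral_smul one_ne_zero]
  simp only [gaussianPDFReal, NNReal.coe_one, sub_zero, mul_one, smul_eq_mul]
  have e : ∀ x : ℝ, (Real.sqrt (2 * Real.pi))⁻¹ * Real.exp (-x ^ 2 / 2) * Real.exp ((1 - A) / 2 * x ^ 2 + B * x)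
      = (Real.sqrt (2 * Real.pi))⁻¹ * Real.exp (B ^ 2 / (2 * A)) * Real.exp (-(A / 2) * (x - B / A) ^ 2) := fun x => by
    rw [mul_assoc, mul_assoc, ← Real.exp_add, ← Real.exp_add]
    congr 2
    field_simp
    ring
  simp only [e]
  rw [integral_const_mul, integral_sub_right_eq_self (fun x : ℝ => Real.exp (-(A / 2) * x ^ 2)), integral_gaussian,
    show Real.pi / (A / 2) = 2 * Real.pi / A by field_simp, Real.sqrt_div (by positivity)]
  have : 0 < Real.sqrt (2 * Real.pi) := by positivity
  field_simp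

lemma prod_exp_half_log {s : ℝ} (hs : 0 ≤ s) (v : ℝ) :
    Real.exp v / Real.sqrt (1 + s) ^ N = Real.exp (v - N / 2 * Real.log (1 + s)) := by
  have h1 : 0 < 1 + s := by linarith
  rw [Real.exp_sub, Real.sqrt_eq_rpow, ← Real.rpow_natCast, ← Real.rpow_mul h1.le, Real.rpow_def_of_pos h1]
  congr 2
  ring

lemma gaussLik_eq {s : ℝ} (hs : 0 ≤ s) (z : Fin N → ℝ) :
    ∫ g, Real.exp (Real.sqrt s * dot g z - s / 2 * sq2 g) ∂gaussVec (Fin N) = gaussLik s z := by
  have h1 : 0 < 1 + s := by linarith
  have e : ∀ g : Fin N → ℝ, Real.exp (Real.sqrt s * dot g z - s / 2 * sq2 g)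
      = ∏ i, Real.exp ((1 - (1 + s)) / 2 * g i ^ 2 + Real.sqrt s * z i * g i) := fun g => by
    rw [← Real.exp_sum]
    congr 1
    simp only [dot, sq2, Finset.mul_sum, ← Finset.sum_sub_distrib]
    exact Finset.sum_congr rfl fun i _ => by ring
  simp only [e]
  rw [gaussVec, integral_fintype_prod_eq_prod (f := fun i (x : ℝ) =>
    Real.exp ((1 - (1 + s)) / 2 * x ^ 2 + Real.sqrt s * z i * x))]
  simp only [gauss_exp_quad h1]
  rw [Finset.prod_div_distrib, Finset.prod_const, Finset.card_univ, Fintype.card_fin, ← Real.exp_sum,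
    prod_exp_half_log hs, gaussLik]
  congr 2
  simp only [sq2, Finset.mul_sum, mul_pow, Real.sq_sqrt hs]
  exact Finset.sum_congr rfl fun i _ => by ring

lemma integrable_gauss_kernel {s : ℝ} (hs : 0 ≤ s) (z : Fin N → ℝ) :
    Integrable (fun g => Real.exp (Real.sqrt s * dot g z - s / 2 * sq2 g)) (gaussVec (Fin N)) :=
  Integrable.of_integral_ne_zero (by rw [gaussLik_eq hs z]; exact (Real.exp_pos _).ne')

lemma integral_gaussLik {s : ℝ} (hs : 0 ≤ s) : ∫ z, gaussLik s z ∂gaussVec (Fin N) = 1 := by
  have h1 : 0 < 1 + s := by linarith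
  have e : ∀ z : Fin N → ℝ, gaussLik s z
      = Real.exp (-(N / 2 * Real.log (1 + s))) * ∏ i, Real.exp ((1 - (1 + s)⁻¹) / 2 * z i ^ 2 + 0 * z i) := fun z => by
    rw [← Real.exp_sum, ← Real.exp_add, gaussLik]
    congr 1
    simp only [sq2, zero_mul, add_zero, ← Finset.mul_sum]
    field_simp
    ring
  simp only [e]
  rw [integral_const_mul, gaussVec, integral_fintype_prod_eq_prod (f := fun _ (x : ℝ) =>
    Real.exp ((1 - (1 + s)⁻¹) / 2 * x ^ 2 + 0 * x))]
  simp only [gauss_exp_quad (inv_pos.2 h1)]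
  rw [Finset.prod_const, Finset.card_univ, Fintype.card_fin, Real.sqrt_inv]
  simp only [ne_eq, OfNat.ofNat_ne_zero, not_false_eq_true, zero_pow, zero_div, Real.exp_zero, one_div, inv_inv]
  rw [Real.sqrt_eq_rpow, ← Real.rpow_natCast, ← Real.rpow_mul h1.le, Real.rpow_def_of_pos h1, ← Real.exp_add]
  convert! Real.exp_zero using 2
  ring

lemma measurable_negv : Measurable fun g : Fin N → ℝ => fun i => -g i :=
  measurable_pi_lambda _ fun i => (measurable_pi_apply i).neg

lemma measurable_dotCfg (z : Fin N → ℝ) : Measurable fun g : Fin N → ℝ => dot (toCfg g).1 z :=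
  Finset.measurable_sum _ fun i _ => ((measurable_sp i).comp measurable_toCfg).mul_const _

lemma map_neg_gauss : (gaussVec (Fin N)).map (fun g i => -g i) = gaussVec (Fin N) := by
  have hs : (gaussianReal 0 1).map (fun z : ℝ => -z) = gaussianReal 0 1 := by
    simpa using gaussianReal_map_neg (μ := 0) (v := 1)
  have := Measure.pi_map_pi (μ := fun _ : Fin N => gaussianReal 0 1)
    (f := fun _ (z : ℝ) => -z) (fun _ => by fun_prop)
  simpa [hs, gaussVec] using this

lemma integral_neg_gauss {F : (Fin N → ℝ) → ℝ} (hF : Measurable F) :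
    ∫ g, F (fun i => -g i) ∂gaussVec (Fin N) = ∫ g, F g ∂gaussVec (Fin N) := by
  conv_rhs => rw [← map_neg_gauss]
  rw [integral_map measurable_negv.aemeasurable hF.aestronglyMeasurable]

lemma sq2_neg (g : Fin N → ℝ) : sq2 (fun i => -g i) = sq2 g := by simp [sq2]

lemma dot_neg (g z : Fin N → ℝ) : dot (fun i => -g i) z = -dot g z := by simp [dot]

/-- The radii that carry most of the Gaussian mass. -/
noncomputable def shell (N : ℕ) (δ : ℝ) : ℝ → ℝ := {t : ℝ | |t / N - 1| ≤ δ}.indicator 1

lemma shell_mass {δ : ℝ} (hδ : 0 < δ) (hN0 : 0 < N) (hN : ((kappa + 1) / δ) ^ 2 ≤ N) :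
    1 / 2 ≤ ∫ g, shell N δ (sq2 g) ∂gaussVec (Fin N) := by
  have hn : (0 : ℝ) < Real.sqrt N := Real.sqrt_pos.2 (by exact_mod_cast hN0)
  have hm : Measurable fun g : Fin N → ℝ => shell N δ (sq2 g) :=
    ((measurable_const (a := (1 : ℝ))).indicator (measurableSet_le (by fun_prop) measurable_const)).comp measurable_sq2
  have hi : Integrable (fun g : Fin N → ℝ => shell N δ (sq2 g)) (gaussVec (Fin N)) :=
    Integrable.of_bound hm.aestronglyMeasurable 1 (ae_of_all _ fun g => by
      simp only [shell, Real.norm_eq_abs, Set.indicator_apply]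
      split_ifs <;> simp)
  have hs2 : Integrable (fun g : Fin N → ℝ => |sq2 g / N - 1|) (gaussVec (Fin N)) := by
    refine (((?_ : Integrable (fun z : Fin N → ℝ => sq2 z) (gaussVec (Fin N))).div_const _).sub (integrable_const 1)).abs
    exact integrable_finsetSum _ fun i _ =>
      (measurePreserving_eval (fun _ : Fin N => gaussianReal 0 1) i).integrable_comp_of_integrable
        (g := fun x : ℝ => x ^ 2) (integrable_pow_gauss 2)
  have h1 := integral_abs_sq2_sub (ι := Fin N) N hN0 (by simp)
  simp only [Fintype.card_fin] at h1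
  have h2 := integral_mono ((integrable_const (1 : ℝ)).sub (hs2.div_const δ)) hi fun g => by
    simp only [shell, Pi.sub_apply, Set.indicator_apply, Set.mem_setOf_eq]
    split_ifs with h
    · have : 0 ≤ |sq2 g / N - 1| / δ := by positivity
      simp only [Pi.one_apply]
      linarith
    · rw [sub_nonpos, le_div_iff₀ hδ]
      linarith [not_le.1 h]
  simp only [Pi.sub_apply] at h2
  rw [integral_sub (integrable_const _) (hs2.div_const δ), integral_div, integral_const, probReal_univ, one_smul] at h2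
  have h3 : (kappa + 1) / (2 * Real.sqrt N) / δ ≤ 1 / 2 := by
    have hk : 0 ≤ (kappa + 1) / δ := by
      have : 0 ≤ kappa := variance_nonneg _ _
      positivity
    have h4 : (kappa + 1) / δ ≤ Real.sqrt N := by
      rw [← Real.sqrt_sq hk]; exact Real.sqrt_le_sqrt hN
    rw [show (kappa + 1) / (2 * Real.sqrt N) / δ = (kappa + 1) / δ / (2 * Real.sqrt N) by ring,
      div_le_iff₀ (by positivity)]
    linarith
  have h5 := div_le_div_of_nonneg_right h1 hδ.le
  linarith

/-- The spherical channel is dominated by a Gaussian channel of slightly larger strength. -/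
lemma channel_le {δ r : ℝ} (hδ : 0 < δ) (hδ1 : δ ≤ 1 / 2) (hr : 0 ≤ r) (hN0 : 0 < N)
    (hN : ((kappa + 1) / δ) ^ 2 ≤ N) (z : Fin N → ℝ) :
    ∫ b, Real.exp (Real.sqrt r * lin z b - r * N / 2) ∂prior N
      ≤ 2 * Real.exp (2 * δ * r * N) * gaussLik (r * (1 + 2 * δ)) z := by
  set γ := gaussVec (Fin N)
  set s := r * (1 + 2 * δ) with hsdef
  have hs : 0 ≤ s := by positivity
  have hn : (0 : ℝ) < N := by exact_mod_cast hN0
  set Y : (Fin N → ℝ) → ℝ := fun x => dot x z
  set F : (Fin N → ℝ) → ℝ := fun g => Real.cosh (Real.sqrt r * dot (toCfg g).1 z)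
  have hproj : ∀ g : Fin N → ℝ, |dot (toCfg g).1 z| ≤ zlen z := fun g => by
    rw [dot_comm]; exact abs_lin_le z (toCfg g)
  have hcosh : ∀ x : ℝ, Real.cosh x ≤ Real.exp |x| := fun x => by
    rw [Real.cosh_eq]; linarith [Real.exp_le_exp.2 (le_abs_self x), Real.exp_le_exp.2 (neg_le_abs x)]
  have hFm : Measurable fun x : Fin N → ℝ => Real.cosh (Real.sqrt r * dot x z) := by unfold dot; fun_prop
  have hEm : Measurable fun g : Fin N → ℝ => Real.exp (Real.sqrt r * dot (toCfg g).1 z) :=
    ((measurable_dotCfg z).const_mul _).exp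
  have hEi : Integrable (fun g : Fin N → ℝ => Real.exp (Real.sqrt r * dot (toCfg g).1 z)) γ :=
    Integrable.of_bound hEm.aestronglyMeasurable (Real.exp (Real.sqrt r * zlen z)) (ae_of_all _ fun g => by
      rw [Real.norm_eq_abs, Real.abs_exp, Real.exp_le_exp]
      exact mul_le_mul_of_nonneg_left ((le_abs_self _).trans (hproj g)) (Real.sqrt_nonneg r))
  -- the spherical side, symmetrised
  have hnegE : ∀ᵐ g ∂γ, Real.exp (Real.sqrt r * dot (toCfg fun i => -g i).1 z)
      = Real.exp (-(Real.sqrt r * dot (toCfg g).1 z)) := by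
    filter_upwards [ae_sq2_ne hN0] with g hg
    congr 1
    rw [show (toCfg fun i => -g i).1 = fun i => -(toCfg g).1 i by
      funext i; simp [toCfg, sq2_neg, hg, proj, neg_div], dot_neg]
    ring
  have hsym : ∫ b, Real.exp (Real.sqrt r * lin z b) ∂prior N = ∫ g, F g ∂γ := by
    rw [prior, integral_map measurable_toCfg.aemeasurable (Measurable.aestronglyMeasurable (by fun_prop))]
    have e : ∀ g, lin z (toCfg g) = dot (toCfg g).1 z := fun g => dot_comm _ _
    simp only [e]
    have hneg := integral_neg_gauss hEm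
    rw [integral_congr_ae hnegE] at hneg
    have i2 : Integrable (fun g : Fin N → ℝ => Real.exp (-(Real.sqrt r * dot (toCfg g).1 z))) γ := by
      refine Integrable.of_bound ((measurable_dotCfg z).const_mul _).neg.exp.aestronglyMeasurable
        (Real.exp (Real.sqrt r * zlen z)) (ae_of_all _ fun g => ?_)
      rw [Real.norm_eq_abs, Real.abs_exp, Real.exp_le_exp, ← mul_neg]
      exact mul_le_mul_of_nonneg_left ((neg_le_abs _).trans (hproj g)) (Real.sqrt_nonneg r)
    simp only [F, Real.cosh_eq]
    rw [integral_div, integral_add hEi i2, hneg]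
    ring
  -- the Gaussian side, symmetrised and restricted to the shell
  set Φ : (Fin N → ℝ) → ℝ := fun g =>
    Real.exp (-(s * N * (1 + δ) / 2)) * (F g * shell N δ (sq2 g))
  have hshell : ∀ g : Fin N → ℝ, 0 ≤ shell N δ (sq2 g) ∧ shell N δ (sq2 g) ≤ 1 := fun g => by
    simp only [shell, Set.indicator_apply]
    split_ifs <;> simp
  have hk := integrable_gauss_kernel hs z
  have hkn : Integrable (fun g => Real.exp (-(Real.sqrt s * dot g z) - s / 2 * sq2 g)) γ := by
    have hk' := hk
    rw [← map_neg_gauss] at hk'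
    have := (integrable_map_measure hk'.aestronglyMeasurable measurable_negv.aemeasurable).1 hk'
    refine this.congr (ae_of_all _ fun g => ?_)
    simp [Function.comp_apply, dot_neg, sq2_neg]
  have hgs : gaussLik s z = ∫ g, (Real.exp (Real.sqrt s * dot g z - s / 2 * sq2 g)
      + Real.exp (-(Real.sqrt s * dot g z) - s / 2 * sq2 g)) / 2 ∂γ := by
    rw [integral_div, integral_add hk hkn, ← gaussLik_eq hs]
    have := integral_neg_gauss (N := N) (F := fun g => Real.exp (Real.sqrt s * dot g z - s / 2 * sq2 g))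
      (by unfold dot; fun_prop)
    simp only [dot_neg, sq2_neg, mul_neg] at this
    rw [this]
    ring
  have hΦ : ∀ᵐ g ∂γ, Φ g ≤ (Real.exp (Real.sqrt s * dot g z - s / 2 * sq2 g)
      + Real.exp (-(Real.sqrt s * dot g z) - s / 2 * sq2 g)) / 2 := by
    filter_upwards [ae_sq2_ne hN0] with g hg
    rcases eq_or_ne (shell N δ (sq2 g)) 0 with h0 | h0
    · simp only [Φ, h0, mul_zero]; positivity
    have hB : |sq2 g / N - 1| ≤ δ := by
      by_contra hc
      exact h0 (Set.indicator_of_notMem (s := {t : ℝ | |t / N - 1| ≤ δ}) hc _)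
    have h1 : shell N δ (sq2 g) = 1 := Set.indicator_of_mem (a := sq2 g) hB _
    obtain ⟨hlo, hhi⟩ := abs_le.1 hB
    set t := sq2 g / N
    have htpos : 0 < t := by linarith
    have hrs : r ≤ s * t := by
      calc r ≤ r * ((1 + 2 * δ) * (1 - δ)) := le_mul_of_one_le_right hr (by nlinarith)
        _ ≤ r * ((1 + 2 * δ) * t) := by gcongr; linarith
        _ = s * t := by rw [hsdef]; ring
    have hdot : dot g z = Real.sqrt t * dot (toCfg g).1 z := by
      have hq : 0 < sq2 g := lt_of_le_of_ne (sq2_nonneg g) (Ne.symm hg)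
      simp only [dot, toCfg, if_neg hg, proj, Fintype.card_fin, Finset.mul_sum, t, Real.sqrt_div hq.le]
      refine Finset.sum_congr rfl fun i _ => ?_
      have := Real.sqrt_pos.2 hq
      have := Real.sqrt_pos.2 hn
      field_simp
    have hc : Real.cosh (Real.sqrt r * dot (toCfg g).1 z) ≤ Real.cosh (Real.sqrt s * dot g z) := by
      rw [Real.cosh_le_cosh, hdot, ← mul_assoc, ← Real.sqrt_mul hs, abs_mul, abs_mul,
        abs_of_nonneg (Real.sqrt_nonneg _), abs_of_nonneg (Real.sqrt_nonneg _)]
      exact mul_le_mul_of_nonneg_right (Real.sqrt_le_sqrt hrs) (abs_nonneg _)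
    have e : (Real.exp (Real.sqrt s * dot g z - s / 2 * sq2 g)
        + Real.exp (-(Real.sqrt s * dot g z) - s / 2 * sq2 g)) / 2
        = Real.exp (-(s / 2 * sq2 g)) * Real.cosh (Real.sqrt s * dot g z) := by
      simp only [Real.cosh_eq, sub_eq_add_neg, Real.exp_add]
      ring
    rw [e]
    simp only [Φ, h1, mul_one, F]
    refine mul_le_mul (Real.exp_le_exp.2 ?_) hc (Real.cosh_pos _).le (Real.exp_pos _).le
    have hst : sq2 g = N * t := by simp only [t]; field_simp
    rw [hst]
    have : 0 ≤ s * N * (1 + δ - t) := mul_nonneg (by positivity) (by linarith)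
    linarith
  have hFmt : Measurable F := hFm.comp (measurable_subtype_coe.comp measurable_toCfg)
  have hsm : Measurable (shell N δ) := (measurable_const (a := (1 : ℝ))).indicator (measurableSet_le (by fun_prop) measurable_const)
  have hΦi : Integrable Φ γ := by
    refine Integrable.of_bound (Measurable.aestronglyMeasurable ((hFmt.mul (hsm.comp measurable_sq2)).const_mul _))
      (Real.exp (-(s * N * (1 + δ) / 2)) * Real.exp (Real.sqrt r * zlen z)) (ae_of_all _ fun g => ?_)
    simp only [Φ]
    rw [Real.norm_eq_abs, abs_mul, Real.abs_exp, abs_mul, abs_of_nonneg (hshell g).1, abs_of_pos (Real.cosh_pos _)]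
    refine mul_le_mul_of_nonneg_left ((mul_le_of_le_one_right (Real.cosh_pos _).le (hshell g).2).trans
      ((hcosh _).trans (Real.exp_le_exp.2 ?_))) (Real.exp_pos _).le
    rw [abs_mul, abs_of_nonneg (Real.sqrt_nonneg r)]
    exact mul_le_mul_of_nonneg_left (hproj g) (Real.sqrt_nonneg r)
  have hlow := integral_mono_ae hΦi ((hk.add hkn).div_const 2) hΦ
  simp only [Pi.add_apply] at hlow
  rw [← hgs] at hlow
  -- independence of direction and radius
  have hind : ∫ g, Φ g ∂γ = Real.exp (-(s * N * (1 + δ) / 2)) * ((∫ g, F g ∂γ) * ∫ g, shell N δ (sq2 g) ∂γ) := by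
    simp only [Φ]
    rw [integral_const_mul]
    congr 1
    have hae : ∀ᵐ g ∂γ, F g = Real.cosh (Real.sqrt r * dot (proj g) z) := by
      filter_upwards [ae_sq2_ne hN0] with g hg
      simp [F, toCfg, hg]
    rw [integral_congr_ae hae, integral_congr_ae (hae.mono fun g hg =>
      show F g * shell N δ (sq2 g) = Real.cosh (Real.sqrt r * dot (proj g) z) * shell N δ (sq2 g) by rw [hg])]
    have hp := (sphereOn_polar hN0).1
    have hm2 : Measurable fun g : Fin N → ℝ => (proj g, sq2 g) := by fun_prop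
    have e1 : ∫ g, Real.cosh (Real.sqrt r * dot (proj g) z) * shell N δ (sq2 g) ∂γ
        = ∫ p, Real.cosh (Real.sqrt r * dot p.1 z) * shell N δ p.2 ∂(γ.map fun g => (proj g, sq2 g)) := by
      have hm3 : Measurable fun p : (Fin N → ℝ) × ℝ => Real.cosh (Real.sqrt r * dot p.1 z) * shell N δ p.2 :=
        (hFm.comp measurable_fst).mul (hsm.comp measurable_snd)
      rw [integral_map hm2.aemeasurable hm3.aestronglyMeasurable]
    rw [e1, hp, integral_prod_mul (fun x => Real.cosh (Real.sqrt r * dot x z)) (shell N δ), sphereOn,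
      integral_map measurable_proj.aemeasurable hFm.aestronglyMeasurable,
      integral_map measurable_sq2.aemeasurable hsm.aestronglyMeasurable]
  rw [hind, ← hsym] at hlow
  have hmass := shell_mass hδ hN0 hN
  have hE0 : 0 ≤ ∫ b, Real.exp (Real.sqrt r * lin z b) ∂prior N := integral_nonneg fun b => (Real.exp_pos _).le
  have hlow2 : Real.exp (-(s * N * (1 + δ) / 2)) * (∫ b, Real.exp (Real.sqrt r * lin z b) ∂prior N) ≤ 2 * gaussLik s z := by
    have := mul_le_mul_of_nonneg_left (mul_le_mul_of_nonneg_left hmass hE0) (Real.exp_pos (-(s * N * (1 + δ) / 2))).le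
    linarith
  simp only [sub_eq_add_neg, Real.exp_add, integral_mul_const]
  have hexp : Real.exp (-(r * N / 2)) ≤ Real.exp (2 * δ * r * N) * Real.exp (-(s * N * (1 + δ) / 2)) := by
    rw [← Real.exp_add, Real.exp_le_exp, hsdef]
    nlinarith [mul_nonneg (mul_nonneg hr hn.le) (mul_nonneg hδ.le (show 0 ≤ 1 - 2 * δ by linarith))]
  refine (mul_le_mul_of_nonneg_left hexp hE0).trans ?_
  have := mul_le_mul_of_nonneg_left hlow2 (Real.exp_pos (2 * δ * r * N)).le
  linarith

lemma gd_sq2 {a : ℕ} (hN : 0 < N) : Gd fun d : Dat a N => sq2 d.2 := by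
  refine ⟨by fun_prop, 2, 1, zero_le_two, zero_le_one, fun d => ?_⟩
  rw [abs_of_nonneg (sq2_nonneg _), one_mul]
  have h := Real.quadratic_le_exp_of_nonneg (zlen_nonneg d.2)
  have h1 : sq2 d.2 ≤ zlen d.2 ^ 2 := by
    rw [zlen, mul_pow, Real.sq_sqrt (Nat.cast_nonneg N), Real.sq_sqrt (sq2_nonneg _)]
    exact le_mul_of_one_le_left (sq2_nonneg _) (by exact_mod_cast hN)
  linarith [zlen_nonneg d.2]

lemma integral_lik_sq2 (W : Wgt U C) {r : ℝ} (hr : 0 ≤ r) (hN : 0 < N) :
    ∫ d : Dat 0 N, lik U r d * sq2 d.2 ∂nullM 0 N = N * (1 + r) := by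
  rw [← planted_eq' W r (gd_sq2 hN) fun s d => sq2_refl s d.2, planted_shift W hr (gd_sq2 hN)]
  simp only [patW, Finset.univ_eq_empty, Finset.prod_empty, one_mul, nullM, sh]
  rw [integral_fun_snd (fun z : Fin N → ℝ => sq2 (shv r z))]
  simp only [probReal_univ, one_smul]
  simp only [sq2, shv]
  have hx : Integrable (fun x : ℝ => (Real.sqrt r + x) ^ 2) (gaussianReal 0 1) := by
    have h1 : Integrable (fun z : ℝ => z) (gaussianReal 0 1) := by simpa using integrable_pow_gauss 1
    refine (((integrable_const (Real.sqrt r ^ 2)).add (h1.const_mul (2 * Real.sqrt r))).add (integrable_pow_gauss 2)).congr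
      (ae_of_all _ fun x => by simp only [Pi.add_apply]; ring)
  have hi : ∀ i, Integrable (fun z : Fin N → ℝ => (Real.sqrt r + z i) ^ 2) (gaussVec (Fin N)) := fun i =>
    (measurePreserving_eval (fun _ : Fin N => gaussianReal 0 1) i).integrable_comp_of_integrable hx
  rw [integral_finsetSum _ fun i _ => hi i]
  have hv : ∀ i : Fin N, ∫ z, (Real.sqrt r + z i) ^ 2 ∂gaussVec (Fin N) = 1 + r := fun i => by
    rw [gaussVec, integral_comp_eval (μ := fun _ : Fin N => gaussianReal 0 1) (i := i)
      (f := fun x : ℝ => (Real.sqrt r + x) ^ 2) hx.aestronglyMeasurable]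
    have h1 : Integrable (fun z : ℝ => z) (gaussianReal 0 1) := by simpa using integrable_pow_gauss 1
    have e : ∀ x : ℝ, (Real.sqrt r + x) ^ 2 = (r + 2 * Real.sqrt r * x) + x ^ 2 := fun x => by
      rw [add_sq, Real.sq_sqrt hr]
    simp only [e]
    rw [integral_add ((integrable_const r).fun_add (h1.const_mul _)) (integrable_pow_gauss 2),
      integral_add (integrable_const r) (h1.const_mul _), integral_const_mul, gauss_sq]
    simp
    ring
  simp only [hv, Finset.sum_const, Finset.card_univ, Fintype.card_fin, nsmul_eq_mul]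

lemma log_gaussLik (s : ℝ) (z : Fin N → ℝ) :
    Real.log (gaussLik s z) = s / (2 * (1 + s)) * sq2 z - N / 2 * Real.log (1 + s) := Real.log_exp _

lemma integral_lik_log_gauss (W : Wgt U C) {r : ℝ} (hr : 0 ≤ r) (hN : 0 < N) (s c : ℝ) :
    ∫ d : Dat 0 N, lik U r d * (Real.log (gaussLik s d.2) + c) ∂nullM 0 N
      = s / (2 * (1 + s)) * (N * (1 + r)) - N / 2 * Real.log (1 + s) + c := by
  have e : ∀ d : Dat 0 N, lik U r d * (Real.log (gaussLik s d.2) + c)
      = s / (2 * (1 + s)) * (lik U r d * sq2 d.2) + (c - N / 2 * Real.log (1 + s)) * lik U r d := fun d => by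
    rw [log_gaussLik]; ring
  simp only [e]
  rw [integral_add (((gd_lik W r).mul (gd_sq2 hN)).integrable.const_mul _) ((gd_lik W r).integrable.const_mul _),
    integral_const_mul, integral_const_mul, integral_lik W hr hN, integral_lik_sq2 W hr hN]
  ring

/-- The entropy of the spherical channel is at least that of the Gaussian channel. -/
lemma Jt_empty_ge (W : Wgt U C) {r : ℝ} (hr : 0 ≤ r) (hN : 0 < N) : N * sphInfo r ≤ Jt U 0 N r := by
  have hli : Integrable (fun d : Dat 0 N => gaussLik r d.2) (nullM 0 N) :=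
    Integrable.comp_snd (Integrable.of_integral_ne_zero (by rw [integral_gaussLik hr]; exact one_ne_zero)) _
  have i1 : Integrable (fun d : Dat 0 N => lik U r d * (Real.log (gaussLik r d.2) + 1)) (nullM 0 N) := by
    have hg : Gd fun d : Dat 0 N => Real.log (gaussLik r d.2) + 1 := by
      simp only [log_gaussLik]
      exact ((Gd.const _).mul (gd_sq2 hN)).sub (Gd.const _) |>.add (Gd.const 1)
    exact ((gd_lik W r).mul hg).integrable
  have h := integral_mono (i1.sub hli) (gd_ent_lik W r).integrable fun d => by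
    have := Plant.ent_tangent (lik_pos W r d) (Real.exp_pos (r / (2 * (1 + r)) * sq2 d.2 - N / 2 * Real.log (1 + r)))
    simp only [Pi.sub_apply]
    change lik U r d * Real.log (gaussLik r d.2) + lik U r d - gaussLik r d.2 ≤ _ at this
    linarith
  simp only [Pi.sub_apply] at h
  rw [integral_sub i1 hli, integral_lik_log_gauss W hr hN, nullM, integral_fun_snd (fun z : Fin N → ℝ => gaussLik r z),
    integral_gaussLik hr] at h
  simp only [probReal_univ, one_smul] at h
  refine le_trans (le_of_eq ?_) h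
  simp only [sphInfo]
  have : (1 : ℝ) + r ≠ 0 := by linarith
  field_simp
  ring

/-- It is at most that much to first order. -/
lemma Jt_empty_le (W : Wgt U C) {δ r : ℝ} (hδ : 0 < δ) (hδ1 : δ ≤ 1 / 2) (hr : 0 ≤ r) (hN0 : 0 < N)
    (hN : ((kappa + 1) / δ) ^ 2 ≤ N) : Jt U 0 N r ≤ N * (sphInfo r + 3 * δ * r) + Real.log 2 := by
  set s := r * (1 + 2 * δ) with hsdef
  have hs : 0 ≤ s := by positivity
  have hrs : r ≤ s := by rw [hsdef]; exact le_mul_of_one_le_right hr (by linarith)
  have hg : Gd fun d : Dat 0 N => Real.log (gaussLik s d.2) + (2 * δ * r * N + Real.log 2) := by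
    simp only [log_gaussLik]
    exact ((Gd.const _).mul (gd_sq2 hN0)).sub (Gd.const _) |>.add (Gd.const _)
  have h := integral_mono (gd_ent_lik W r).integrable ((gd_lik W r).mul hg).integrable fun d => by
    refine mul_le_mul_of_nonneg_left ?_ (lik_pos W r d).le
    have hL : lik U r d ≤ 2 * Real.exp (2 * δ * r * N) * gaussLik s d.2 := by
      refine le_trans (le_of_eq ?_) (channel_le hδ hδ1 hr hN0 hN d.2)
      simp [lik, wt, patW]
    have h2 := Real.log_le_log (lik_pos W r d) hL
    rw [Real.log_mul (x := 2 * Real.exp (2 * δ * r * N)) (y := gaussLik s d.2) (by positivity) (Real.exp_pos _).ne',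
      Real.log_mul two_ne_zero (Real.exp_ne_zero _),
      Real.log_exp] at h2
    linarith
  rw [integral_lik_log_gauss W hr hN0] at h
  refine h.trans ?_
  have hn : (0 : ℝ) ≤ N := Nat.cast_nonneg N
  have h1 : s / (2 * (1 + s)) * (N * (1 + r)) ≤ s / 2 * N := by
    rw [div_mul_eq_mul_div, div_le_iff₀ (by linarith)]
    nlinarith [mul_le_mul_of_nonneg_left hrs (mul_nonneg hs hn)]
  have h2 := mul_le_mul_of_nonneg_left (Real.log_le_log (by linarith) (show 1 + r ≤ 1 + s by linarith)) hn
  simp only [sphInfo, hsdef] at *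
  linarith

lemma sphInfo_lip {r r' : ℝ} (hr : 0 ≤ r) (hrr : r ≤ r') :
    sphInfo r ≤ sphInfo r' ∧ sphInfo r' - sphInfo r ≤ (r' - r) / 2 := by
  have h1 := Real.log_le_log (by linarith) (show 1 + r ≤ 1 + r' by linarith)
  have h2 := Real.log_le_sub_one_of_pos (show 0 < (1 + r') / (1 + r) from div_pos (by linarith) (by linarith))
  rw [Real.log_div (by linarith) (by linarith), div_sub_one (by linarith)] at h2
  have h3 : (1 + r' - (1 + r)) / (1 + r) ≤ r' - r := by
    rw [div_le_iff₀ (by linarith)]; nlinarith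
  simp only [sphInfo]
  constructor <;> linarith

/-- The Legendre transform of the entropy of the Gaussian channel. -/
lemma sphInfo_legendre_le {p r : ℝ} (hp : p < 1) (hr : 0 ≤ r) :
    r * p / 2 - sphInfo r ≤ -(Real.log (1 - p) + p) / 2 := by
  have h := Real.log_le_sub_one_of_pos (mul_pos (show 0 < 1 + r by linarith) (show 0 < 1 - p by linarith))
  rw [Real.log_mul (by linarith) (by linarith)] at h
  simp only [sphInfo]
  linarith

lemma sphInfo_legendre_eq {p : ℝ} (hp : p < 1) :
    p / (1 - p) * p / 2 - sphInfo (p / (1 - p)) = -(Real.log (1 - p) + p) / 2 := by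
  have h1 : 0 < 1 - p := by linarith
  have e : 1 + p / (1 - p) = (1 - p)⁻¹ := by field_simp; ring
  simp only [sphInfo, e, Real.log_inv]
  field_simp
  ring

end Vale.Agent.P157.Sph
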