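import Vale.Agent.P157.SpherePlant.Chan

/-!
One more pattern on the sphere adds the entropy at the mean overlap, up to the fluctuation of the
overlap.
-/

open MeasureTheory ProbabilityTheory Filter Topology Set
open Vale.Agent.P157.Plant (Wgt ent plantEnt smoothMom prodMean qVec)
open scoped BigOperators

namespace Vale.Agent.P157.Sph

variable {a N : ℕ} {U : ℝ → ℝ} {C : ℝ}

/-- The Gibbs measure. -/
noncomputable def gib (U : ℝ → ℝ) (r : ℝ) (d : Dat a N) : Measure (Cfg N) :=
  (prior N).withDensity fun b => ENNReal.ofReal (wt U r d b / lik U r d)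

lemma gib_prob (W : Wgt U C) (r : ℝ) (d : Dat a N) : IsProbabilityMeasure (gib U r d) := ⟨by
  rw [gib, withDensity_apply _ MeasurableSet.univ, setLIntegral_univ,
    ← ofReal_integral_eq_lintegral_ofReal (((bd_wt W r d).integrable _).div_const _)
      (ae_of_all _ fun b => div_nonneg (wt_pos W r d b).le (lik_pos W r d).le),
    integral_div, show (∫ b, wt U r d b ∂prior N) = lik U r d from rfl, div_self (lik_pos W r d).ne',
    ENNReal.ofReal_one]⟩

lemma av_eq_integral (W : Wgt U C) (r : ℝ) (d : Dat a N) (h : Cfg N → ℝ) :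
    av U r d h = ∫ b, h b ∂gib U r d := by
  rw [gib, integral_withDensity_eq_integral_toReal_smul ((bd_wt W r d).1.div_const _).ennreal_ofReal
    (ae_of_all _ fun _ => ENNReal.ofReal_lt_top), av, ← integral_div]
  refine integral_congr_ae (ae_of_all _ fun b => ?_)
  simp only [ENNReal.toReal_ofReal (div_nonneg (wt_pos W r d b).le (lik_pos W r d).le), smul_eq_mul]
  ring

lemma pair_marginal {B : Type*} [MeasurableSpace B] (μ : Measure B) [IsProbabilityMeasure μ] {n : ℕ}
    {k l : Fin n} (hkl : k ≠ l) :
    (Measure.pi fun _ : Fin n => μ).map (fun p => (p k, p l)) = μ.prod μ := by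
  classical
  refine (Measure.prod_eq fun s t hs ht => ?_).symm
  rw [Measure.map_apply (by fun_prop) (hs.prod ht)]
  have e : (fun p : Fin n → B => (p k, p l)) ⁻¹' s ×ˢ t
      = Set.univ.pi (Function.update (Function.update (fun _ => Set.univ) k s) l t) := by
    ext p
    simp only [Set.mem_preimage, Set.mem_prod, Set.mem_pi, Set.mem_univ, true_implies]
    constructor
    · rintro ⟨h1, h2⟩ i
      by_cases hi : i = l
      · subst hi; simpa using h2
      · rw [Function.update_of_ne hi]
        by_cases hik : i = k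
        · subst hik; simpa using h1
        · simp [Function.update_of_ne hik]
    · intro h
      exact ⟨by simpa [Function.update_of_ne hkl] using h k, by simpa using h l⟩
  rw [e, Measure.pi_pi, Finset.prod_eq_mul k l hkl]
  · simp [Function.update_of_ne hkl]
  · intro c _ hc
    simp [Function.update_of_ne hc.1, Function.update_of_ne hc.2]
  · simp
  · simp

/-- The unit vector of a configuration. -/
noncomputable def cfgVec (b : Cfg N) (i : Fin N) : ℝ := sp b i / Real.sqrt N

lemma cfgVec_inner (b b' : Cfg N) : ∑ i, cfgVec b i * cfgVec b' i = ovl b b' := by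
  simp only [cfgVec, div_mul_div_comm, Real.mul_self_sqrt (Nat.cast_nonneg N), ovl, Finset.sum_div]

lemma measurable_prodU (W : Wgt U C) (n : ℕ) :
    Measurable fun p : (Fin N → ℝ) × (Fin n → Cfg N) => ∏ i, U (fld p.1 (p.2 i)) :=
  Finset.measurable_prod _ fun i _ => W.meas.comp (by fun_prop)

lemma integrable_prodU (W : Wgt U C) (n : ℕ) (μ : Measure (Cfg N)) [IsProbabilityMeasure μ] :
    Integrable (fun p : (Fin N → ℝ) × (Fin n → Cfg N) => ∏ i, U (fld p.1 (p.2 i)))
      ((gaussVec (Fin N)).prod (Measure.pi fun _ : Fin n => μ)) :=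
  Integrable.of_bound (measurable_prodU W n).aestronglyMeasurable (∏ _i : Fin n, C) (ae_of_all _ fun p => by
    rw [Real.norm_eq_abs, Finset.abs_prod]
    exact Finset.prod_le_prod (fun _ _ => abs_nonneg _) fun i _ => W.abs_le _)

lemma integral_pow_av (W : Wgt U C) (r : ℝ) (d : Dat a N) (n : ℕ) :
    ∫ g, av U r d (fun b => U (fld g b)) ^ n ∂gaussVec (Fin N)
      = ∫ p, prodMean U (fun i => cfgVec (p i)) ∂Measure.pi (fun _ : Fin n => gib U r d) := by
  have := gib_prob W r d
  have e : ∀ g : Fin N → ℝ, av U r d (fun b => U (fld g b)) ^ n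
      = ∫ p, ∏ i, U (fld g (p i)) ∂Measure.pi (fun _ : Fin n => gib U r d) := fun g => by
    rw [integral_fintype_prod_eq_pow (fun b => U (fld g b)), Fintype.card_fin, av_eq_integral W]
  simp_rw [e]
  rw [integral_integral_swap (f := fun (g : Fin N → ℝ) (p : Fin n → Cfg N) => ∏ i, U (fld g (p i)))
    (integrable_prodU W n _)]
  rfl

lemma moment_close (W : Wgt U C) (n : ℕ) {ε : ℝ} (hε : 0 < ε) :
    ∃ K, 0 ≤ K ∧ ∀ (a N : ℕ) (r : ℝ) (d : Dat a N), 0 < N → ∀ q ∈ Icc (0 : ℝ) 1,
      |∫ g, av U r d (fun b => U (fld g b)) ^ n ∂gaussVec (Fin N) - smoothMom U n q|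
        ≤ ε + K * av U r d (fun b => av U r d (fun b' => (ovl b b' - q) ^ 2)) := by
  obtain ⟨δ, hδ, hd⟩ := Plant.gram_continuity W.meas W.one_le W.abs_le n hε
  have hC := W.C_pos
  refine ⟨2 * C ^ n / δ ^ 2 * (n * n), by positivity, fun a N r d hN q hq => ?_⟩
  have := gib_prob W r d
  set G := gib U r d
  set Y : Cfg N → Cfg N → ℝ := fun b b' => (ovl b b' - q) ^ 2
  set T := av U r d (fun b => av U r d (fun b' => Y b b'))
  have hYm : Measurable fun p : Cfg N × Cfg N => Y p.1 p.2 := by simp only [Y]; fun_prop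
  have hYb : ∀ b b', |Y b b'| ≤ 4 := fun b b' => by
    simp only [Y]
    rw [abs_pow, show (4:ℝ) = 2 ^ 2 by norm_num]
    refine pow_le_pow_left₀ (abs_nonneg _) ((abs_sub _ _).trans ?_) 2
    rw [abs_of_nonneg hq.1]
    linarith [abs_ovl_le b b', hq.2]
  have iY : Integrable (fun p : Cfg N × Cfg N => Y p.1 p.2) (G.prod G) :=
    Integrable.of_bound hYm.aestronglyMeasurable 4 (ae_of_all _ fun p => hYb _ _)
  have hT : T = ∫ p, Y p.1 p.2 ∂G.prod G := by
    rw [integral_prod _ iY]
    simp only [T, G, av_eq_integral W]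
  have hT0 : 0 ≤ T := hT ▸ integral_nonneg fun p => sq_nonneg _
  have hP : ∀ p : Fin n → Cfg N, |prodMean U (fun i => cfgVec (p i)) - smoothMom U n q|
      ≤ ε + 2 * C ^ n / δ ^ 2 * ∑ k, ∑ l, (if k = l then 0 else Y (p k) (p l)) := fun p => by
    rw [W.smoothMom_eq]
    have hinner : ∀ k l, (∑ i, cfgVec (p k) i * cfgVec (p l) i) - ∑ i, qVec q k i * qVec q l i
        = if k = l then 0 else ovl (p k) (p l) - q := fun k l => by
      rw [Plant.qVec_inner hq]
      split_ifs with h
      · subst h
        simp only [cfgVec, ← sq, cfg_unit hN, sub_self]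
      · rw [cfgVec_inner]
    have hnn : ∀ k l, 0 ≤ (if k = l then 0 else Y (p k) (p l)) := fun k l => by
      split_ifs
      · exact le_rfl
      · exact sq_nonneg _
    by_cases hall : ∀ k l, |(∑ i, cfgVec (p k) i * cfgVec (p l) i) - ∑ i, qVec q k i * qVec q l i| ≤ δ
    · refine (hd _ _ _ _ (fun k => cfg_unit hN _) (Plant.qVec_unit hq) hall).trans (le_add_of_nonneg_right ?_)
      exact mul_nonneg (by positivity) (Finset.sum_nonneg fun k _ => Finset.sum_nonneg fun l _ => hnn k l)
    · push Not at hall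
      obtain ⟨k, l, hkl⟩ := hall
      rw [hinner] at hkl
      have hne : k ≠ l := fun h => by rw [if_pos h] at hkl; simp at hkl; linarith
      rw [if_neg hne] at hkl
      have h1 : δ ^ 2 ≤ ∑ k, ∑ l, (if k = l then 0 else Y (p k) (p l)) := by
        refine le_trans ?_ ((Finset.single_le_sum (f := fun l => if k = l then 0 else Y (p k) (p l))
          (fun l _ => hnn k l) (Finset.mem_univ l)).trans (Finset.single_le_sum
          (f := fun k => ∑ l, if k = l then 0 else Y (p k) (p l))
          (fun k _ => Finset.sum_nonneg fun l _ => hnn k l) (Finset.mem_univ k)))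
        rw [if_neg hne, ← sq_abs (δ : ℝ)]
        simp only [Y, ← sq_abs (ovl (p k) (p l) - q)]
        exact pow_le_pow_left₀ (abs_nonneg _) (by rw [abs_of_pos hδ]; exact hkl.le) 2
      have hb : ∀ {m : ℕ} (u : Fin n → Fin m → ℝ), |prodMean U u| ≤ C ^ n := fun {m} u => by
        simpa [prodMean] using norm_integral_le_of_norm_le_const (μ := gaussVec (Fin m))
          (f := fun g => ∏ k, U (∑ i, g i * u k i)) (C := C ^ n) (ae_of_all _ fun g => by
            rw [Real.norm_eq_abs, Finset.abs_prod]
            exact (Finset.prod_le_prod (fun _ _ => abs_nonneg _) fun i _ => W.abs_le _).trans (by simp))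
      calc _ ≤ C ^ n + C ^ n := (abs_sub _ _).trans (add_le_add (hb _) (hb _))
        _ = 2 * C ^ n / δ ^ 2 * δ ^ 2 := by field_simp; ring
        _ ≤ 2 * C ^ n / δ ^ 2 * _ := mul_le_mul_of_nonneg_left h1 (by positivity)
        _ ≤ _ := le_add_of_nonneg_left hε.le
  set P := Measure.pi fun _ : Fin n => G
  have hYk : ∀ k l : Fin n, Integrable (fun p : Fin n → Cfg N => if k = l then 0 else Y (p k) (p l)) P ∧
      ∫ p, (if k = l then 0 else Y (p k) (p l)) ∂P ≤ T := by
    intro k l
    split_ifs with h
    · exact ⟨integrable_const _, by simpa using hT0⟩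
    · refine ⟨Integrable.of_bound (hYm.comp (by fun_prop : Measurable fun p : Fin n → Cfg N => (p k, p l))).aestronglyMeasurable
        4 (ae_of_all _ fun p => hYb _ _), le_of_eq ?_⟩
      rw [hT, ← pair_marginal G h, integral_map (by fun_prop) hYm.aestronglyMeasurable]
  have iP : Integrable (fun p : Fin n → Cfg N => prodMean U fun i => cfgVec (p i)) P :=
    (integrable_prodU W n G).integral_prod_right
  have iS : Integrable (fun p : Fin n → Cfg N => ∑ k, ∑ l, (if k = l then 0 else Y (p k) (p l))) P :=
    integrable_finsetSum _ fun k _ => integrable_finsetSum _ fun l _ => (hYk k l).1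
  rw [integral_pow_av W, show smoothMom U n q = ∫ _p, smoothMom U n q ∂P by simp,
    ← integral_sub iP (integrable_const _)]
  refine abs_integral_le_integral_abs.trans ((integral_mono (iP.sub (integrable_const _)).abs
    ((integrable_const ε).add (iS.const_mul (2 * C ^ n / δ ^ 2))) hP).trans ?_)
  simp only [Pi.add_apply]
  rw [integral_add (integrable_const ε) (iS.const_mul _), integral_const, probReal_univ, one_smul,
    integral_const_mul, integral_finsetSum _ fun k _ => integrable_finsetSum _ fun l _ => (hYk k l).1]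
  simp only [integral_finsetSum _ fun l _ => (hYk _ l).1]
  rw [mul_assoc (2 * C ^ n / δ ^ 2)]
  refine add_le_add le_rfl (mul_le_mul_of_nonneg_left ((Finset.sum_le_sum fun k _ =>
    Finset.sum_le_sum fun l _ => (hYk k l).2).trans (le_of_eq ?_)) (by positivity))
  simp [mul_assoc]

/-- Adding a pattern. -/
noncomputable def addPat (g : Fin N → ℝ) (d : Dat a N) : Dat (a + 1) N := (Fin.snoc d.1 g, d.2)

@[fun_prop]
lemma measurable_addPat : Measurable fun p : (Fin N → ℝ) × Dat a N => addPat p.1 p.2 := by
  refine Measurable.prodMk (measurable_pi_lambda _ fun c => ?_) (by fun_prop)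
  refine Fin.lastCases ?_ (fun c => ?_) c
  · simp only [Fin.snoc_last]; fun_prop
  · simp only [Fin.snoc_castSucc]; fun_prop

lemma map_addPat : ((gaussVec (Fin N)).prod (nullM a N)).map (fun p => addPat p.1 p.2) = nullM (a + 1) N :=
  Plant.map_addPat (a := a) (N := N)

lemma wt_addPat (r : ℝ) (g : Fin N → ℝ) (d : Dat a N) (b : Cfg N) :
    wt U r (addPat g d) b = wt U r d b * U (fld g b) := by
  simp only [wt, addPat, patW, Fin.prod_univ_castSucc, Fin.snoc_castSucc, Fin.snoc_last]
  ring

lemma lik_addPat (W : Wgt U C) (r : ℝ) (g : Fin N → ℝ) (d : Dat a N) :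
    lik U r (addPat g d) = lik U r d * av U r d (fun b => U (fld g b)) := by
  rw [lik_mul_av W, lik]
  simp only [wt_addPat]

lemma integral_lik (W : Wgt U C) {r : ℝ} (hr : 0 ≤ r) (hN : 0 < N) :
    ∫ d, lik U r d ∂nullM a N = 1 := by
  have := planted_eq' W r (Gd.const (a := a) (N := N) 1) fun _ _ => rfl
  simp only [mul_one] at this
  rw [← this, integral_wt W hr hN]

lemma gd_ent_lik (W : Wgt U C) (r : ℝ) : Gd fun d : Dat a N => ent (lik U r d) :=
  (gd_lik W r).mul (gd_log_lik W r)

lemma avU_mem (W : Wgt U C) (r : ℝ) (d : Dat a N) (g : Fin N → ℝ) :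
    av U r d (fun b => U (fld g b)) ∈ Icc C⁻¹ C := by
  have hb : Bd fun b : Cfg N => U (fld g b) := Bd.of (W.meas.comp (by fun_prop)) fun b => W.abs_le _
  exact ⟨(av_const W r d _).symm.trans_le (av_mono W r d (Bd.const _) hb fun b => W.lo _),
    (av_mono W r d hb (Bd.const _) fun b => W.hi _).trans_eq (av_const W r d _)⟩

lemma measurable_avU (W : Wgt U C) (r : ℝ) :
    Measurable fun p : Dat a N × (Fin N → ℝ) => av U r p.1 (fun b => U (fld p.2 b)) :=
  measurable_av W r measurable_fst (h := fun (p : Dat a N × (Fin N → ℝ)) b => U (fld p.2 b))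
    (W.meas.comp (by fun_prop))

lemma measurable_avU' (W : Wgt U C) (r : ℝ) (d : Dat a N) :
    Measurable fun g : Fin N → ℝ => av U r d (fun b => U (fld g b)) :=
  measurable_av W r (df := fun _ : Fin N → ℝ => d) measurable_const (h := fun g b => U (fld g b))
    (W.meas.comp (measurable_fld measurable_fst measurable_snd))

lemma gd_entU (W : Wgt U C) (r : ℝ) :
    Gd fun d : Dat a N => ∫ g, ent (av U r d (fun b => U (fld g b))) ∂gaussVec (Fin N) := by
  obtain ⟨E, hE⟩ := W.ent_bdd
  refine Gd.of_bdd (StronglyMeasurable.integral_prod_right (ν := gaussVec (Fin N))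
    (f := fun (d : Dat a N) g => ent (av U r d (fun b => U (fld g b))))
    (Plant.continuous_ent.measurable.comp (measurable_avU W r)).stronglyMeasurable).measurable (B := E) fun d => ?_
  simpa using norm_integral_le_of_norm_le_const (μ := gaussVec (Fin N))
    (f := fun g => ent (av U r d (fun b => U (fld g b)))) (C := E) (ae_of_all _ fun g => hE _ (avU_mem W r d g))

lemma Jt_succ (W : Wgt U C) (r : ℝ) (hN : 0 < N) :
    Jt U (a + 1) N r = Jt U a N r
      + ∫ d, lik U r d * ∫ g, ent (av U r d (fun b => U (fld g b))) ∂gaussVec (Fin N) ∂nullM a N := by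
  obtain ⟨E, hE⟩ := W.ent_bdd
  have hi : Integrable (fun d => ent (lik U r d)) (nullM (a + 1) N) := (gd_ent_lik W r).integrable
  have hm : Measurable fun p : (Fin N → ℝ) × Dat a N => addPat p.1 p.2 := measurable_addPat
  have hi' := hi
  rw [← map_addPat] at hi'
  have hip : Integrable (fun p : (Fin N → ℝ) × Dat a N => ent (lik U r (addPat p.1 p.2)))
      ((gaussVec (Fin N)).prod (nullM a N)) :=
    (integrable_map_measure hi'.aestronglyMeasurable hm.aemeasurable).1 hi'
  rw [Jt, ← map_addPat, integral_map hm.aemeasurable hi'.aestronglyMeasurable, integral_prod_symm _ hip]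
  have hw : ∀ d : Dat a N, ∫ g, av U r d (fun b => U (fld g b)) ∂gaussVec (Fin N) = 1 := fun d => by
    have := gib_prob W r d
    simp only [av_eq_integral W]
    have hi : Integrable (Function.uncurry fun (g : Fin N → ℝ) b => U (fld g b))
        ((gaussVec (Fin N)).prod (gib U r d)) :=
      W.int (φ := fun p : (Fin N → ℝ) × Cfg N => fld p.1 p.2) (by fun_prop)
    rw [integral_integral_swap hi]
    simp [integral_fld W hN]
  have hWm : ∀ d : Dat a N, Measurable fun g : Fin N → ℝ => av U r d (fun b => U (fld g b)) := fun d =>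
    measurable_avU' W r d
  have e : ∀ d : Dat a N, ∫ g, ent (lik U r (addPat g d)) ∂gaussVec (Fin N)
      = ent (lik U r d) + lik U r d * ∫ g, ent (av U r d (fun b => U (fld g b))) ∂gaussVec (Fin N) := fun d => by
    have e1 : ∀ g, ent (lik U r (addPat g d)) = ent (lik U r d) * av U r d (fun b => U (fld g b))
        + lik U r d * ent (av U r d (fun b => U (fld g b))) := fun g => by
      rw [lik_addPat W]
      simp only [ent]
      rw [Real.log_mul (lik_pos W r d).ne' (lt_of_lt_of_le (inv_pos.2 W.C_pos) (avU_mem W r d g).1).ne']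
      ring
    simp_rw [e1]
    have ie : Integrable (fun g : Fin N → ℝ => ent (av U r d (fun b => U (fld g b)))) (gaussVec (Fin N)) :=
      Integrable.of_bound (Plant.continuous_ent.measurable.comp (hWm d)).aestronglyMeasurable E
        (ae_of_all _ fun g => hE _ (avU_mem W r d g))
    rw [integral_add ((Integrable.of_bound (hWm d).aestronglyMeasurable C
        (ae_of_all _ fun g => abs_av_le W r d fun b => W.abs_le _)).const_mul _) (ie.const_mul _), integral_const_mul, integral_const_mul, hw, mul_one]
  simp_rw [e]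
  exact integral_add (gd_ent_lik W r).integrable ((gd_lik W r).mul (gd_entU W r)).integrable

/-- The increment of one pattern. -/
theorem Jt_increment (W : Wgt U C) {ε : ℝ} (hε : 0 < ε) :
    ∃ K, 0 ≤ K ∧ ∀ (a N : ℕ) (r : ℝ), 0 < N → 0 ≤ r →
      |Jt U (a + 1) N r - Jt U a N r - plantEnt U (qv U a N r)| ≤ ε + K * vr U a N r := by
  obtain ⟨E, hE⟩ := W.ent_bdd
  obtain ⟨d₀, c, hc⟩ := W.ent_poly (show 0 < ε / 4 by linarith)
  set S := ∑ i ∈ Finset.range d₀, |c i|
  have hS : 0 ≤ S := Finset.sum_nonneg fun _ _ => abs_nonneg _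
  choose K hK hmom using fun i => moment_close W i (show 0 < ε / (2 * (S + 1)) by positivity)
  refine ⟨∑ i ∈ Finset.range d₀, |c i| * K i, Finset.sum_nonneg fun i _ => mul_nonneg (abs_nonneg _) (hK i),
    fun a N r hN hr => ?_⟩
  set q := qv U a N r
  have hq : q ∈ Icc (0 : ℝ) 1 := ⟨qv_nonneg W hN r, qv_le_one W hN hr⟩
  set T : Dat a N → ℝ := fun d => av U r d (fun b => av U r d (fun b' => (ovl b b' - q) ^ 2))
  set Φ : Dat a N → ℝ := fun d => ∫ g, ent (av U r d (fun b => U (fld g b))) ∂gaussVec (Fin N)
  have hWm : ∀ d : Dat a N, Measurable fun g : Fin N → ℝ => av U r d (fun b => U (fld g b)) := fun d =>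
    measurable_avU' W r d
  have hpt : ∀ d, |Φ d - plantEnt U q| ≤ ε + (∑ i ∈ Finset.range d₀, |c i| * K i) * T d := fun d => by
    have hip : ∀ i ∈ Finset.range d₀, Integrable (fun g : Fin N → ℝ => c i * av U r d (fun b => U (fld g b)) ^ i)
        (gaussVec (Fin N)) := fun i _ => (Integrable.of_bound ((hWm d).pow_const i).aestronglyMeasurable (C ^ i)
        (ae_of_all _ fun g => by
          rw [Real.norm_eq_abs, abs_pow]
          exact pow_le_pow_left₀ (abs_nonneg _) (abs_av_le W r d fun b => W.abs_le _) i)).const_mul _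
    have h1 : |Φ d - ∑ i ∈ Finset.range d₀, c i * ∫ g, av U r d (fun b => U (fld g b)) ^ i ∂gaussVec (Fin N)| ≤ ε / 4 := by
      have e : ∑ i ∈ Finset.range d₀, c i * ∫ g, av U r d (fun b => U (fld g b)) ^ i ∂gaussVec (Fin N)
          = ∫ g, ∑ i ∈ Finset.range d₀, c i * av U r d (fun b => U (fld g b)) ^ i ∂gaussVec (Fin N) := by
        rw [integral_finsetSum _ hip]; simp [integral_const_mul]
      have ie : Integrable (fun g : Fin N → ℝ => ent (av U r d (fun b => U (fld g b)))) (gaussVec (Fin N)) :=
        Integrable.of_bound (Plant.continuous_ent.measurable.comp (hWm d)).aestronglyMeasurable E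
          (ae_of_all _ fun g => hE _ (avU_mem W r d g))
      rw [e, ← integral_sub ie (integrable_finsetSum _ hip)]
      simpa using norm_integral_le_of_norm_le_const (μ := gaussVec (Fin N))
        (f := fun g => ent (av U r d (fun b => U (fld g b)))
          - ∑ i ∈ Finset.range d₀, c i * av U r d (fun b => U (fld g b)) ^ i) (C := ε / 4)
        (ae_of_all _ fun g => hc _ (avU_mem W r d g))
    have h2 := W.plantEnt_poly hc q
    have h3 : |∑ i ∈ Finset.range d₀, c i * ∫ g, av U r d (fun b => U (fld g b)) ^ i ∂gaussVec (Fin N)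
        - ∑ i ∈ Finset.range d₀, c i * smoothMom U i q| ≤ ε / 2 + (∑ i ∈ Finset.range d₀, |c i| * K i) * T d := by
      rw [← Finset.sum_sub_distrib]
      refine (Finset.abs_sum_le_sum_abs _ _).trans ((Finset.sum_le_sum fun i _ => ?_).trans
        (show ∑ i ∈ Finset.range d₀, |c i| * (ε / (2 * (S + 1)) + K i * T d) ≤ _ from ?_))
      · rw [← mul_sub, abs_mul]
        exact mul_le_mul_of_nonneg_left (hmom i a N r d hN q hq) (abs_nonneg _)
      · simp only [mul_add, Finset.sum_add_distrib, ← mul_assoc]
        rw [← Finset.sum_mul, ← Finset.sum_mul]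
        refine add_le_add ?_ le_rfl
        rw [← mul_div_assoc, div_le_iff₀ (by positivity)]
        nlinarith
    calc |Φ d - plantEnt U q| ≤ _ + _ := abs_sub_le _ (∑ i ∈ Finset.range d₀, c i * smoothMom U i q) _
      _ ≤ (ε / 4 + (ε / 2 + (∑ i ∈ Finset.range d₀, |c i| * K i) * T d)) + ε / 4 :=
          add_le_add ((abs_sub_le _ _ _).trans (add_le_add h1 h3)) (by rw [abs_sub_comm]; exact h2)
      _ = _ := by ring
  have hΦ : Gd Φ := gd_entU W r
  have hT : Gd T := (gd2_ovl W r (k := fun x => (x - q) ^ 2) (by fun_prop)).av W r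
  have hinc : Jt U (a + 1) N r - Jt U a N r - plantEnt U q = ∫ d, lik U r d * (Φ d - plantEnt U q) ∂nullM a N := by
    rw [Jt_succ W r hN]
    simp only [mul_sub]
    rw [integral_sub ((gd_lik W r).mul hΦ).integrable ((gd_lik W r).integrable.mul_const _), integral_mul_const,
      integral_lik W hr hN]
    simp only [Φ]; ring
  rw [hinc]
  set KK := ∑ i ∈ Finset.range d₀, |c i| * K i
  calc |∫ d, lik U r d * (Φ d - plantEnt U q) ∂nullM a N|
      ≤ ∫ d, (ε * lik U r d + KK * (lik U r d * T d)) ∂nullM a N := by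
        refine (abs_integral_le_integral_abs).trans (integral_mono ((gd_lik W r).mul (hΦ.sub (Gd.const _))).integrable.abs
          (((gd_lik W r).integrable.const_mul _).add (((gd_lik W r).mul hT).integrable.const_mul _)) fun d => ?_)
        simp only [Pi.add_apply]
        rw [abs_mul, abs_of_pos (lik_pos W r d)]
        refine (mul_le_mul_of_nonneg_left (hpt d) (lik_pos W r d).le).trans (le_of_eq ?_)
        ring
    _ = _ := by
        rw [integral_add ((gd_lik W r).integrable.const_mul _) (((gd_lik W r).mul hT).integrable.const_mul _),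
          integral_const_mul, integral_const_mul, integral_lik W hr hN, mul_one]
        rfl

end Vale.Agent.P157.Sph
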