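import Vale.Agent.P157.SpherePlant.Paths

/-!
The annealed phase of the perceptron on the sphere and its exact boundary.
-/

open MeasureTheory ProbabilityTheory Filter Topology Set
open Vale.Agent.P157.Plant (Wgt ent plantEnt reweight annealedLog reweight_wgt floor_div_tendsto)
open scoped BigOperators

namespace Vale.Agent.P157.Sph

variable {U : ℝ → ℝ} {C α : ℝ}

lemma pressure_eq {f : ℝ → ℝ} (hf : Measurable f) {B : ℝ} (hB : ∀ x, |f x| ≤ B) (α : ℝ) {N : ℕ} (hN : 0 < N) :
    pressure α f N (sphereMeasure N)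
      = ((⌊α * N⌋₊ : ℝ) * annealedLog f + mZ (reweight f) ⌊α * N⌋₊ N) / N := by
  set M := ⌊α * N⌋₊
  have W := reweight_wgt hf hB
  set m := ∫ z, Real.exp (f z) ∂gaussianReal 0 1
  have hm : 0 < m :=
    integral_exp_pos (Integrable.of_bound hf.exp.aestronglyMeasurable (Real.exp B) (ae_of_all _ fun z => by
      rw [Real.norm_eq_abs, Real.abs_exp]; exact Real.exp_le_exp.2 (abs_le.1 (hB z)).2))
  have e : ∀ g : Fin M → Fin N → ℝ,
      Real.log (∫ x, Real.exp (∑ c, f ((∑ i, g c i * x i) / Real.sqrt N)) ∂sphereMeasure N)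
        = M * annealedLog f + Real.log (Zf (reweight f) g) := fun g => by
    have hmeas : Measurable fun x : Fin N → ℝ => Real.exp (∑ c, f ((∑ i, g c i * x i) / Real.sqrt N)) :=
      (Finset.measurable_sum _ fun c _ => hf.comp (by fun_prop)).exp
    rw [← prior_val hN, integral_map measurable_subtype_coe.aemeasurable hmeas.aestronglyMeasurable]
    have hb : ∀ b : Cfg N, Real.exp (∑ c, f ((∑ i, g c i * b.1 i) / Real.sqrt N))
        = m ^ M * patW (reweight f) g b := fun b => by
      rw [Real.exp_sum]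
      have : m ^ M = ∏ _c : Fin M, m := by simp
      rw [this, patW, ← Finset.prod_mul_distrib]
      refine Finset.prod_congr rfl fun c _ => ?_
      rw [reweight, mul_div_cancel₀ _ hm.ne', Finset.sum_div]
      congr 2
      exact Finset.sum_congr rfl fun i _ => mul_div_assoc _ _ _
    simp_rw [hb]
    rw [integral_const_mul, show (∫ b, patW (reweight f) g b ∂prior N) = Zf (reweight f) g from rfl,
      Real.log_mul (pow_ne_zero _ hm.ne') (Zf_mem W g).1.ne', Real.log_pow]
    rfl
  simp only [pressure]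
  rw [integral_congr_ae (ae_of_all _ e), integral_add (integrable_const _)
    (Integrable.of_bound (measurable_Zf W).log.aestronglyMeasurable (M * Real.log (Real.exp (2 * B)))
      (ae_of_all _ fun g => (Zf_mem W g).2))]
  simp [mZ, gaussVec, M]

lemma gridErr_eventually (hα : 0 ≤ α) (C R η : ℝ) (K₀ : ℕ) (hη : 0 < η) (hK : 0 < K₀) :
    ∀ᶠ N : ℕ in atTop, gridErr C ⌊α * N⌋₊ N R η K₀ ≤ 4 / Real.sqrt η + 3 := by
  set δ := η / (2 * (K₀ : ℝ))
  set A0 := 8 * |Real.log 2| + 96 * Real.sqrt |R + η| + 32 * Real.sqrt (α * Real.log C ^ 2)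
  have hδ : 0 < δ := by positivity
  have hlim : Tendsto (fun N : ℕ => K₀ * A0 / δ / Real.sqrt N) atTop (𝓝 0) :=
    Filter.Tendsto.div_atTop tendsto_const_nhds (Real.tendsto_sqrt_atTop.comp tendsto_natCast_atTop_atTop)
  filter_upwards [hlim.eventually_le_const zero_lt_one, eventually_gt_atTop 0] with N hN hN0
  have hn : (1 : ℝ) ≤ N := by exact_mod_cast hN0
  have hs : 1 ≤ Real.sqrt N := Real.one_le_sqrt.2 hn
  have e1 : Real.sqrt (N * (R + η)) ≤ Real.sqrt N * Real.sqrt |R + η| := by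
    rw [← Real.sqrt_mul (by linarith)]
    exact Real.sqrt_le_sqrt (mul_le_mul_of_nonneg_left (le_abs_self _) (by linarith))
  have e2 : Real.sqrt ((⌊α * N⌋₊ : ℝ) * Real.log C ^ 2) ≤ Real.sqrt N * Real.sqrt (α * Real.log C ^ 2) := by
    rw [← Real.sqrt_mul (by linarith), ← mul_assoc, mul_comm (N : ℝ)]
    exact Real.sqrt_le_sqrt (mul_le_mul_of_nonneg_right (Nat.floor_le (by positivity)) (sq_nonneg _))
  have hA : 8 * Real.log 2 + 96 * Real.sqrt (N * (R + η)) + 32 * Real.sqrt ((⌊α * N⌋₊ : ℝ) * Real.log C ^ 2)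
      ≤ Real.sqrt N * A0 := by
    have := mul_le_mul_of_nonneg_right hs (abs_nonneg (Real.log 2))
    simp only [A0]
    linarith [le_abs_self (Real.log 2)]
  have h1 : (K₀ : ℝ) * ((8 * Real.log 2 + 96 * Real.sqrt (N * (R + η)) + 32 * Real.sqrt ((⌊α * N⌋₊ : ℝ) * Real.log C ^ 2))
      / (N * δ)) ≤ 1 := by
    refine le_trans (mul_le_mul_of_nonneg_left (div_le_div_of_nonneg_right hA (by positivity)) (by positivity)) ?_
    refine le_trans (le_of_eq ?_) hN
    have hne : Real.sqrt (N : ℝ) ≠ 0 := by linarith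
    field_simp
    rw [Real.sq_sqrt (by linarith)]
    ring
  have h2 : (K₀ : ℝ) * (8 * δ / (η * Real.sqrt η)) = 4 / Real.sqrt η := by
    simp only [δ]
    field_simp
    ring
  unfold gridErr
  change (K₀ : ℝ) * (_ / (N * δ) + 8 * δ / (η * Real.sqrt η)) + 2 ≤ _
  linarith

lemma entropy_small (W : Wgt U C) (hα : 0 < α)
    (hcond : ∀ q : ℝ, 0 ≤ q → q < 1 → α * plantEnt U q ≤ -(Real.log (1 - q) + q) / 2)
    {e : ℝ} (he : 0 < e) : ∀ᶠ N : ℕ in atTop, Jt U ⌊α * N⌋₊ N 0 ≤ e * N := by
  set ε := e / (8 * α + 8) with hεdef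
  have hε : 0 < ε := by positivity
  set η := e / 4
  have hη : 0 < η := by positivity
  obtain ⟨c, L, hL, hcm, hcb, hcs⟩ := W.exists_slopes hε
  obtain ⟨Kc, hKc, hinc⟩ := Jt_increment W hε
  set K₀ := ⌈4 * Kc * α * (4 / Real.sqrt η + 3) / e⌉₊ + 1
  have hK : 0 < K₀ := Nat.succ_pos _
  set R := 2 * η + 2 * L * α with hRdef
  have hR0 : 0 ≤ R := by positivity
  set θ := min (e / 4) (1 / (8 * (2 + R))) with hθdef
  have hθ : 0 < θ := lt_min (by linarith) (by positivity)
  set δ := min (1 / 2) (θ / (6 * (2 * (2 + R) + 1)))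
  have hδ : 0 < δ := lt_min (by norm_num) (by positivity)
  filter_upwards [gridErr_eventually hα.le C (2 * η + 2 * L * α) η K₀ hη hK, eventually_gt_atTop 0,
    tendsto_natCast_atTop_atTop.eventually_ge_atTop (((kappa + 1) / δ) ^ 2),
    tendsto_natCast_atTop_atTop.eventually_ge_atTop (2 * Real.log 2 / θ)] with N hN hN0 hNk hNl
  set M := ⌊α * N⌋₊
  have hn : (0 : ℝ) < N := by exact_mod_cast hN0
  have hM : (M : ℝ) ≤ α * N := Nat.floor_le (by positivity)
  have hθ1 : θ * (8 * (2 + R)) ≤ 1 := by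
    rw [← le_div_iff₀ (by positivity)]; exact min_le_right _ _
  have hch : ∀ r : ℝ, 0 ≤ r → r ≤ 2 * (2 + R) → Jt U 0 N r ≤ N * (sphInfo r + θ) := fun r hr hrR => by
    refine (Jt_empty_le W hδ (min_le_left _ _) hr hN0 hNk).trans ?_
    have h1 : 3 * δ * r ≤ θ / 2 := by
      calc 3 * δ * r ≤ 3 * (θ / (6 * (2 * (2 + R) + 1))) * (2 * (2 + R) + 1) :=
            mul_le_mul (mul_le_mul_of_nonneg_left (min_le_right _ _) (by norm_num)) (by linarith) hr (by positivity)
        _ = θ / 2 := by field_simp; ring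
    have h2 := mul_le_mul_of_nonneg_left h1 hn.le
    rw [div_le_iff₀ hθ] at hNl
    linarith
  have h := Jt_upper W hN0 hM hcond hcm hcb hcs hKc hinc hη hK hθ1 hch
  have hθN : θ * N ≤ e / 4 * N := mul_le_mul_of_nonneg_right (min_le_left _ _) hn.le
  have hK' : (0 : ℝ) < K₀ := by exact_mod_cast hK
  have hKb : 4 * Kc * α * (4 / Real.sqrt η + 3) ≤ e * K₀ := by
    have := Nat.le_ceil (4 * Kc * α * (4 / Real.sqrt η + 3) / e)
    rw [div_le_iff₀ he] at this
    have e1 : (K₀ : ℝ) = ⌈4 * Kc * α * (4 / Real.sqrt η + 3) / e⌉₊ + 1 := by simp [K₀]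
    rw [e1]
    linarith
  have h1 : Kc * (M * gridErr C M N (2 * η + 2 * L * α) η K₀) ≤ K₀ * (e / 4 * N) := by
    calc Kc * (M * gridErr C M N (2 * η + 2 * L * α) η K₀) ≤ Kc * (M * (4 / Real.sqrt η + 3)) := by gcongr
      _ ≤ Kc * (α * N * (4 / Real.sqrt η + 3)) := by gcongr
      _ = N * (4 * Kc * α * (4 / Real.sqrt η + 3)) / 4 := by ring
      _ ≤ N * (e * K₀) / 4 := by gcongr
      _ = _ := by ring
  have h2 : 2 * ε * M ≤ e / 4 * N := by
    calc 2 * ε * M ≤ 2 * ε * (α * N) := by gcongr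
      _ = e * (2 * α / (8 * α + 8)) * N := by simp only [hεdef]; field_simp
      _ ≤ e * (1 / 4) * N := by
        refine mul_le_mul_of_nonneg_right (mul_le_mul_of_nonneg_left ?_ he.le) hn.le
        rw [div_le_div_iff₀ (by positivity) (by norm_num)]; linarith
      _ = _ := by ring
  refine le_of_mul_le_mul_left (a := (K₀ : ℝ)) ?_ hK'
  have h3 := mul_le_mul_of_nonneg_left h2 hK'.le
  have h6 := mul_le_mul_of_nonneg_left hθN hK'.le
  have h4 : (K₀ : ℝ) * (η * N) = K₀ * (e / 4 * N) := rfl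
  have h5 : 0 ≤ (K₀ : ℝ) * (e * N) := by positivity
  linarith

lemma entropy_large (W : Wgt U C) (hα : 0 < α) {p : ℝ} (hp0 : 0 ≤ p) (hp1 : p < 1)
    (hbad : -(Real.log (1 - p) + p) / 2 < α * plantEnt U p) :
    ∃ e > 0, ∀ᶠ N : ℕ in atTop, e * N ≤ Jt U ⌊α * N⌋₊ N 0 := by
  have hp : p ∈ Ioo (0 : ℝ) 1 := by
    refine ⟨lt_of_le_of_ne hp0 fun h => ?_, hp1⟩
    rw [← h, W.plantEnt_zero] at hbad
    simp at hbad
  have hpI : p ∈ Icc (0 : ℝ) 1 := Ioo_subset_Icc_self hp
  obtain ⟨c, hc, hcs⟩ := W.exists_slope hp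
  set rs := 2 * c * α with hrs
  have hrs0 : 0 ≤ rs := by positivity
  set G := α * plantEnt U p - (rs * p / 2 - sphInfo rs)
  have hG : 0 < G := sub_pos.2 ((sphInfo_legendre_le hp1 hrs0).trans_lt hbad)
  set ε := G / (8 * α) with hεdef
  have hε : 0 < ε := by positivity
  set η := G / 16 with hηdef
  have hη : 0 < η := by positivity
  obtain ⟨Kc, hKc, hinc⟩ := Jt_increment W hε
  set Y := (Kc + c + 1) * α * (4 / Real.sqrt η + 4) with hY
  set K₀ := ⌈8 * Y / G⌉₊ + 1
  have hK : 0 < K₀ := Nat.succ_pos _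
  have hK' : (0 : ℝ) < K₀ := by exact_mod_cast hK
  have hKb : 8 * Y ≤ G * K₀ := by
    have := Nat.le_ceil (8 * Y / G)
    rw [div_le_iff₀ hG] at this
    have e1 : (K₀ : ℝ) = ⌈8 * Y / G⌉₊ + 1 := by simp [K₀]
    rw [e1]
    linarith
  set δ := η / (2 * (K₀ : ℝ))
  have hδ : 0 < δ := by positivity
  have hev : ∀ᶠ N : ℕ in atTop, max (2 * c / δ) (8 * (|plantEnt U p| + c + c) / G) ≤ (N : ℝ) :=
    tendsto_natCast_atTop_atTop.eventually_ge_atTop _
  refine ⟨G / 8, by positivity, ?_⟩
  filter_upwards [gridErr_eventually hα.le C (2 * η + 2 * c * α) η K₀ hη hK, eventually_gt_atTop 0, hev]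
    with N hN hN0 hN1
  set M := ⌊α * N⌋₊
  have hn : (0 : ℝ) < N := by exact_mod_cast hN0
  have hM : (M : ℝ) ≤ α * N := Nat.floor_le (by positivity)
  have hM' : α * N ≤ M + 1 := (Nat.lt_floor_add_one _).le
  obtain ⟨hNa, hNb⟩ := max_le_iff.1 hN1
  rw [div_le_iff₀ hδ] at hNa
  rw [div_le_iff₀ hG] at hNb
  have hδN : 2 * c / N ≤ η / (2 * K₀) := by rw [div_le_iff₀ hn]; linarith
  have h := Jt_lower W hN0 hM hpI hc hcs hKc hinc hη hK hδN
  have hterm : ∀ j ∈ Finset.range K₀, N * sphInfo rs - (η * N + c)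
      ≤ N * sphInfo (η + j * (2 * (η / (2 * (K₀ : ℝ)))) + 2 * c * M / N) := fun j hj => by
    set x := η + j * (2 * (η / (2 * (K₀ : ℝ)))) + 2 * c * M / N
    have hx0 : 0 ≤ x := by positivity
    have hx1 : rs - 2 * c / N ≤ x := by
      have : rs - 2 * c / N ≤ 2 * c * M / N := by
        rw [sub_le_iff_le_add, ← add_div, le_div_iff₀ hn, hrs]
        calc 2 * c * α * N = 2 * c * (α * N) := by ring
          _ ≤ 2 * c * (M + 1) := mul_le_mul_of_nonneg_left hM' (by positivity)
          _ = _ := by ring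
      have : 0 ≤ η + j * (2 * (η / (2 * (K₀ : ℝ)))) := by positivity
      simp only [x]; linarith
    rcases le_total rs x with hle | hle
    · have := mul_le_mul_of_nonneg_left (sphInfo_lip hrs0 hle).1 hn.le
      have : 0 ≤ η * N + c := by positivity
      linarith
    · have h1 := mul_le_mul_of_nonneg_left (sphInfo_lip hx0 hle).2 hn.le
      have h2 : (N : ℝ) * ((rs - x) / 2) ≤ c := by
        have h3 : rs - x ≤ 2 * c / N := by linarith
        calc (N : ℝ) * ((rs - x) / 2) ≤ N * (2 * c / N / 2) := by gcongr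
          _ = c := by field_simp
      have : 0 ≤ η * N := by positivity
      linarith
  have hsum := Finset.sum_le_sum hterm
  simp only [Finset.sum_const, Finset.card_range, nsmul_eq_mul] at hsum
  have hE : Kc * (M * gridErr C M N (2 * η + 2 * c * α) η K₀) + c * M ≤ K₀ * (G / 8 * N) := by
    have h0 : 0 ≤ 4 / Real.sqrt η := by positivity
    calc Kc * (M * gridErr C M N (2 * η + 2 * c * α) η K₀) + c * M
        ≤ Kc * (M * (4 / Real.sqrt η + 4)) + c * (M * (4 / Real.sqrt η + 4)) := by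
          refine add_le_add (by gcongr; linarith) (mul_le_mul_of_nonneg_left ?_ hc)
          exact le_mul_of_one_le_right (Nat.cast_nonneg M) (by linarith)
      _ ≤ (Kc + c + 1) * (α * N * (4 / Real.sqrt η + 4)) := by
          rw [← add_mul]
          exact mul_le_mul (by linarith) (mul_le_mul_of_nonneg_right hM (by linarith)) (by positivity) (by positivity)
      _ = N * Y := by simp only [hY]; ring
      _ ≤ N * (G * K₀ / 8) := by gcongr; linarith
      _ = _ := by ring
  have hA : (N : ℝ) * (G / 2) ≤ (M : ℝ) * (plantEnt U p - c * p - ε) + N * sphInfo rs - (η * N + c) - η * N := by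
    have h1 := mul_le_mul_of_nonneg_right hM' (W.plantEnt_nonneg hpI)
    have h2 := mul_le_mul_of_nonneg_left hM (show 0 ≤ c * p by positivity)
    have h3 : ε * M ≤ N * G / 8 := by
      calc ε * M ≤ ε * (α * N) := mul_le_mul_of_nonneg_left hM hε.le
        _ = _ := by simp only [hεdef]; field_simp
    have h4 : (N : ℝ) * G = N * (α * plantEnt U p) - c * p * (α * N) + N * sphInfo rs := by
      simp only [G, hrs]; ring
    have h5 : η * N = N * G / 16 := by simp only [hηdef]; ring
    have h6 : plantEnt U p + c ≤ N * G / 8 := by linarith [le_abs_self (plantEnt U p)]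
    have h7 : (M : ℝ) * (plantEnt U p - c * p - ε) = M * plantEnt U p - c * p * M - ε * M := by ring
    have h8 : (M + 1 : ℝ) * plantEnt U p = M * plantEnt U p + plantEnt U p := by ring
    have h9 : α * N * plantEnt U p = N * (α * plantEnt U p) := by ring
    have h10 : (0:ℝ) ≤ N * G := by positivity
    clear_value G ε η rs
    linarith
  refine le_of_mul_le_mul_left (a := (K₀ : ℝ)) ?_ hK'
  have h7 := mul_le_mul_of_nonneg_left hA hK'.le
  have h8 : 0 ≤ (K₀ : ℝ) * (G * N) := by positivity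
  linarith

/-- The annealed phase and its boundary. -/
theorem annealed_phase {f : ℝ → ℝ} (hf : Measurable f) (hfb : ∃ B, ∀ x, |f x| ≤ B) (hα : 0 < α) :
    ((∀ q : ℝ, 0 ≤ q → q < 1 → α * plantEnt (reweight f) q ≤ -(Real.log (1 - q) + q) / 2) →
        Tendsto (fun N => pressure α f N (sphereMeasure N)) atTop (𝓝 (α * annealedLog f))) ∧
      ((∃ q : ℝ, 0 ≤ q ∧ q < 1 ∧ -(Real.log (1 - q) + q) / 2 < α * plantEnt (reweight f) q) →
        ∃ ε > 0, ∀ᶠ N in atTop, pressure α f N (sphereMeasure N) + ε ≤ α * annealedLog f) := by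
  obtain ⟨B, hB⟩ := hfb
  have W := reweight_wgt hf hB
  set C := Real.exp (2 * B)
  set c := Real.log C + Real.log C
  have hc : 0 ≤ c := add_nonneg (Real.log_nonneg W.one_le) (Real.log_nonneg W.one_le)
  have hfl : Tendsto (fun N : ℕ => (⌊α * N⌋₊ : ℝ) / N * annealedLog f) atTop (𝓝 (α * annealedLog f)) :=
    (floor_div_tendsto hα.le).mul_const _
  have hp : ∀ N : ℕ, 0 < N → pressure α f N (sphereMeasure N)
      = (⌊α * N⌋₊ : ℝ) / N * annealedLog f + mZ (reweight f) ⌊α * N⌋₊ N / N := fun N hN => by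
    rw [pressure_eq hf hB α hN]; ring
  constructor
  · intro hcond
    refine Tendsto.congr' ((eventually_gt_atTop 0).mono fun N hN => (hp N hN).symm) ?_
    rw [← add_zero (α * annealedLog f)]
    refine hfl.add (tendsto_order.2 ⟨fun u hu => ?_, fun u hu => ?_⟩)
    · set e := -u with hedef
      have he : 0 < e := by simp only [e]; linarith
      set t := min (1 / (c + 1)) (e / (4 * ((α + 1) * (c ^ 2 + 1))))
      have ht : 0 < t := by positivity
      have htc : t * c ≤ 1 := by
        calc t * c ≤ 1 / (c + 1) * c := mul_le_mul_of_nonneg_right (min_le_left _ _) hc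
          _ ≤ 1 := by rw [div_mul_eq_mul_div, one_mul, div_le_one (by linarith)]; linarith
      filter_upwards [entropy_small W hα hcond (e := e * t / 4) (by positivity), eventually_gt_atTop 0] with N hN hN0
      have hn : (0 : ℝ) < N := by exact_mod_cast hN0
      have h := neg_mZ_le (a := ⌊α * N⌋₊) W ht htc hN0
      have h1 : Jt (reweight f) ⌊α * N⌋₊ N 0 / t ≤ e * N / 4 := by
        rw [div_le_iff₀ ht]; linarith
      have h2 : (⌊α * N⌋₊ : ℝ) * (t * c ^ 2) ≤ e * N / 4 := by
        calc (⌊α * N⌋₊ : ℝ) * (t * c ^ 2) ≤ (α + 1) * N * (e / (4 * ((α + 1) * (c ^ 2 + 1))) * (c ^ 2 + 1)) := by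
              refine mul_le_mul ((Nat.floor_le (by positivity)).trans ?_)
                (mul_le_mul (min_le_right _ _) (by linarith) (sq_nonneg _) (by positivity)) (by positivity) (by positivity)
              linarith
          _ = e * N / 4 := by field_simp
      rw [show u = -e by simp only [hedef]; ring, lt_div_iff₀ hn]
      have : 0 < e * N := by positivity
      linarith
    · filter_upwards [eventually_gt_atTop 0] with N hN0
      exact lt_of_le_of_lt (div_nonpos_of_nonpos_of_nonneg (mZ_nonpos W hN0) (Nat.cast_nonneg N)) hu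
  · rintro ⟨q, hq0, hq1, hbad⟩
    obtain ⟨e, he, hev⟩ := entropy_large W hα hq0 hq1 hbad
    set t := min (min (1 / (c + 1)) (1 / 2)) (e / (2 * ((α + 1) * (c ^ 2 + 1))))
    have ht : 0 < t := by positivity
    have ht1 : t ≤ 1 / 2 := (min_le_left _ _).trans (min_le_right _ _)
    have htc : t * c ≤ 1 := by
      calc t * c ≤ 1 / (c + 1) * c := mul_le_mul_of_nonneg_right ((min_le_left _ _).trans (min_le_left _ _)) hc
        _ ≤ 1 := by rw [div_mul_eq_mul_div, one_mul, div_le_one (by linarith)]; linarith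
    refine ⟨t * e / 4, by positivity, ?_⟩
    filter_upwards [hev, eventually_gt_atTop 0,
      hfl.eventually_le_const (show α * annealedLog f < α * annealedLog f + t * e / 4 from
        lt_add_of_pos_right _ (by positivity))] with N hN hN0 hN1
    have hn : (0 : ℝ) < N := by exact_mod_cast hN0
    have h := mZ_le (a := ⌊α * N⌋₊) W ht htc hN0
    have h2 : (⌊α * N⌋₊ : ℝ) * (t ^ 2 * c ^ 2) ≤ t * e * N / 2 := by
      calc (⌊α * N⌋₊ : ℝ) * (t ^ 2 * c ^ 2)
          ≤ (α + 1) * N * (t * (e / (2 * ((α + 1) * (c ^ 2 + 1)))) * (c ^ 2 + 1)) := by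
            refine mul_le_mul ((Nat.floor_le (by positivity)).trans (by linarith))
              (mul_le_mul ?_ (by linarith) (sq_nonneg _) (by positivity)) (by positivity) (by positivity)
            rw [sq]; exact mul_le_mul_of_nonneg_left (min_le_right _ _) ht.le
        _ = _ := by field_simp
    have h3 : mZ (reweight f) ⌊α * N⌋₊ N ≤ (1 - t) * mZ (reweight f) ⌊α * N⌋₊ N := by
      have := mul_nonpos_of_nonneg_of_nonpos ht.le (mZ_nonpos (a := ⌊α * N⌋₊) W hN0)
      linarith
    have h4 := mul_le_mul_of_nonneg_left hN ht.le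
    have h5 : mZ (reweight f) ⌊α * N⌋₊ N / N ≤ -(t * e / 2) := by
      rw [div_le_iff₀ hn]; linarith
    rw [hp N hN0]
    linarith

end Vale.Agent.P157.Sph
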