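import Vale.Agent.P157.SpherePlant.Base

/-!
Planting on the sphere: the likelihood ratio of the planted model with a Gaussian side channel,
its Gibbs averages, and the symmetry under reflections.
-/

open MeasureTheory ProbabilityTheory Filter Topology
open Vale.Agent.P157.Plant (Wgt ent)
open scoped BigOperators

namespace Vale.Agent.P157.Sph

/-- Patterns and side observation. -/
abbrev Dat (a N : ℕ) := (Fin a → Fin N → ℝ) × (Fin N → ℝ)

variable {a N : ℕ}

/-- The field of a pattern. -/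
noncomputable def fld (g : Fin N → ℝ) (b : Cfg N) : ℝ := ∑ i, g i * (sp b i / Real.sqrt N)

@[fun_prop]
lemma continuous_fld {X : Type*} [TopologicalSpace X] {gf : X → Fin N → ℝ} {bf : X → Cfg N}
    (hg : Continuous gf) (hb : Continuous bf) : Continuous fun x => fld (gf x) (bf x) :=
  continuous_finsetSum _ fun i _ => ((continuous_apply i).comp hg).mul (((continuous_sp i).comp hb).div_const _)

@[fun_prop]
lemma measurable_fld {X : Type*} [MeasurableSpace X] {gf : X → Fin N → ℝ} {bf : X → Cfg N}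
    (hg : Measurable gf) (hb : Measurable bf) : Measurable fun x => fld (gf x) (bf x) :=
  Finset.measurable_sum _ fun i _ => ((measurable_pi_apply i).comp hg).mul (((measurable_sp i).comp hb).div_const _)

/-- The overlap. -/
noncomputable def ovl (b b' : Cfg N) : ℝ := (∑ i, sp b i * sp b' i) / N

@[fun_prop]
lemma continuous_ovl {X : Type*} [TopologicalSpace X] {bf cf : X → Cfg N}
    (hb : Continuous bf) (hc : Continuous cf) : Continuous fun x => ovl (bf x) (cf x) :=
  (continuous_finsetSum _ fun i _ => ((continuous_sp i).comp hb).mul ((continuous_sp i).comp hc)).div_const _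

@[fun_prop]
lemma measurable_ovl {X : Type*} [MeasurableSpace X] {bf cf : X → Cfg N}
    (hb : Measurable bf) (hc : Measurable cf) : Measurable fun x => ovl (bf x) (cf x) :=
  (Finset.measurable_sum _ fun i _ => ((measurable_sp i).comp hb).mul ((measurable_sp i).comp hc)).div_const _

lemma abs_ovl_le (b b' : Cfg N) : |ovl b b'| ≤ 1 := by
  rw [ovl, abs_div, Nat.abs_cast]
  refine div_le_one_of_le₀ ((abs_dot_le b.1 b'.1).trans (le_of_eq ?_)) (Nat.cast_nonneg N)
  rw [b.2, b'.2, Real.mul_self_sqrt (Nat.cast_nonneg N)]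

lemma ovl_comm (b b' : Cfg N) : ovl b b' = ovl b' b := by
  unfold ovl; congr 1; exact Finset.sum_congr rfl fun i _ => mul_comm _ _

lemma ovl_xr (b b' s : Cfg N) : ovl (xr b s) (xr b' s) = ovl b b' := by
  unfold ovl; congr 1
  exact dot_refl_refl s b.1 b'.1

/-- The linear statistic of the side observation. -/
def lin (z : Fin N → ℝ) (b : Cfg N) : ℝ := ∑ i, z i * sp b i

@[fun_prop]
lemma continuous_lin {X : Type*} [TopologicalSpace X] {zf : X → Fin N → ℝ} {bf : X → Cfg N}
    (hz : Continuous zf) (hb : Continuous bf) : Continuous fun x => lin (zf x) (bf x) :=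
  continuous_finsetSum _ fun i _ => ((continuous_apply i).comp hz).mul ((continuous_sp i).comp hb)

@[fun_prop]
lemma measurable_lin {X : Type*} [MeasurableSpace X] {zf : X → Fin N → ℝ} {bf : X → Cfg N}
    (hz : Measurable zf) (hb : Measurable bf) : Measurable fun x => lin (zf x) (bf x) :=
  Finset.measurable_sum _ fun i _ => ((measurable_pi_apply i).comp hz).mul ((measurable_sp i).comp hb)

/-- The size of a side observation. -/
noncomputable def zlen (z : Fin N → ℝ) : ℝ := Real.sqrt N * Real.sqrt (sq2 z)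

lemma zlen_nonneg (z : Fin N → ℝ) : 0 ≤ zlen z := mul_nonneg (Real.sqrt_nonneg _) (Real.sqrt_nonneg _)

@[fun_prop]
lemma measurable_zlen : Measurable (zlen : (Fin N → ℝ) → ℝ) := by unfold zlen; fun_prop

lemma abs_lin_le (z : Fin N → ℝ) (b : Cfg N) : |lin z b| ≤ zlen z := by
  refine (abs_dot_le z b.1).trans (le_of_eq ?_)
  rw [b.2, zlen, mul_comm]

lemma abs_le_zlen (z : Fin N → ℝ) (i : Fin N) : |z i| ≤ zlen z := by
  refine (Real.abs_le_sqrt (Finset.single_le_sum (f := fun j => z j ^ 2) (fun _ _ => sq_nonneg _)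
    (Finset.mem_univ i))).trans (le_mul_of_one_le_left (Real.sqrt_nonneg _) ?_)
  rw [Real.one_le_sqrt]
  exact_mod_cast i.pos

/-- The pattern part of the weight. -/
noncomputable def patW (U : ℝ → ℝ) (g : Fin a → Fin N → ℝ) (b : Cfg N) : ℝ := ∏ c, U (fld (g c) b)

/-- The weight of a configuration. -/
noncomputable def wt (U : ℝ → ℝ) (r : ℝ) (d : Dat a N) (b : Cfg N) : ℝ :=
  patW U d.1 b * Real.exp (Real.sqrt r * lin d.2 b - r * N / 2)

/-- The likelihood ratio. -/
noncomputable def lik (U : ℝ → ℝ) (r : ℝ) (d : Dat a N) : ℝ := ∫ b, wt U r d b ∂prior N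

/-- Gibbs average. -/
noncomputable def av (U : ℝ → ℝ) (r : ℝ) (d : Dat a N) (h : Cfg N → ℝ) : ℝ :=
  (∫ b, wt U r d b * h b ∂prior N) / lik U r d

/-- The law of the data without planting. -/
noncomputable def nullM (a N : ℕ) : Measure (Dat a N) :=
  (Measure.pi fun _ : Fin a => gaussVec (Fin N)).prod (gaussVec (Fin N))

instance : IsProbabilityMeasure (nullM a N) := by unfold nullM; infer_instance

/-- The action of a reflection on data. -/
noncomputable def act (s : Cfg N) (d : Dat a N) : Dat a N := (fun c => refl s (d.1 c), refl s d.2)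

section

variable {U : ℝ → ℝ} {C : ℝ}

lemma patW_pos (W : Wgt U C) (g : Fin a → Fin N → ℝ) (b : Cfg N) : 0 < patW U g b :=
  Finset.prod_pos fun _ _ => W.pos _

lemma patW_le (W : Wgt U C) (g : Fin a → Fin N → ℝ) (b : Cfg N) : patW U g b ≤ C ^ a :=
  (Finset.prod_le_prod (fun _ _ => (W.pos _).le) fun _ _ => W.hi _).trans (by simp)

lemma le_patW (W : Wgt U C) (g : Fin a → Fin N → ℝ) (b : Cfg N) : (C⁻¹) ^ a ≤ patW U g b :=
  le_trans (by simp) (Finset.prod_le_prod (fun _ _ => (inv_pos.2 W.C_pos).le) fun _ _ => W.lo _)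

lemma measurable_patW (W : Wgt U C) {X : Type*} [MeasurableSpace X] {gf : X → Fin a → Fin N → ℝ}
    {bf : X → Cfg N} (hg : Measurable gf) (hb : Measurable bf) :
    Measurable fun x => patW U (gf x) (bf x) :=
  Finset.measurable_prod _ fun c _ => W.meas.comp (measurable_fld ((measurable_pi_apply c).comp hg) hb)

lemma measurable_wt (W : Wgt U C) (r : ℝ) {X : Type*} [MeasurableSpace X] {df : X → Dat a N}
    {bf : X → Cfg N} (hd : Measurable df) (hb : Measurable bf) :
    Measurable fun x => wt U r (df x) (bf x) :=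
  (measurable_patW W (measurable_fst.comp hd) hb).mul
    ((((measurable_lin (measurable_snd.comp hd) hb)).const_mul _).sub_const _).exp

lemma wt_pos (W : Wgt U C) (r : ℝ) (d : Dat a N) (b : Cfg N) : 0 < wt U r d b :=
  mul_pos (patW_pos W _ _) (Real.exp_pos _)

/-- An upper bound for the weights. -/
noncomputable def wHi (C r : ℝ) (a N : ℕ) (S : ℝ) : ℝ :=
  C ^ a * Real.exp (Real.sqrt r * S - r * N / 2)

lemma wt_le (W : Wgt U C) (r : ℝ) (d : Dat a N) (b : Cfg N) : wt U r d b ≤ wHi C r a N (zlen d.2) := by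
  refine mul_le_mul (patW_le W _ _) (Real.exp_le_exp.2 ?_) (Real.exp_pos _).le (pow_nonneg W.C_pos.le _)
  have := mul_le_mul_of_nonneg_left ((le_abs_self _).trans (abs_lin_le d.2 b)) (Real.sqrt_nonneg r)
  linarith

lemma le_wt (W : Wgt U C) (r : ℝ) (d : Dat a N) (b : Cfg N) :
    (C⁻¹) ^ a * Real.exp (-(Real.sqrt r * zlen d.2) - r * N / 2) ≤ wt U r d b := by
  refine mul_le_mul (le_patW W _ _) (Real.exp_le_exp.2 ?_) (Real.exp_pos _).le (patW_pos W _ _).le
  have := mul_le_mul_of_nonneg_left ((neg_le_abs _).trans (abs_lin_le d.2 b)) (Real.sqrt_nonneg r)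
  linarith [mul_neg (Real.sqrt r) (lin d.2 b)]

lemma bd_wt (W : Wgt U C) (r : ℝ) (d : Dat a N) : Bd (wt U r d) :=
  Bd.of (measurable_wt W r (df := fun _ => d) measurable_const measurable_id) fun b => by
    rw [abs_of_pos (wt_pos W r d b)]; exact wt_le W r d b

lemma integrable_wt (W : Wgt U C) (r : ℝ) (d : Dat a N) {h : Cfg N → ℝ} (hh : Bd h) :
    Integrable (fun b => wt U r d b * h b) (prior N) :=
  ((bd_wt W r d).mul hh).integrable _

lemma le_lik (W : Wgt U C) (r : ℝ) (d : Dat a N) :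
    (C⁻¹) ^ a * Real.exp (-(Real.sqrt r * zlen d.2) - r * N / 2) ≤ lik U r d := by
  simpa [lik] using integral_mono (integrable_const ((C⁻¹) ^ a * Real.exp (-(Real.sqrt r * zlen d.2) - r * N / 2)))
    ((bd_wt W r d).integrable (prior N)) fun b => le_wt W r d b

lemma lik_le (W : Wgt U C) (r : ℝ) (d : Dat a N) : lik U r d ≤ wHi C r a N (zlen d.2) := by
  simpa [lik] using integral_mono ((bd_wt W r d).integrable (prior N))
    (integrable_const (wHi C r a N (zlen d.2))) fun b => wt_le W r d b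

lemma lik_pos (W : Wgt U C) (r : ℝ) (d : Dat a N) : 0 < lik U r d :=
  lt_of_lt_of_le (by have := W.C_pos; positivity) (le_lik W r d)

lemma abs_log_lik_le (W : Wgt U C) (r : ℝ) (d : Dat a N) :
    |Real.log (lik U r d)| ≤ a * Real.log C + Real.sqrt r * zlen d.2 + |r| * N / 2 := by
  have h1 := Real.log_le_log (lik_pos W r d) (lik_le W r d)
  have h2 := Real.log_le_log (by have := W.C_pos; positivity) (le_lik W r d)
  rw [wHi, Real.log_mul (pow_ne_zero _ W.C_pos.ne') (Real.exp_ne_zero _), Real.log_pow, Real.log_exp] at h1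
  rw [Real.log_mul (pow_ne_zero _ (inv_ne_zero W.C_pos.ne')) (Real.exp_ne_zero _), Real.log_pow,
    Real.log_inv, Real.log_exp] at h2
  have hn : (0 : ℝ) ≤ N := N.cast_nonneg
  have hr1 := mul_le_mul_of_nonneg_right (neg_le_abs r) hn
  have hr2 := mul_le_mul_of_nonneg_right (le_abs_self r) hn
  rw [abs_le]
  constructor <;> linarith

lemma av_const (W : Wgt U C) (r : ℝ) (d : Dat a N) (x : ℝ) : av U r d (fun _ => x) = x := by
  unfold av
  rw [integral_mul_const, show (∫ b, wt U r d b ∂prior N) = lik U r d from rfl,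
    mul_div_cancel_left₀ _ (lik_pos W r d).ne']

lemma av_add (W : Wgt U C) (r : ℝ) (d : Dat a N) {h k : Cfg N → ℝ} (hh : Bd h) (hk : Bd k) :
    av U r d (fun b => h b + k b) = av U r d h + av U r d k := by
  unfold av
  rw [← add_div, ← integral_add (integrable_wt W r d hh) (integrable_wt W r d hk)]
  simp only [mul_add]

lemma av_sub (W : Wgt U C) (r : ℝ) (d : Dat a N) {h k : Cfg N → ℝ} (hh : Bd h) (hk : Bd k) :
    av U r d (fun b => h b - k b) = av U r d h - av U r d k := by
  unfold av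
  rw [← sub_div, ← integral_sub (integrable_wt W r d hh) (integrable_wt W r d hk)]
  simp only [mul_sub]

lemma av_mul (r : ℝ) (d : Dat a N) (x : ℝ) (h : Cfg N → ℝ) :
    av U r d (fun b => x * h b) = x * av U r d h := by
  unfold av
  rw [← mul_div_assoc, ← integral_const_mul]
  congr 1
  exact integral_congr_ae (ae_of_all _ fun b => mul_left_comm _ _ _)

lemma av_mul_right (r : ℝ) (d : Dat a N) (x : ℝ) (h : Cfg N → ℝ) :
    av U r d (fun b => h b * x) = av U r d h * x := by
  simp_rw [mul_comm _ x]; exact av_mul r d x h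

lemma av_finsum (W : Wgt U C) {ι : Type*} (s : Finset ι) (r : ℝ) (d : Dat a N) {h : ι → Cfg N → ℝ}
    (hh : ∀ j ∈ s, Bd (h j)) : av U r d (fun b => ∑ j ∈ s, h j b) = ∑ j ∈ s, av U r d (h j) := by
  unfold av
  rw [← Finset.sum_div, ← integral_finsetSum _ fun j hj => integrable_wt W r d (hh j hj)]
  simp only [Finset.mul_sum]

lemma av_mono (W : Wgt U C) (r : ℝ) (d : Dat a N) {h k : Cfg N → ℝ} (hh : Bd h) (hk : Bd k)
    (hhk : ∀ b, h b ≤ k b) : av U r d h ≤ av U r d k :=
  div_le_div_of_nonneg_right (integral_mono (integrable_wt W r d hh) (integrable_wt W r d hk)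
    fun b => mul_le_mul_of_nonneg_left (hhk b) (wt_pos W r d b).le) (lik_pos W r d).le

lemma av_nonneg (W : Wgt U C) (r : ℝ) (d : Dat a N) {h : Cfg N → ℝ} (hh : ∀ b, 0 ≤ h b) :
    0 ≤ av U r d h :=
  div_nonneg (integral_nonneg fun b => mul_nonneg (wt_pos W r d b).le (hh b)) (lik_pos W r d).le

lemma abs_av_le (W : Wgt U C) (r : ℝ) (d : Dat a N) {h : Cfg N → ℝ} {B : ℝ} (hb : ∀ b, |h b| ≤ B) :
    |av U r d h| ≤ B := by
  rw [av, abs_div, abs_of_pos (lik_pos W r d), div_le_iff₀ (lik_pos W r d), lik, ← integral_const_mul]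
  refine abs_integral_le_integral_abs.trans (integral_mono_of_nonneg (ae_of_all _ fun b => abs_nonneg _)
    (((bd_wt W r d).integrable _).const_mul B) (ae_of_all _ fun b => ?_))
  dsimp only
  rw [abs_mul, abs_of_pos (wt_pos W r d b), mul_comm B]
  exact mul_le_mul_of_nonneg_left (hb b) (wt_pos W r d b).le

lemma lik_mul_av (W : Wgt U C) (r : ℝ) (d : Dat a N) (h : Cfg N → ℝ) :
    lik U r d * av U r d h = ∫ b, wt U r d b * h b ∂prior N :=
  mul_div_cancel₀ _ (lik_pos W r d).ne'

lemma fld_act (g : Fin N → ℝ) (s b : Cfg N) : fld (refl s g) b = fld g (xr b s) := by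
  have e : ∀ (v : Fin N → ℝ) (c : Cfg N), fld v c = dot v c.1 / Real.sqrt N := fun v c => by
    simp only [fld, dot, sp, Finset.sum_div]
    exact Finset.sum_congr rfl fun i _ => (mul_div_assoc _ _ _).symm
  rw [e, e, dot_refl]
  rfl

lemma lin_act (z : Fin N → ℝ) (s b : Cfg N) : lin (refl s z) b = lin z (xr b s) := dot_refl s z b.1

lemma wt_act (r : ℝ) (s : Cfg N) (d : Dat a N) (b : Cfg N) : wt U r (act s d) b = wt U r d (xr b s) := by
  unfold wt patW act
  simp only [fld_act, lin_act]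

lemma lik_act (W : Wgt U C) (r : ℝ) (s : Cfg N) (d : Dat a N) : lik U r (act s d) = lik U r d := by
  unfold lik
  simp_rw [wt_act]
  exact integral_xr s (bd_wt W r d).1

lemma av_act (W : Wgt U C) (r : ℝ) (s : Cfg N) (d : Dat a N) {h : Cfg N → ℝ} (hh : Bd h) :
    av U r (act s d) (fun b => h (xr b s)) = av U r d h := by
  unfold av
  rw [lik_act W]
  simp_rw [wt_act]
  rw [integral_xr s (h := fun b => wt U r d b * h b) ((bd_wt W r d).mul hh).1]

lemma measurable_act (s : Cfg N) : Measurable (act (a := a) s) := by unfold act; fun_prop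

lemma map_act (s : Cfg N) : (nullM a N).map (act s) = nullM a N := by
  have h2 : (Measure.pi fun _ : Fin a => gaussVec (Fin N)).map (fun g c => refl s (g c))
      = Measure.pi fun _ : Fin a => gaussVec (Fin N) := by
    have := Measure.pi_map_pi (μ := fun _ : Fin a => gaussVec (Fin N))
      (f := fun _ => refl s) (fun _ => (measurable_refl s).aemeasurable)
    simpa [map_refl] using this
  have : act (a := a) s = Prod.map (fun g c => refl s (g c)) (refl s) := rfl
  rw [this, nullM, ← Measure.map_prod_map _ _ (by fun_prop) (by fun_prop), map_refl, h2]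

lemma sq2_add_sqrt (v w : Fin N → ℝ) :
    Real.sqrt (sq2 (fun i => v i + w i)) ≤ Real.sqrt (sq2 v) + Real.sqrt (sq2 w) := by
  rw [Real.sqrt_le_iff]
  refine ⟨by positivity, ?_⟩
  have e : sq2 (fun i => v i + w i) = sq2 v + 2 * dot v w + sq2 w := by
    simp only [sq2, dot, Finset.mul_sum, ← Finset.sum_add_distrib]
    exact Finset.sum_congr rfl fun i _ => by ring
  nlinarith [abs_dot_le v w, le_abs_self (dot v w), Real.mul_self_sqrt (sq2_nonneg v),
    Real.mul_self_sqrt (sq2_nonneg w)]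

lemma zlen_le_absSum (z : Fin N → ℝ) : zlen z ≤ Real.sqrt N * Plant.absSum z := by
  refine mul_le_mul_of_nonneg_left ?_ (Real.sqrt_nonneg _)
  rw [Real.sqrt_le_iff]
  refine ⟨Plant.absSum_nonneg z, ?_⟩
  have := Finset.sum_sq_le_sq_sum_of_nonneg (s := Finset.univ) (f := fun i => |z i|) fun i _ => abs_nonneg _
  simpa [sq2, Plant.absSum] using this

lemma integrable_exp_zlen (c : ℝ) :
    Integrable (fun z : Fin N → ℝ => Real.exp (c * zlen z)) (gaussVec (Fin N)) := by
  refine (Plant.integrable_exp_absSum (|c| * Real.sqrt N)).mono' (Measurable.aestronglyMeasurable (by fun_prop))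
    (ae_of_all _ fun z => ?_)
  rw [Real.norm_eq_abs, Real.abs_exp, Real.exp_le_exp, mul_assoc]
  exact (mul_le_mul_of_nonneg_right (le_abs_self c) (zlen_nonneg z)).trans
    (mul_le_mul_of_nonneg_left (zlen_le_absSum z) (abs_nonneg c))

/-- Functions growing at most exponentially in the side observation. -/
def Gd (F : Dat a N → ℝ) : Prop :=
  Measurable F ∧ ∃ K c : ℝ, 0 ≤ K ∧ 0 ≤ c ∧ ∀ d, |F d| ≤ K * Real.exp (c * zlen d.2)

lemma Gd.integrable {F : Dat a N → ℝ} (hF : Gd F) : Integrable F (nullM a N) := by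
  obtain ⟨hm, K, c, hK, hc, hb⟩ := hF
  refine Integrable.mono' (g := fun d => K * Real.exp (c * zlen d.2))
    ((Integrable.comp_snd (integrable_exp_zlen c) _).const_mul K) hm.aestronglyMeasurable
    (ae_of_all _ fun d => by simpa using hb d)

lemma Gd.slice {F : Dat a N → ℝ} (hF : Gd F) (g : Fin a → Fin N → ℝ) :
    Integrable (fun z => F (g, z)) (gaussVec (Fin N)) := by
  obtain ⟨hm, K, c, hK, hc, hb⟩ := hF
  exact ((integrable_exp_zlen c).const_mul K).mono' (hm.comp measurable_prodMk_left).aestronglyMeasurable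
    (ae_of_all _ fun z => hb (g, z))

lemma Gd.const (x : ℝ) : Gd (fun _ : Dat a N => x) :=
  ⟨measurable_const, |x|, 0, abs_nonneg x, le_rfl, fun d => by simp⟩

lemma Gd.of_bdd {F : Dat a N → ℝ} (hm : Measurable F) {B : ℝ} (hb : ∀ d, |F d| ≤ B) : Gd F :=
  ⟨hm, |B|, 0, abs_nonneg B, le_rfl, fun d => by simpa using (hb d).trans (le_abs_self B)⟩

lemma Gd.mul {F G : Dat a N → ℝ} (hF : Gd F) (hG : Gd G) : Gd (fun d => F d * G d) := by
  obtain ⟨hm, K, c, hK, hc, hb⟩ := hF
  obtain ⟨hm', K', c', hK', hc', hb'⟩ := hG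
  refine ⟨hm.mul hm', K * K', c + c', by positivity, by linarith, fun d => ?_⟩
  rw [abs_mul, add_mul, Real.exp_add, mul_mul_mul_comm]
  exact mul_le_mul (hb d) (hb' d) (abs_nonneg _) (by positivity)

lemma Gd.add {F G : Dat a N → ℝ} (hF : Gd F) (hG : Gd G) : Gd (fun d => F d + G d) := by
  obtain ⟨hm, K, c, hK, hc, hb⟩ := hF
  obtain ⟨hm', K', c', hK', hc', hb'⟩ := hG
  refine ⟨hm.add hm', K + K', c + c', by positivity, by linarith, fun d => ?_⟩
  have hS := zlen_nonneg d.2
  refine (abs_add_le _ _).trans ?_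
  rw [add_mul]
  refine add_le_add ((hb d).trans ?_) ((hb' d).trans ?_)
  all_goals
    refine mul_le_mul_of_nonneg_left (Real.exp_le_exp.2 ?_) (by assumption)
    nlinarith

lemma Gd.neg {F : Dat a N → ℝ} (hF : Gd F) : Gd (fun d => -F d) := by
  obtain ⟨hm, K, c, hK, hc, hb⟩ := hF
  exact ⟨hm.neg, K, c, hK, hc, fun d => by simpa using hb d⟩

lemma Gd.sub {F G : Dat a N → ℝ} (hF : Gd F) (hG : Gd G) : Gd (fun d => F d - G d) := by
  simpa [sub_eq_add_neg] using hF.add hG.neg

lemma Gd.abs {F : Dat a N → ℝ} (hF : Gd F) : Gd (fun d => |F d|) := by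
  obtain ⟨hm, K, c, hK, hc, hb⟩ := hF
  exact ⟨hm.abs, K, c, hK, hc, fun d => by rw [abs_abs]; exact hb d⟩

lemma Gd.zlen_snd : Gd (fun d : Dat a N => zlen d.2) :=
  ⟨by fun_prop, 1, 1, zero_le_one, zero_le_one, fun d => by
    rw [abs_of_nonneg (zlen_nonneg _), one_mul, one_mul]
    linarith [Real.add_one_le_exp (zlen d.2)]⟩

/-- Functions of data and configuration growing at most exponentially in the side observation. -/
def Gd2 (H : Dat a N → Cfg N → ℝ) : Prop :=
  (Measurable fun p : Dat a N × Cfg N => H p.1 p.2) ∧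
    ∃ K c : ℝ, 0 ≤ K ∧ 0 ≤ c ∧ ∀ d b, |H d b| ≤ K * Real.exp (c * zlen d.2)

lemma Gd2.of_bdd {H : Dat a N → Cfg N → ℝ} (hm : Measurable fun p : Dat a N × Cfg N => H p.1 p.2) {B : ℝ}
    (hb : ∀ d b, |H d b| ≤ B) : Gd2 H :=
  ⟨hm, |B|, 0, abs_nonneg B, le_rfl, fun d b => by simpa using (hb d b).trans (le_abs_self B)⟩

lemma Gd2.of_dom {H : Dat a N → Cfg N → ℝ} (hm : Measurable fun p : Dat a N × Cfg N => H p.1 p.2)
    {F : Dat a N → ℝ} (hF : Gd F) (hb : ∀ d b, |H d b| ≤ F d) : Gd2 H := by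
  obtain ⟨-, K, c, hK, hc, hbF⟩ := hF
  exact ⟨hm, K, c, hK, hc, fun d b => (hb d b).trans ((le_abs_self _).trans (hbF d))⟩

lemma Gd2.mul {H G : Dat a N → Cfg N → ℝ} (hH : Gd2 H) (hG : Gd2 G) : Gd2 (fun d b => H d b * G d b) := by
  obtain ⟨hm, K, c, hK, hc, hb⟩ := hH
  obtain ⟨hm', K', c', hK', hc', hb'⟩ := hG
  refine ⟨hm.mul hm', K * K', c + c', by positivity, by linarith, fun d b => ?_⟩
  rw [abs_mul, add_mul, Real.exp_add, mul_mul_mul_comm]
  exact mul_le_mul (hb d b) (hb' d b) (abs_nonneg _) (by positivity)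

lemma Gd2.slice {H : Dat a N → Cfg N → ℝ} (hH : Gd2 H) (d : Dat a N) : Bd (H d) := by
  obtain ⟨hm, K, c, hK, hc, hb⟩ := hH
  exact ⟨hm.comp measurable_prodMk_left, _, hb d⟩

lemma Gd2.fix {H : Dat a N → Cfg N → ℝ} (hH : Gd2 H) (b : Cfg N) : Gd (fun d => H d b) := by
  obtain ⟨hm, K, c, hK, hc, hb⟩ := hH
  exact ⟨hm.comp measurable_prodMk_right, K, c, hK, hc, fun d => hb d b⟩

lemma Gd2.integral {H : Dat a N → Cfg N → ℝ} (hH : Gd2 H) : Gd (fun d => ∫ b, H d b ∂prior N) := by
  obtain ⟨hm, K, c, hK, hc, hb⟩ := hH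
  refine ⟨(StronglyMeasurable.integral_prod_right (f := fun d b => H d b) hm.stronglyMeasurable).measurable,
    K, c, hK, hc, fun d => ?_⟩
  simpa using norm_integral_le_of_norm_le_const (μ := prior N) (f := fun b => H d b) (ae_of_all _ fun b => hb d b)

lemma Gd2.swap {H : Dat a N → Cfg N → ℝ} (hH : Gd2 H) :
    ∫ d, ∫ b, H d b ∂prior N ∂nullM a N = ∫ b, ∫ d, H d b ∂nullM a N ∂prior N := by
  obtain ⟨hm, K, c, hK, hc, hb⟩ := hH
  refine integral_integral_swap ?_
  refine Integrable.mono' (g := fun p : Dat a N × Cfg N => K * Real.exp (c * zlen p.1.2))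
    (((Integrable.comp_snd (integrable_exp_zlen c) (Measure.pi fun _ : Fin a => gaussVec (Fin N))).comp_fst
      (prior N)).const_mul K) hm.aestronglyMeasurable (ae_of_all _ fun p => hb p.1 p.2)

lemma gd2_wt (W : Wgt U C) (r : ℝ) : Gd2 (wt U r : Dat a N → Cfg N → ℝ) := by
  refine ⟨measurable_wt W r measurable_fst measurable_snd, C ^ a * Real.exp (-(r * N / 2)), Real.sqrt r,
    by have := W.C_pos; positivity, Real.sqrt_nonneg r, fun d b => ?_⟩
  rw [abs_of_pos (wt_pos W r d b)]
  refine (wt_le W r d b).trans (le_of_eq ?_)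
  rw [wHi, mul_assoc, ← Real.exp_add]
  ring_nf

lemma gd_wt (W : Wgt U C) (r : ℝ) (b : Cfg N) : Gd (fun d : Dat a N => wt U r d b) := (gd2_wt W r).fix b

lemma gd_lik (W : Wgt U C) (r : ℝ) : Gd (fun d : Dat a N => lik U r d) := (gd2_wt W r).integral

lemma measurable_lik (W : Wgt U C) (r : ℝ) : Measurable fun d : Dat a N => lik U r d := (gd_lik W r).1

lemma gd_log_lik (W : Wgt U C) (r : ℝ) : Gd (fun d : Dat a N => Real.log (lik U r d)) := by
  refine ⟨(measurable_lik W r).log, a * Real.log C + |r| * N / 2 + Real.sqrt r, 1, ?_, zero_le_one, fun d => ?_⟩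
  · have := Real.log_nonneg W.one_le; positivity
  · refine (abs_log_lik_le W r d).trans ?_
    have hE : zlen d.2 ≤ Real.exp (1 * zlen d.2) := by linarith [Real.add_one_le_exp (1 * zlen d.2)]
    have hE1 : 1 ≤ Real.exp (1 * zlen d.2) := Real.one_le_exp (by linarith [zlen_nonneg d.2])
    have h1 := mul_le_mul_of_nonneg_left hE (Real.sqrt_nonneg r)
    have hl : 0 ≤ a * Real.log C + |r| * N / 2 := by
      have := Real.log_nonneg W.one_le; positivity
    have h2 := mul_le_mul_of_nonneg_left hE1 hl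
    linarith

lemma measurable_av (W : Wgt U C) (r : ℝ) {X : Type*} [MeasurableSpace X] {df : X → Dat a N}
    (hd : Measurable df) {h : X → Cfg N → ℝ} (hh : Measurable fun p : X × Cfg N => h p.1 p.2) :
    Measurable fun x => av U r (df x) (h x) :=
  (StronglyMeasurable.integral_prod_right (f := fun x b => wt U r (df x) b * h x b)
    ((measurable_wt W r (hd.comp measurable_fst) measurable_snd).mul hh).stronglyMeasurable).measurable.div
    ((measurable_lik W r).comp hd)

lemma measurable_av_const (W : Wgt U C) (r : ℝ) {k : Cfg N → ℝ} (hk : Measurable k) :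
    Measurable fun d : Dat a N => av U r d k :=
  measurable_av W r measurable_id (h := fun _ => k) (hk.comp measurable_snd)

lemma gd_av_const (W : Wgt U C) (r : ℝ) {k : Cfg N → ℝ} (hk : Bd k) :
    Gd fun d : Dat a N => av U r d k := by
  obtain ⟨hm, B, hB⟩ := hk
  exact Gd.of_bdd (measurable_av_const W r hm) fun d => abs_av_le W r d hB

lemma Gd2.av {H : Dat a N → Cfg N → ℝ} (hH : Gd2 H) (W : Wgt U C) (r : ℝ) :
    Gd fun d : Dat a N => Sph.av U r d (H d) := by
  obtain ⟨hm, K, c, hK, hc, hb⟩ := hH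
  exact ⟨measurable_av W r measurable_id hm, K, c, hK, hc, fun d => abs_av_le W r d (hb d)⟩

lemma gd_av (W : Wgt U C) (r : ℝ) {h : Dat a N → Cfg N → ℝ}
    (hh : Measurable fun p : Dat a N × Cfg N => h p.1 p.2) {B : ℝ} (hb : ∀ d b, |h d b| ≤ B) :
    Gd (fun d : Dat a N => Sph.av U r d (h d)) :=
  (Gd2.of_bdd hh hb).av W r

/-- Gibbs averages of a function of the overlap, as a function of the other configuration. -/
lemma gd2_ovl (W : Wgt U C) (r : ℝ) {k : ℝ → ℝ} (hk : Continuous k) :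
    Gd2 fun (d : Dat a N) b => Sph.av U r d fun b' => k (ovl b b') := by
  obtain ⟨B, hB⟩ := (isCompact_Icc (a := (-1 : ℝ)) (b := 1)).exists_bound_of_continuousOn hk.continuousOn
  refine Gd2.of_bdd (measurable_av W r measurable_fst
    (h := fun (p : Dat a N × Cfg N) b' => k (ovl p.2 b')) (hk.measurable.comp (by fun_prop))) fun d b =>
    abs_av_le W r d fun b' => hB _ (abs_le.1 (abs_ovl_le b b'))

lemma bd_av_ovl (W : Wgt U C) (r : ℝ) (d : Dat a N) {k : ℝ → ℝ} (hk : Continuous k) :
    Bd fun b => Sph.av U r d fun b' => k (ovl b b') := (gd2_ovl W r hk).slice d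

/-- Planting one configuration equals averaging with the Gibbs measure. -/
lemma planted_eq (W : Wgt U C) (r : ℝ) {H : Dat a N → Cfg N → ℝ} (hg : Gd2 H)
    (hinv : ∀ s d b, H (act s d) b = H d (xr b s)) :
    ∫ d, wt U r d (ones N) * H d (ones N) ∂nullM a N = ∫ d, lik U r d * Sph.av U r d (H d) ∂nullM a N := by
  have hg' := (gd2_wt W r).mul hg
  have hb : ∀ b, ∫ d, wt U r d b * H d b ∂nullM a N
      = ∫ d, wt U r d (ones N) * H d (ones N) ∂nullM a N := fun b => by
    conv_lhs => rw [← map_act b]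
    rw [integral_map (measurable_act b).aemeasurable (hg'.fix b).1.aestronglyMeasurable]
    refine integral_congr_ae (ae_of_all _ fun d => ?_)
    simp only [wt_act, hinv, xr_self]
  simp_rw [lik_mul_av W]
  rw [hg'.swap]
  simp_rw [hb]
  simp

lemma planted_eq' (W : Wgt U C) (r : ℝ) {F : Dat a N → ℝ} (hg : Gd F) (hinv : ∀ s d, F (act s d) = F d) :
    ∫ d, wt U r d (ones N) * F d ∂nullM a N = ∫ d, lik U r d * F d ∂nullM a N := by
  rw [planted_eq W r (H := fun d _ => F d) (Gd2.of_dom (hg.1.comp measurable_fst) hg.abs fun _ _ => le_rfl)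
    fun s d _ => hinv s d]
  simp_rw [av_const W]

end

/-- The total entropy. -/
noncomputable def Jt (U : ℝ → ℝ) (a N : ℕ) (r : ℝ) : ℝ :=
  ∫ d, ent (lik U r d) ∂nullM a N

/-- The mean overlap. -/
noncomputable def qv (U : ℝ → ℝ) (a N : ℕ) (r : ℝ) : ℝ :=
  ∫ d, lik U r d * av U r d (fun b => av U r d (fun b' => ovl b b')) ∂nullM a N

/-- The mean squared fluctuation of the overlap. -/
noncomputable def vr (U : ℝ → ℝ) (a N : ℕ) (r : ℝ) : ℝ :=
  ∫ d, lik U r d * av U r d (fun b => av U r d (fun b' => (ovl b b' - qv U a N r) ^ 2)) ∂nullM a N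

section

variable {U : ℝ → ℝ} {C : ℝ}

lemma Jt_eq_planted (W : Wgt U C) (r : ℝ) :
    Jt U a N r = ∫ d, wt U r d (ones N) * Real.log (lik U r d) ∂nullM a N := by
  rw [planted_eq' W r (gd_log_lik W r) fun s d => by rw [lik_act W]]
  rfl

lemma pair_planted (W : Wgt U C) (r : ℝ) {k : ℝ → ℝ} (hk : Continuous k) :
    ∫ d, wt U r d (ones N) * av U r d (fun b' => k (ovl (ones N) b')) ∂nullM a N
      = ∫ d, lik U r d * av U r d (fun b => av U r d (fun b' => k (ovl b b'))) ∂nullM a N := by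
  refine planted_eq W r (H := fun d b => av U r d (fun b' => k (ovl b b'))) (gd2_ovl W r hk) fun s d b => ?_
  rw [← av_act W r s d (h := fun b' => k (ovl (xr b s) b')) (Bd.cont (by fun_prop))]
  congr 1
  funext b'
  rw [ovl_xr]

end

end Vale.Agent.P157.Sph
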