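import Vale.Agent.P157.SpherePlant.Empty

/-!
The planted entropy on the sphere along discrete paths of the signal strength.
-/

open MeasureTheory ProbabilityTheory Filter Topology Set
open Vale.Agent.P157.Plant (Wgt ent plantEnt)
open scoped BigOperators

namespace Vale.Agent.P157.Sph

variable {a N : ℕ} {U : ℝ → ℝ} {C : ℝ}

lemma vr_nonneg (W : Wgt U C) (r : ℝ) : 0 ≤ vr U a N r :=
  integral_nonneg fun d => mul_nonneg (lik_pos W r d).le
    (av_nonneg W r d fun b => av_nonneg W r d fun b' => sq_nonneg _)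

/-- The error per pattern, summed over the grid. -/
noncomputable def gridErr (C : ℝ) (M N : ℕ) (R η : ℝ) (K₀ : ℕ) : ℝ :=
  K₀ * ((8 * Real.log 2 + 96 * Real.sqrt (N * (R + η)) + 32 * Real.sqrt (M * Real.log C ^ 2))
      / (N * (η / (2 * K₀))) + 8 * (η / (2 * K₀)) / (η * Real.sqrt η)) + 2

lemma vr_grid (W : Wgt U C) (hN : 0 < N) {M : ℕ} (ha : a ≤ M) {η R : ℝ} (hη : 0 < η) {K₀ : ℕ} (hK : 0 < K₀)
    {x : ℕ → ℝ} (hx0 : η ≤ x 0) (hsep : ∀ j, x j + 2 * (η / (2 * K₀)) ≤ x (j + 1))
    (hR : ∀ j, j < K₀ → x j ≤ R) :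
    ∑ j ∈ Finset.range K₀, vr U a N (x j) ≤ gridErr C M N R η K₀ := by
  set δ := η / (2 * (K₀ : ℝ)) with hδdef
  have hK' : (1 : ℝ) ≤ K₀ := by exact_mod_cast hK
  have hδ : 0 < δ := by positivity
  have hδη : δ < η := by
    rw [hδdef, div_lt_iff₀ (by positivity)]; nlinarith
  have hx : ∀ j, η ≤ x j := by
    intro j
    induction j with
    | zero => exact hx0
    | succ j ih => linarith [hsep j]
  set A := 8 * Real.log 2 + 96 * Real.sqrt (N * (R + η)) + 32 * Real.sqrt (M * Real.log C ^ 2)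
  have hn : (0 : ℝ) < N := by exact_mod_cast hN
  have hb : ∀ j, j < K₀ → vr U a N (x j)
      ≤ A / (N * δ) + 8 * δ / (η * Real.sqrt η) + 2 * (qv U a N (x j + δ) - qv U a N (x j - δ)) := by
    intro j hj
    set r := x j
    have hr : η ≤ r := hx j
    have h := vr_bound (a := a) W hδ (hδη.trans_le hr) hN
    have e1 : Real.sqrt (N * (r + δ)) ≤ Real.sqrt (N * (R + η)) :=
      Real.sqrt_le_sqrt (mul_le_mul_of_nonneg_left (by linarith [hR j hj]) hn.le)
    have e2 : Real.sqrt (a * Real.log C ^ 2) ≤ Real.sqrt (M * Real.log C ^ 2) :=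
      Real.sqrt_le_sqrt (mul_le_mul_of_nonneg_right (Nat.cast_le.2 ha) (sq_nonneg _))
    have e3 : |1 / (Real.sqrt (r + δ) + Real.sqrt r) - 1 / (Real.sqrt (r - δ) + Real.sqrt r)|
        ≤ 2 * δ / (η * Real.sqrt η) := by
      have hr0 : 0 < r := hη.trans_le hr
      set u := Real.sqrt (r + δ)
      set v := Real.sqrt (r - δ)
      set w := Real.sqrt r
      have hw : 0 < w := Real.sqrt_pos.2 hr0
      have hwu : w ≤ u := Real.sqrt_le_sqrt (by linarith)
      have hv : 0 ≤ v := Real.sqrt_nonneg _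
      have hvu : v ≤ u := Real.sqrt_le_sqrt (by linarith)
      have hww : η ≤ w * w := by rw [Real.mul_self_sqrt hr0.le]; exact hr
      have hwη : Real.sqrt η ≤ w := Real.sqrt_le_sqrt hr
      have huv : (u - v) * (u + v) = 2 * δ := by
        have := Real.mul_self_sqrt (show 0 ≤ r + δ by linarith)
        have := Real.mul_self_sqrt (show 0 ≤ r - δ by linarith)
        nlinarith
      rw [div_sub_div _ _ (by positivity) (by positivity), abs_div,
        abs_of_pos (show 0 < (u + w) * (v + w) by positivity),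
        show 1 * (v + w) - (u + w) * 1 = -(u - v) by ring, abs_neg, abs_of_nonneg (sub_nonneg.2 hvu),
        div_le_div_iff₀ (by positivity) (by positivity)]
      have h1 : (u - v) * Real.sqrt η ≤ 2 * δ :=
        (mul_le_mul_of_nonneg_left (hwη.trans (by linarith : w ≤ u + v)) (sub_nonneg.2 hvu)).trans huv.le
      have h2 : η ≤ (u + w) * (v + w) := hww.trans (mul_le_mul (by linarith) (by linarith) hw.le (by linarith))
      calc (u - v) * (η * Real.sqrt η) = (u - v) * Real.sqrt η * η := by ring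
        _ ≤ 2 * δ * ((u + w) * (v + w)) := mul_le_mul h1 h2 hη.le (by linarith)
    have h3 : (N : ℝ) * δ * vr U a N r ≤ N * δ * (A / (N * δ) + 8 * δ / (η * Real.sqrt η)
        + 2 * (qv U a N (r + δ) - qv U a N (r - δ))) := by
      refine h.trans ?_
      conv_rhs => rw [mul_add, mul_add, mul_div_cancel₀ _ (by positivity : (N : ℝ) * δ ≠ 0)]
      have h4 := mul_le_mul_of_nonneg_left e3 (show 0 ≤ 4 * δ * N by positivity)
      have h5 : 4 * δ * N * (2 * δ / (η * Real.sqrt η)) = N * δ * (8 * δ / (η * Real.sqrt η)) := by ring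
      simp only [A]
      linarith
    exact le_of_mul_le_mul_left h3 (by positivity)
  refine (Finset.sum_le_sum fun j hj => hb j (Finset.mem_range.1 hj)).trans ?_
  rw [Finset.sum_add_distrib, Finset.sum_const, Finset.card_range, nsmul_eq_mul, ← Finset.mul_sum]
  have ht := Plant.telescope (q := qv U a N) (fun x y h1 h2 => qv_mono W hN h1 h2) (fun x _ => qv_nonneg W hN x)
    (fun x h => qv_le_one W hN h) hδ.le (hδη.le.trans hx0) hsep K₀
  unfold gridErr
  linarith

/-- The path chosen backwards from the top, by the slopes at the overlaps met. -/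
noncomputable def upPath (U : ℝ → ℝ) (c : ℝ → ℝ) (M N : ℕ) : ℕ → ℝ → ℝ
  | 0, e => e
  | k + 1, e => upPath U c M N k e + 2 * c (qv U (M - (k + 1)) N (upPath U c M N k e)) / N

/-- A vanishing entropy under the condition, up to an explicit error. -/
lemma Jt_upper (W : Wgt U C) (hN : 0 < N) {α : ℝ} {M : ℕ} (hM : (M : ℝ) ≤ α * N)
    (hcond : ∀ q : ℝ, 0 ≤ q → q < 1 → α * plantEnt U q ≤ -(Real.log (1 - q) + q) / 2)
    {ε : ℝ} {c : ℝ → ℝ} {L : ℝ} (hcm : Monotone c) (hcb : ∀ q, 0 ≤ c q ∧ c q ≤ L)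
    (hcs : ∀ q ∈ Icc (0 : ℝ) 1, ∀ p ∈ Icc (0 : ℝ) 1, plantEnt U q + c q * (p - q) ≤ plantEnt U p + ε)
    {Kc : ℝ} (hKc : 0 ≤ Kc)
    (hinc : ∀ (a N : ℕ) (r : ℝ), 0 < N → 0 ≤ r →
      |Jt U (a + 1) N r - Jt U a N r - plantEnt U (qv U a N r)| ≤ ε + Kc * vr U a N r)
    {η : ℝ} (hη : 0 < η) {K₀ : ℕ} (hK : 0 < K₀) {θ : ℝ} (hθ : θ * (8 * (2 + (2 * η + 2 * L * α))) ≤ 1)
    (hch : ∀ r : ℝ, 0 ≤ r → r ≤ 2 * (2 + (2 * η + 2 * L * α)) → Jt U 0 N r ≤ N * (sphInfo r + θ)) :
    K₀ * Jt U M N 0
      ≤ K₀ * (2 * ε * M + η * N + θ * N) + Kc * (M * gridErr C M N (2 * η + 2 * L * α) η K₀) := by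
  set δ := η / (2 * (K₀ : ℝ)) with hδdef
  have hn : (0 : ℝ) < N := by exact_mod_cast hN
  set s := upPath U c M N
  have hstep : ∀ k e, s k e ≤ s (k + 1) e ∧ s (k + 1) e ≤ s k e + 2 * L / N := fun k e => by
    simp only [s, upPath]
    exact ⟨le_add_of_nonneg_right (div_nonneg (mul_nonneg zero_le_two (hcb _).1) hn.le),
      add_le_add le_rfl (div_le_div_of_nonneg_right (mul_le_mul_of_nonneg_left (hcb _).2 zero_le_two) hn.le)⟩
  have hlo : ∀ k e, e ≤ s k e := fun k e => by
    induction k with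
    | zero => exact le_rfl
    | succ k ih => exact ih.trans (hstep k e).1
  have hhi : ∀ k e, s k e ≤ e + k * (2 * L / N) := fun k e => by
    induction k with
    | zero => simp [s, upPath]
    | succ k ih => push_cast; linarith [(hstep k e).2]
  have hmono : ∀ k e e', 0 ≤ e → e ≤ e' → s k e + (e' - e) ≤ s k e' := fun k e e' he hee => by
    induction k with
    | zero => simp [s, upPath]
    | succ k ih =>
      simp only [s, upPath] at ih ⊢
      have := hcm (qv_mono (a := M - (k + 1)) W hN (he.trans (hlo k e)) (show s k e ≤ s k e' by simp only [s]; linarith))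
      have := div_le_div_of_nonneg_right (mul_le_mul_of_nonneg_left this (zero_le_two (α := ℝ))) hn.le
      simp only [s] at this
      linarith
  set e : ℕ → ℝ := fun j => η + j * (2 * δ)
  have he0 : ∀ j, η ≤ e j := fun j => le_add_of_nonneg_right (by positivity)
  have hsep : ∀ k j, s k (e j) + 2 * δ ≤ s k (e (j + 1)) := fun k j => by
    have h1 : e (j + 1) - e j = 2 * δ := by simp only [e]; push_cast; ring
    have := hmono k (e j) (e (j + 1)) (hη.le.trans (he0 j)) (by linarith [show 0 ≤ δ by positivity])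
    linarith
  have hL : 0 ≤ L := (hcb 0).1.trans (hcb 0).2
  have hR : ∀ k, k ≤ M → ∀ j, j < K₀ → s k (e j) ≤ 2 * η + 2 * L * α := fun k hk j hj => by
    refine (hhi k _).trans ?_
    have h1 : (j : ℝ) * (2 * δ) ≤ η := by
      rw [hδdef, show (j : ℝ) * (2 * (η / (2 * K₀))) = j / K₀ * η by field_simp]
      exact mul_le_of_le_one_left hη.le ((div_le_one (by positivity)).2 (Nat.cast_le.2 hj.le))
    have h2 : (k : ℝ) * (2 * L / N) ≤ 2 * L * α := by
      rw [mul_div_assoc', div_le_iff₀ hn]
      calc (k : ℝ) * (2 * L) ≤ (α * N) * (2 * L) :=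
            mul_le_mul_of_nonneg_right ((Nat.cast_le.2 hk).trans hM) (by positivity)
        _ = _ := by ring
    simp only [e]
    linarith
  -- one path
  set R := 2 * η + 2 * L * α with hRdef
  have hpath : ∀ e₀, 0 ≤ e₀ → s M e₀ ≤ R → Jt U M N e₀ ≤ N * e₀ / 2 + 2 * ε * M + θ * N
      + Kc * ∑ k ∈ Finset.range M, vr U (M - (k + 1)) N (s k e₀) := by
    intro e₀ he htR
    set t := s M e₀
    have ht : 0 ≤ t := he.trans (hlo M e₀)
    set p := qv U 0 N t with hpdef
    have hp : p ∈ Icc (0 : ℝ) 1 := ⟨qv_nonneg W hN t, qv_le_one W hN ht⟩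
    have hdown : ∀ k, k ≤ M → Jt U M N e₀ ≤ Jt U (M - k) N (s k e₀) + k * (plantEnt U p + 2 * ε)
        - p * N * (s k e₀ - e₀) / 2 + Kc * ∑ i ∈ Finset.range k, vr U (M - (i + 1)) N (s i e₀) := by
      intro k
      induction k with
      | zero => intro _; simp [s, upPath]
      | succ k ih =>
        intro hk
        set b := M - (k + 1)
        have hbk : M - k = b + 1 := by simp only [b]; omega
        set r := s k e₀
        set q := qv U b N r
        have hr : 0 ≤ r := he.trans (hlo k e₀)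
        have hq : q ∈ Icc (0 : ℝ) 1 := ⟨qv_nonneg W hN r, qv_le_one W hN hr⟩
        have hnext : s (k + 1) e₀ = r + 2 * c q / N := rfl
        have h1 := (abs_le.1 (hinc b N r hN hr)).2
        have h2 := (Jt_slope (a := b) W hN hr (hnext ▸ (hstep k e₀).1 : r ≤ r + 2 * c q / N)).1
        have h3 : N * q / 2 * (r + 2 * c q / N - r) = q * c q := by field_simp; ring
        have h4 := hcs q hq p hp
        have h5 := ih (by omega)
        rw [hbk] at h5
        rw [Finset.sum_range_succ, hnext]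
        push_cast
        have h6 : p * N * (r + 2 * c q / N - e₀) / 2 = p * N * (r - e₀) / 2 + p * c q := by field_simp; ring
        simp only [q] at h1 h3 h4 h6 ⊢
        linarith
    have h := hdown M le_rfl
    rw [Nat.sub_self] at h
    have hR2 : 0 < 2 + R := by linarith
    have hp1 : p ≤ 1 - 3 / (4 * (2 + R)) := by
      have h1 := (Jt_slope (a := 0) W hN ht (show t ≤ t + 1 by linarith)).1
      have h2 := hch (t + 1) (by linarith) (by linarith)
      have h3 := Jt_empty_ge W ht hN
      have h4 : N * (p / 2) ≤ N * (sphInfo (t + 1) - sphInfo t + θ) := by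
        have h5 : t + 1 - t = 1 := by ring
        rw [h5, mul_one] at h1
        linarith
      have h5 := le_of_mul_le_mul_left h4 hn
      have h6 : 1 / (2 + R) ≤ Real.log (1 + (t + 1)) - Real.log (1 + t) := by
        have h7 := Real.log_le_sub_one_of_pos (show 0 < (1 + t) / (1 + (t + 1)) from
          div_pos (by linarith) (by linarith))
        rw [Real.log_div (by linarith) (by linarith), div_sub_one (by linarith)] at h7
        have h8 : 1 / (2 + R) ≤ 1 / (1 + (t + 1)) := one_div_le_one_div_of_le (by linarith) (by linarith)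
        rw [show (1 + t - (1 + (t + 1))) / (1 + (t + 1)) = -(1 / (1 + (t + 1))) by ring] at h7
        linarith
      have h9 : θ ≤ 1 / (8 * (2 + R)) := by rw [le_div_iff₀ (by linarith)]; linarith
      have h10 : (3 : ℝ) / (4 * (2 + R)) = 1 / (2 + R) - 2 * (1 / (8 * (2 + R))) := by field_simp; ring
      simp only [sphInfo] at h5
      rw [h10]
      linarith
    have hp3 : 3 / (4 * (2 + R)) ≤ 1 - p := by linarith
    have hp2 : p < 1 := by
      have : 0 < 3 / (4 * (2 + R)) := by positivity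
      linarith
    set r := p / (1 - p)
    have hr : 0 ≤ r := div_nonneg hp.1 (by linarith)
    have hrR : r ≤ 2 * (2 + R) := by
      rw [div_le_iff₀ (by linarith)]
      have : 3 / 2 ≤ 2 * (2 + R) * (1 - p) := by
        calc (3 : ℝ) / 2 = 2 * (2 + R) * (3 / (4 * (2 + R))) := by field_simp; ring
          _ ≤ _ := mul_le_mul_of_nonneg_left hp3 (by linarith)
      linarith [hp.2]
    have hleg := sphInfo_legendre_eq hp2
    have hcond' := hcond p hp.1 hp2
    have htan : Jt U 0 N t + N * (p / 2 * (r - t)) ≤ N * (sphInfo r + θ) := by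
      refine le_trans ?_ (hch r hr hrR)
      rcases le_total t r with hle | hle
      · have := (Jt_slope (a := 0) W hN ht hle).1
        simp only [p] at *
        linarith
      · have := (Jt_slope (a := 0) W hN hr hle).2
        simp only [p] at *
        linarith
    have h7 : (M : ℝ) * plantEnt U p ≤ N * (α * plantEnt U p) := by
      calc (M : ℝ) * plantEnt U p ≤ α * N * plantEnt U p := mul_le_mul_of_nonneg_right hM (W.plantEnt_nonneg hp)
        _ = _ := by ring
    have h8 := mul_le_mul_of_nonneg_left (show α * plantEnt U p - r * p / 2 + sphInfo r ≤ 0 by linarith) hn.le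
    have h9 : p * N * e₀ / 2 ≤ N * e₀ / 2 := by
      have := mul_le_mul_of_nonneg_right hp.2 (show 0 ≤ (N : ℝ) * e₀ by positivity)
      linarith
    linarith
  have hsum : (K₀ : ℝ) * Jt U M N 0 ≤ ∑ j ∈ Finset.range K₀, (N * η + 2 * ε * M + θ * N
      + Kc * ∑ k ∈ Finset.range M, vr U (M - (k + 1)) N (s k (e j))) := by
    calc (K₀ : ℝ) * Jt U M N 0 = ∑ _j ∈ Finset.range K₀, Jt U M N 0 := by simp
      _ ≤ _ := Finset.sum_le_sum fun j hj => by
        have hej : 0 ≤ e j := hη.le.trans (he0 j)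
        have h1 := (Jt_slope (a := M) W hN le_rfl hej).1
        have h2 : 0 ≤ (N : ℝ) * qv U M N 0 / 2 * (e j - 0) :=
          mul_nonneg (div_nonneg (mul_nonneg hn.le (qv_nonneg W hN 0)) two_pos.le) (by linarith)
        have h3 : e j ≤ 2 * η := by
          have := hR 0 (Nat.zero_le M) j (Finset.mem_range.1 hj)
          have hj' : (j : ℝ) * (2 * δ) ≤ η := by
            rw [hδdef, show (j : ℝ) * (2 * (η / (2 * K₀))) = j / K₀ * η by field_simp]
            exact mul_le_of_le_one_left hη.le ((div_le_one (by positivity)).2 (Nat.cast_le.2 (Finset.mem_range.1 hj).le))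
          simp only [e]; linarith
        have h4 := mul_le_mul_of_nonneg_left h3 hn.le
        linarith [hpath (e j) hej (hR M le_rfl j (Finset.mem_range.1 hj))]
  refine hsum.trans ?_
  rw [Finset.sum_add_distrib, Finset.sum_const, Finset.card_range, nsmul_eq_mul, ← Finset.mul_sum, Finset.sum_comm]
  refine add_le_add (le_of_eq (by ring)) (mul_le_mul_of_nonneg_left ?_ hKc)
  refine (Finset.sum_le_sum fun k hk => vr_grid W hN (Nat.sub_le _ _) hη hK ((he0 0).trans (hlo k _)) (hsep k)
    fun j hj => hR k (Finset.mem_range.1 hk).le j hj).trans (le_of_eq ?_)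
  simp

/-- A lower bound by the linear path. -/
lemma Jt_lower (W : Wgt U C) (hN : 0 < N) {α : ℝ} {M : ℕ} (hM : (M : ℝ) ≤ α * N) {ε p c : ℝ}
    (hp : p ∈ Icc (0 : ℝ) 1) (hc : 0 ≤ c)
    (hcs : ∀ q ∈ Icc (0 : ℝ) 1, plantEnt U p + c * (q - p) ≤ plantEnt U q)
    {Kc : ℝ} (hKc : 0 ≤ Kc)
    (hinc : ∀ (a N : ℕ) (r : ℝ), 0 < N → 0 ≤ r →
      |Jt U (a + 1) N r - Jt U a N r - plantEnt U (qv U a N r)| ≤ ε + Kc * vr U a N r)
    {η : ℝ} (hη : 0 < η) {K₀ : ℕ} (hK : 0 < K₀) (hδN : 2 * c / N ≤ η / (2 * K₀)) :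
    ∑ j ∈ Finset.range K₀, (N * sphInfo (η + j * (2 * (η / (2 * K₀))) + 2 * c * M / N))
        + K₀ * (M * (plantEnt U p - c * p - ε)) - c * M - Kc * (M * gridErr C M N (2 * η + 2 * c * α) η K₀)
        - K₀ * (η * N)
      ≤ K₀ * Jt U M N 0 := by
  set δ := η / (2 * (K₀ : ℝ)) with hδdef
  have hn : (0 : ℝ) < N := by exact_mod_cast hN
  have hd : 0 < δ := by positivity
  set e : ℕ → ℝ := fun j => η + j * (2 * δ)
  have he0 : ∀ j, η ≤ e j := fun j => le_add_of_nonneg_right (by positivity)
  have he2 : ∀ j, j < K₀ → e j ≤ 2 * η := fun j hj => by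
    have hj' : (j : ℝ) * (2 * δ) ≤ η := by
      rw [hδdef, show (j : ℝ) * (2 * (η / (2 * K₀))) = j / K₀ * η by field_simp]
      exact mul_le_of_le_one_left hη.le ((div_le_one (by positivity)).2 (Nat.cast_le.2 hj.le))
    simp only [e]; linarith
  set s : ℕ → ℝ → ℝ := fun k e₀ => e₀ + 2 * c * k / N with hsdef
  have hlo : ∀ k e₀, e₀ ≤ s k e₀ := fun k e₀ => le_add_of_nonneg_right (by positivity)
  have hsep : ∀ k j, s k (e j) + 2 * δ ≤ s k (e (j + 1)) := fun k j => by
    simp only [hsdef, e]; push_cast; linarith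
  have hR : ∀ k, k ≤ M → ∀ j, j < K₀ → s k (e j) ≤ 2 * η + 2 * c * α := fun k hk j hj => by
    have h2 : 2 * c * k / (N : ℝ) ≤ 2 * c * α := by
      rw [div_le_iff₀ hn, mul_assoc (2 * c)]
      exact mul_le_mul_of_nonneg_left ((Nat.cast_le.2 hk).trans hM) (by positivity)
    simp only [hsdef]
    linarith [he2 j hj]
  have hpath : ∀ e₀, η ≤ e₀ → N * sphInfo (s M e₀) + M * (plantEnt U p - c * p - ε)
      - ∑ k ∈ Finset.range M, (Kc * vr U (M - (k + 1)) N (s k e₀)
        + c * (qv U (M - (k + 1)) N (s k e₀ + δ) - qv U (M - (k + 1)) N (s k e₀ - δ)))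
      ≤ Jt U M N e₀ := by
    intro e₀ he
    have hdown : ∀ k, k ≤ M → Jt U (M - k) N (s k e₀) + k * (plantEnt U p - c * p - ε)
        - ∑ i ∈ Finset.range k, (Kc * vr U (M - (i + 1)) N (s i e₀)
          + c * (qv U (M - (i + 1)) N (s i e₀ + δ) - qv U (M - (i + 1)) N (s i e₀ - δ)))
        ≤ Jt U M N e₀ := by
      intro k
      induction k with
      | zero => intro _; simp [hsdef]
      | succ k ih =>
        intro hk
        set b := M - (k + 1)
        have hbk : M - k = b + 1 := by simp only [b]; omega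
        set r := s k e₀
        have hr : η ≤ r := he.trans (hlo k e₀)
        have hr0 : 0 ≤ r := hη.le.trans hr
        have hδη : δ ≤ η := by
          rw [hδdef, div_le_iff₀ (by positivity)]
          nlinarith [show (1 : ℝ) ≤ K₀ by exact_mod_cast hK]
        have hnext : s (k + 1) e₀ = r + 2 * c / N := by simp only [r, hsdef]; push_cast; ring
        have hstep : r ≤ r + 2 * c / N := le_add_of_nonneg_right (by positivity)
        have h1 := (abs_le.1 (hinc b N r hN hr0)).1
        have h2 := (Jt_slope (a := b) W hN hr0 hstep).2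
        set qn := qv U b N (r + 2 * c / N)
        have h3 : N * qn / 2 * (r + 2 * c / N - r) = qn * c := by field_simp; ring
        have h4 := hcs _ ⟨qv_nonneg (a := b) W hN r, qv_le_one W hN hr0⟩
        have h5 := ih (by omega)
        have h7 := qv_mono (a := b) W hN (hr0.trans hstep) (show r + 2 * c / N ≤ r + δ by linarith)
        have h8 := qv_mono (a := b) W hN (show 0 ≤ r - δ by linarith) (show r - δ ≤ r by linarith)
        have h9 := mul_le_mul_of_nonneg_left (show qn - qv U b N r ≤ qv U b N (r + δ) - qv U b N (r - δ) by linarith) hc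
        rw [hbk] at h5
        rw [Finset.sum_range_succ, hnext]
        push_cast
        linarith
    have h := hdown M le_rfl
    rw [Nat.sub_self] at h
    have := Jt_empty_ge W ((hη.le.trans he).trans (hlo M e₀)) hN
    linarith
  have h1 : ∑ j ∈ Finset.range K₀, (N * sphInfo (s M (e j)) + M * (plantEnt U p - c * p - ε)
      - ∑ k ∈ Finset.range M, (Kc * vr U (M - (k + 1)) N (s k (e j))
        + c * (qv U (M - (k + 1)) N (s k (e j) + δ) - qv U (M - (k + 1)) N (s k (e j) - δ))) - η * N)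
      ≤ ∑ _j ∈ Finset.range K₀, Jt U M N 0 := by
    refine Finset.sum_le_sum fun j hj => ?_
    have hej : 0 ≤ e j := hη.le.trans (he0 j)
    have h1 := (Jt_slope (a := M) W hN le_rfl hej).2
    have hq := qv_le_one (a := M) W hN hej
    have h2 : (N : ℝ) * qv U M N (e j) / 2 * (e j - 0) ≤ η * N := by
      calc (N : ℝ) * qv U M N (e j) / 2 * (e j - 0) ≤ N * 1 / 2 * (2 * η) := by
            refine mul_le_mul ?_ (by linarith [he2 j (Finset.mem_range.1 hj)]) (by linarith) (by positivity)
            gcongr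
        _ = _ := by ring
    linarith [hpath (e j) (he0 j)]
  simp only [Finset.sum_add_distrib, Finset.sum_sub_distrib, Finset.sum_const, Finset.card_range, nsmul_eq_mul,
    ← Finset.mul_sum] at h1
  rw [Finset.sum_comm (f := fun j k => vr U (M - (k + 1)) N (s k (e j))),
    Finset.sum_comm (f := fun j k => qv U (M - (k + 1)) N (s k (e j) + δ)),
    Finset.sum_comm (f := fun j k => qv U (M - (k + 1)) N (s k (e j) - δ))] at h1
  have hV := mul_le_mul_of_nonneg_left (Finset.sum_le_sum fun k hk => vr_grid W hN (Nat.sub_le M (k + 1)) hη hK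
    ((he0 0).trans (hlo k _)) (hsep k) fun j hj => hR k (Finset.mem_range.1 hk).le j hj) hKc
  simp only [Finset.sum_const, Finset.card_range, nsmul_eq_mul] at hV
  have hδη' : δ ≤ η := by
    rw [hδdef, div_le_iff₀ (by positivity)]
    nlinarith [show (1 : ℝ) ≤ K₀ by exact_mod_cast hK]
  have hT : ∑ k ∈ Finset.range M, (∑ j ∈ Finset.range K₀, qv U (M - (k + 1)) N (s k (e j) + δ)
      - ∑ j ∈ Finset.range K₀, qv U (M - (k + 1)) N (s k (e j) - δ)) ≤ M := by
    refine (Finset.sum_le_sum fun k hk => ?_).trans (le_of_eq (show ∑ _k ∈ Finset.range M, (1 : ℝ) = M by simp))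
    rw [← Finset.sum_sub_distrib]
    exact Plant.telescope (q := qv U (M - (k + 1)) N) (fun x y h1 h2 => qv_mono W hN h1 h2)
      (fun x _ => qv_nonneg W hN x) (fun x h => qv_le_one W hN h) hd.le
      (hδη'.trans ((he0 0).trans (hlo k _))) (hsep k) K₀
  rw [Finset.sum_sub_distrib] at hT
  have hcT := mul_le_mul_of_nonneg_left hT hc
  simp only [hsdef, e] at h1 hV hcT ⊢
  rw [← Finset.mul_sum]
  linarith

end Vale.Agent.P157.Sph
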