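import Vale.Agent.P157.SpherePlant.Conc

/-!
On the sphere the pressure equals its annealed value to first order exactly when the planted
entropy vanishes to first order.
-/

open MeasureTheory ProbabilityTheory Filter Topology Set
open Vale.Agent.P157.Plant (Wgt ent)
open scoped BigOperators

namespace Vale.Agent.P157.Sph

variable {a N : ℕ} {U : ℝ → ℝ} {C : ℝ}

/-- The partition function relative to its mean. -/
noncomputable def Zf (U : ℝ → ℝ) (g : Fin a → Fin N → ℝ) : ℝ := ∫ b, patW U g b ∂prior N

lemma lik_zero (d : Dat a N) : lik U 0 d = Zf U d.1 := by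
  simp [lik, wt, Zf]

/-- The expected log partition function. -/
noncomputable def mZ (U : ℝ → ℝ) (a N : ℕ) : ℝ :=
  ∫ g, Real.log (Zf U g) ∂Measure.pi fun _ : Fin a => gaussVec (Fin N)

section

variable (W : Wgt U C)
include W

lemma Zf_mem (g : Fin a → Fin N → ℝ) : 0 < Zf U g ∧ |Real.log (Zf U g)| ≤ a * Real.log C := by
  have h := lik_pos W 0 ((g, 0) : Dat a N)
  have h2 := abs_log_lik_le W 0 ((g, 0) : Dat a N)
  rw [lik_zero] at h h2
  simpa [zlen] using And.intro h h2

lemma measurable_Zf : Measurable (Zf U : (Fin a → Fin N → ℝ) → ℝ) :=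
  (StronglyMeasurable.integral_prod_right (f := fun (g : Fin a → Fin N → ℝ) b => patW U g b)
    (measurable_patW W measurable_fst measurable_snd).stronglyMeasurable).measurable

lemma integrable_exp_logZ (s : ℝ) (μ : Measure (Fin a → Fin N → ℝ)) [IsFiniteMeasure μ] :
    Integrable (fun g => Real.exp (s * Real.log (Zf U g))) μ :=
  Integrable.of_bound (((measurable_Zf W).log).const_mul s).exp.aestronglyMeasurable
    (Real.exp (|s| * (a * Real.log C))) (ae_of_all _ fun g => by
      rw [Real.norm_eq_abs, Real.abs_exp, Real.exp_le_exp]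
      exact (le_abs_self _).trans ((abs_mul _ _).trans_le (mul_le_mul_of_nonneg_left (Zf_mem W g).2 (abs_nonneg s))))

lemma Jt_zero_eq : Jt U a N 0 = ∫ g, ent (Zf U g) ∂Measure.pi fun _ : Fin a => gaussVec (Fin N) := by
  rw [Jt, nullM]
  simp only [lik_zero]
  rw [integral_fun_fst (fun g => ent (Zf U g))]
  simp

lemma integral_Zf (hN : 0 < N) : ∫ g, Zf U g ∂(Measure.pi fun _ : Fin a => gaussVec (Fin N)) = 1 := by
  unfold Zf
  have hi : Integrable (Function.uncurry fun (g : Fin a → Fin N → ℝ) b => patW U g b)
      ((Measure.pi fun _ : Fin a => gaussVec (Fin N)).prod (prior N)) :=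
    Integrable.of_bound (measurable_patW W measurable_fst measurable_snd).aestronglyMeasurable (C ^ a)
      (ae_of_all _ fun p => by
        rw [Real.norm_eq_abs]
        exact (abs_of_pos (patW_pos W p.1 p.2)).trans_le (patW_le W p.1 p.2))
  rw [integral_integral_swap hi]
  simp [integral_patW W _ hN]

lemma Zf_diff (g : Fin a → Fin N → ℝ) (c : Fin a) (y : Fin N → ℝ) :
    |Real.log (Zf U g) - Real.log (Zf U (Function.update g c y))| ≤ Real.log C + Real.log C := by
  have hb : ∀ g₁ g₂ : Fin a → Fin N → ℝ, (∀ e, e ≠ c → g₁ e = g₂ e) →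
      Real.log (Zf U g₁) - Real.log (Zf U g₂) ≤ Real.log C + Real.log C := by
    intro g₁ g₂ h
    have hle : Zf U g₁ ≤ C * C * Zf U g₂ := by
      unfold Zf
      rw [← integral_const_mul]
      have hb : ∀ g' : Fin a → Fin N → ℝ, Integrable (fun b => patW U g' b) (prior N) := fun g' =>
        Integrable.of_bound (measurable_patW W measurable_const measurable_id).aestronglyMeasurable (C ^ a)
          (ae_of_all _ fun b => by rw [Real.norm_eq_abs, abs_of_pos (patW_pos W _ _)]; exact patW_le W _ _)
      refine integral_mono (hb g₁) ((hb g₂).const_mul _) fun b => ?_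
      simp only [patW]
      rw [Finset.prod_eq_prod_sdiff_singleton_mul (Finset.mem_univ c),
        Finset.prod_eq_prod_sdiff_singleton_mul (Finset.mem_univ c) (fun e => U (fld (g₂ e) b)),
        Finset.prod_congr rfl fun e he => by rw [h e (by simpa using he)], mul_left_comm]
      refine mul_le_mul_of_nonneg_left ?_ (Finset.prod_nonneg fun e _ => (W.pos _).le)
      calc U (fld (g₁ c) b) ≤ C := W.hi _
        _ = C * C * C⁻¹ := by field_simp [W.C_pos.ne']
        _ ≤ C * C * U (fld (g₂ c) b) := mul_le_mul_of_nonneg_left (W.lo _) (mul_self_nonneg C)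
    have := Real.log_le_log (Zf_mem W g₁).1 hle
    rw [Real.log_mul (mul_pos W.C_pos W.C_pos).ne' (Zf_mem W g₂).1.ne', Real.log_mul W.C_pos.ne' W.C_pos.ne'] at this
    linarith
  rw [abs_le]
  constructor
  · linarith [hb (Function.update g c y) g fun e he => Function.update_of_ne he _ _]
  · exact hb g (Function.update g c y) fun e he => (Function.update_of_ne he _ _).symm

lemma mZ_nonpos (hN : 0 < N) : mZ U a N ≤ 0 := by
  have iZ : Integrable (Zf U : (Fin a → Fin N → ℝ) → ℝ) (Measure.pi fun _ : Fin a => gaussVec (Fin N)) :=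
    (integrable_exp_logZ W 1 _).congr (ae_of_all _ fun g => by simp [Real.exp_log (Zf_mem W g).1])
  refine (integral_mono (Integrable.of_bound (measurable_Zf W).log.aestronglyMeasurable (a * Real.log C)
    (ae_of_all _ fun g => (Zf_mem W g).2)) (iZ.sub (integrable_const 1))
    fun g => Real.log_le_sub_one_of_pos (Zf_mem W g).1).trans (le_of_eq ?_)
  simp only [Pi.sub_apply]
  rw [integral_sub iZ (integrable_const 1), integral_Zf W hN]
  simp

/-- The annealed value fails by at most the planted entropy. -/
lemma neg_mZ_le {t : ℝ} (ht : 0 < t) (htc : t * (Real.log C + Real.log C) ≤ 1) (hN : 0 < N) :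
    -mZ U a N ≤ Jt U a N 0 / t + a * (t * (Real.log C + Real.log C) ^ 2) := by
  set c := Real.log C + Real.log C
  set P := Measure.pi fun _ : Fin a => gaussVec (Fin N)
  set D := Jt U a N 0
  have hmgf := Plant.pi_mgf (gaussVec (Fin N)) (c := c) (t := t) (by rwa [abs_of_pos ht]) a
    (fun g => Real.log (Zf U g)) (a * Real.log C) (measurable_Zf W).log (fun g => (Zf_mem W g).2)
    fun g i y => Zf_diff W g i y
  have iZ : Integrable (Zf U : (Fin a → Fin N → ℝ) → ℝ) P :=
    (integrable_exp_logZ W 1 _).congr (ae_of_all _ fun g => by simp [Real.exp_log (Zf_mem W g).1])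
  have iE : Integrable (fun g => ent (Zf U g)) P :=
    (iZ.mul_bdd (measurable_Zf W).log.aestronglyMeasurable (ae_of_all _ fun g => (Zf_mem W g).2))
  have hj : Real.exp ((t - 1) * D) ≤ ∫ g, Real.exp (t * Real.log (Zf U g)) ∂P := by
    have hm := integral_mono ((iZ.const_mul (Real.exp ((t - 1) * D) * (1 - (t - 1) * D))).add
      (iE.const_mul (Real.exp ((t - 1) * D) * (t - 1)))) (integrable_exp_logZ W t P) fun g => by
      have hz := (Zf_mem W g).1
      have h1 := mul_le_mul_of_nonneg_left (Real.add_one_le_exp ((t - 1) * Real.log (Zf U g) - (t - 1) * D))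
        (mul_pos hz (Real.exp_pos ((t - 1) * D))).le
      have e : Zf U g * Real.exp ((t - 1) * D) * Real.exp ((t - 1) * Real.log (Zf U g) - (t - 1) * D)
          = Real.exp (t * Real.log (Zf U g)) := by
        nth_rewrite 1 [← Real.exp_log hz]
        rw [← Real.exp_add, ← Real.exp_add]
        congr 1; ring
      rw [e] at h1
      simp only [Pi.add_apply, ent]
      linarith
    simp only [Pi.add_apply] at hm
    rw [integral_add (iZ.const_mul _) (iE.const_mul _), integral_const_mul, integral_const_mul, integral_Zf W hN,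
      ← Jt_zero_eq W] at hm
    simp only [mul_one] at hm
    linarith
  have := Real.exp_le_exp.1 (hj.trans hmgf)
  change (t - 1) * D ≤ t * mZ U a N + a * (t ^ 2 * c ^ 2) at this
  have hDt : D / t + a * (t * c ^ 2) - -mZ U a N = (D + a * (t ^ 2 * c ^ 2) + t * mZ U a N) / t := by
    field_simp
    ring
  have hD0 : 0 ≤ D + a * (t ^ 2 * c ^ 2) + t * mZ U a N := by
    have h3 : 0 ≤ t * D := by
      refine mul_nonneg ht.le ?_
      rw [show D = _ from Jt_zero_eq W]
      have := integral_mono (iZ.sub (integrable_const 1)) iE fun g => by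
        have := Plant.ent_tangent (Zf_mem W g).1 one_pos
        simpa using this
      simp only [Pi.sub_apply] at this
      rw [integral_sub iZ (integrable_const 1), integral_Zf W hN] at this
      simpa using this
    nlinarith
  linarith [div_nonneg hD0 ht.le]

/-- A positive planted entropy pushes the pressure below its annealed value. -/
lemma mZ_le {t : ℝ} (ht : 0 < t) (htc : t * (Real.log C + Real.log C) ≤ 1) (hN : 0 < N) :
    (1 - t) * mZ U a N ≤ -(t * Jt U a N 0) + a * (t ^ 2 * (Real.log C + Real.log C) ^ 2) := by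
  set c := Real.log C + Real.log C
  set γN := gaussVec (Fin N)
  set ρ : (Fin N → ℝ) → ℝ := fun g => U (fld g (ones N))
  have hρi : Integrable ρ γN := W.int (by fun_prop)
  have hρ1 : ∫ g, ρ g ∂γN = 1 := integral_fld W hN _
  set ν := γN.withDensity fun g => ENNReal.ofReal (ρ g)
  have : IsProbabilityMeasure ν := ⟨by
    rw [withDensity_apply _ MeasurableSet.univ, setLIntegral_univ,
      ← ofReal_integral_eq_lintegral_ofReal hρi (ae_of_all _ fun g => (W.pos _).le), hρ1, ENNReal.ofReal_one]⟩
  have hpi : (Measure.pi fun _ : Fin a => γN).withDensity (fun g => ENNReal.ofReal (patW U g (ones N)))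
      = Measure.pi fun _ : Fin a => ν :=
    Plant.pi_withDensity' γN (ρ := fun _ g => U (fld g (ones N))) (fun _ g => (W.pos _).le)
      (fun _ => W.meas.comp (by fun_prop)) fun _ => hρi
  set P := Measure.pi fun _ : Fin a => γN
  have hint : ∀ {Φ : (Fin a → Fin N → ℝ) → ℝ},
      ∫ g, patW U g (ones N) * Φ g ∂P = ∫ g, Φ g ∂Measure.pi fun _ : Fin a => ν := by
    intro Φ
    rw [← hpi, integral_withDensity_eq_integral_toReal_smul ?_ (ae_of_all _ fun _ => ENNReal.ofReal_lt_top)]
    · exact integral_congr_ae (ae_of_all _ fun g => by simp [ENNReal.toReal_ofReal (patW_pos W g _).le, P])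
    · exact (measurable_patW W measurable_id measurable_const).ennreal_ofReal
  have hmgf := Plant.pi_mgf ν (c := c) (t := -t) (by rwa [abs_neg, abs_of_pos ht]) a (fun g => Real.log (Zf U g))
    (a * Real.log C) (measurable_Zf W).log (fun g => (Zf_mem W g).2) fun g i y => Zf_diff W g i y
  have hgauge : ∀ {φ : ℝ → ℝ}, Measurable φ → ∀ {B : ℝ}, (∀ g : Fin a → Fin N → ℝ, |φ (Zf U g)| ≤ B) →
      ∫ g, patW U g (ones N) * φ (Zf U g) ∂P = ∫ g, Zf U g * φ (Zf U g) ∂P := by
    intro φ hφ B hB
    have h := planted_eq' (a := a) (N := N) W 0 (F := fun d => φ (lik U 0 d))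
      (Gd.of_bdd (hφ.comp (measurable_lik W 0)) fun d => by rw [lik_zero]; exact hB d.1)
      fun s d => by rw [lik_act W]
    simp only [lik_zero, nullM] at h
    rw [integral_fun_fst (fun g => Zf U g * φ (Zf U g))] at h
    have hw : (fun d : Dat a N => wt U 0 d (ones N) * φ (Zf U d.1))
        = fun d => patW U d.1 (ones N) * φ (Zf U d.1) := by funext d; simp [wt]
    rw [hw, integral_fun_fst (fun g => patW U g (ones N) * φ (Zf U g))] at h
    simpa using h
  have hB1 : ∀ g : Fin a → Fin N → ℝ, |Real.exp (-t * Real.log (Zf U g))| ≤ Real.exp (t * (a * Real.log C)) :=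
    fun g => by
      rw [Real.abs_exp, Real.exp_le_exp, neg_mul, ← mul_neg]
      exact mul_le_mul_of_nonneg_left ((neg_le_abs _).trans (Zf_mem W g).2) ht.le
  rw [← hint, ← hint] at hmgf
  rw [hgauge (φ := fun x => Real.exp (-t * Real.log x)) (by fun_prop) hB1,
    hgauge Real.measurable_log fun g => (Zf_mem W g).2] at hmgf
  have hj : Real.exp ((1 - t) * mZ U a N) ≤ ∫ g, Zf U g * Real.exp (-t * Real.log (Zf U g)) ∂P := by
    have e : ∀ g : Fin a → Fin N → ℝ, Zf U g * Real.exp (-t * Real.log (Zf U g))
        = Real.exp ((1 - t) * Real.log (Zf U g)) := fun g => by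
      nth_rewrite 1 [← Real.exp_log (Zf_mem W g).1]
      rw [← Real.exp_add]; congr 1; ring
    simp_rw [e]
    have iL : Integrable (fun g => Real.log (Zf U g)) P :=
      Integrable.of_bound (measurable_Zf W).log.aestronglyMeasurable (a * Real.log C)
        (ae_of_all _ fun g => (Zf_mem W g).2)
    set E := Real.exp ((1 - t) * mZ U a N)
    have hm := integral_mono ((integrable_const (E * (1 - (1 - t) * mZ U a N))).add (iL.const_mul (E * (1 - t))))
      (integrable_exp_logZ W (1 - t) P) fun g => by
        have h1 := mul_le_mul_of_nonneg_left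
          (Real.add_one_le_exp ((1 - t) * Real.log (Zf U g) - (1 - t) * mZ U a N))
          (Real.exp_pos ((1 - t) * mZ U a N)).le
        rw [← Real.exp_add, add_sub_cancel] at h1
        simp only [Pi.add_apply, E]
        linarith
    simp only [Pi.add_apply] at hm
    rw [integral_add (integrable_const _) (iL.const_mul _), integral_const, integral_const_mul, probReal_univ,
      one_smul, show (∫ g, Real.log (Zf U g) ∂P) = mZ U a N from rfl] at hm
    linarith
  have := Real.exp_le_exp.1 (hj.trans hmgf)
  rw [show (∫ g, Zf U g * Real.log (Zf U g) ∂P) = Jt U a N 0 from (Jt_zero_eq W).symm, neg_sq] at this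
  linarith

end

end Vale.Agent.P157.Sph
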